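import Vale.Agent.P148.R2.H291.Edges
import Vale.Agent.P148.R2.H729.Q4

/-!
# Concentration of the energies

The number of grid points of level `k` is a sum of local functionals; its variance is of the order
of its expectation.
-/

open MeasureTheory Set Metric Filter ProbabilityTheory P148
open scoped ENNReal NNReal Nat
open Vale.Agent.P148.R2.H990
open _root_.P148.H729 (Conf num measurable_num res lintegral_mul_res measurableSet_voidEvent)

namespace Vale.Agent.P148.R2.H291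

variable {Ω : Type*} [MeasurableSpace Ω] {P : Measure Ω} {S : Ω → Set Pt} {lam : ℝ≥0}

/-- Chebyshev's inequality from the first two moments. -/
theorem cheb [IsProbabilityMeasure P] {X : Ω → ℝ≥0∞} (hX : Measurable X) {μ V t : ℝ}
    (hμ : 0 ≤ μ) (hV : 0 ≤ V) (ht : 0 < t) (h1 : ∫⁻ ω, X ω ∂P = ENNReal.ofReal μ)
    (h2 : ∫⁻ ω, X ω ^ 2 ∂P ≤ ENNReal.ofReal (μ ^ 2 + V)) :
    P {ω | ENNReal.ofReal (μ + t) ≤ X ω} ≤ ENNReal.ofReal (V / t ^ 2) := by
  set A : Set Ω := {ω | ENNReal.ofReal (μ + t) ≤ X ω} with hA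
  have hAm : MeasurableSet A := measurableSet_le measurable_const hX
  have hpt : ∀ ω, ENNReal.ofReal (t ^ 2) * A.indicator (fun _ => (1 : ℝ≥0∞)) ω +
      ENNReal.ofReal (2 * μ) * X ω ≤ X ω ^ 2 + ENNReal.ofReal (μ ^ 2) := by
    intro ω
    rcases eq_or_ne (X ω) ⊤ with hx | hx
    · rw [hx]
      simp
    · obtain ⟨y, hy0, hy'⟩ : ∃ y : ℝ, 0 ≤ y ∧ X ω = ENNReal.ofReal y :=
        ⟨(X ω).toReal, ENNReal.toReal_nonneg, (ENNReal.ofReal_toReal hx).symm⟩
      by_cases hω : ω ∈ A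
      · have h3 : μ + t ≤ y := by
          have : ENNReal.ofReal (μ + t) ≤ X ω := hω
          rw [hy'] at this
          exact (ENNReal.ofReal_le_ofReal_iff hy0).1 this
        rw [indicator_of_mem hω, mul_one, hy', ← ENNReal.ofReal_mul (by positivity),
          ← ENNReal.ofReal_add (by positivity) (by positivity), ← ENNReal.ofReal_pow hy0,
          ← ENNReal.ofReal_add (by positivity) (by positivity)]
        refine ENNReal.ofReal_le_ofReal ?_
        nlinarith
      · rw [indicator_of_notMem hω, mul_zero, zero_add, hy', ← ENNReal.ofReal_mul (by positivity),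
          ← ENNReal.ofReal_pow hy0, ← ENNReal.ofReal_add (by positivity) (by positivity)]
        refine ENNReal.ofReal_le_ofReal ?_
        nlinarith [sq_nonneg (y - μ)]
  have h3 : ENNReal.ofReal (t ^ 2) * P A + ENNReal.ofReal (2 * μ ^ 2) ≤
      ENNReal.ofReal (2 * μ ^ 2) + ENNReal.ofReal V := by
    calc ENNReal.ofReal (t ^ 2) * P A + ENNReal.ofReal (2 * μ ^ 2)
        = ∫⁻ ω, (ENNReal.ofReal (t ^ 2) * A.indicator (fun _ => (1 : ℝ≥0∞)) ω +
            ENNReal.ofReal (2 * μ) * X ω) ∂P := by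
          rw [lintegral_add_left ((measurable_const.indicator hAm).const_mul _),
            lintegral_const_mul _ (measurable_const.indicator hAm), lintegral_const_mul _ hX, h1,
            lintegral_indicator_const hAm, one_mul, ← ENNReal.ofReal_mul (by positivity)]
          congr 2
          ring
      _ ≤ ∫⁻ ω, (X ω ^ 2 + ENNReal.ofReal (μ ^ 2)) ∂P := lintegral_mono hpt
      _ = ∫⁻ ω, X ω ^ 2 ∂P + ENNReal.ofReal (μ ^ 2) := by
          rw [lintegral_add_right _ measurable_const, lintegral_const, measure_univ, mul_one]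
      _ ≤ ENNReal.ofReal (μ ^ 2 + V) + ENNReal.ofReal (μ ^ 2) := by gcongr
      _ = _ := by
          rw [← ENNReal.ofReal_add (by positivity) (by positivity),
            ← ENNReal.ofReal_add (by positivity) hV]
          congr 1
          ring
  rw [add_comm] at h3
  have h4 := (ENNReal.add_le_add_iff_left ENNReal.ofReal_ne_top).1 h3
  rw [ENNReal.ofReal_div_of_pos (by positivity)]
  rw [ENNReal.le_div_iff_mul_le (Or.inl (by positivity)) (Or.inl ENNReal.ofReal_ne_top), mul_comm]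
  exact h4

theorem mul_le_sq_add_sq (x y : ℝ≥0∞) : x * y ≤ x ^ 2 + y ^ 2 := by
  rcases le_total x y with h | h
  · calc x * y ≤ y * y := by gcongr
      _ = y ^ 2 := (pow_two y).symm
      _ ≤ _ := le_add_self
  · calc x * y ≤ x * x := by gcongr
      _ = x ^ 2 := (pow_two x).symm
      _ ≤ _ := le_self_add

/-- The second moment of a sum of weakly dependent variables. -/
theorem second_moment {ι : Type*} (s : Finset ι) (X : ι → Ω → ℝ≥0∞) (hX : ∀ i, Measurable (X i))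
    (near : ι → ι → Prop) [DecidableRel near] {b D : ℝ≥0∞}
    (hfar : ∀ i ∈ s, ∀ j ∈ s, ¬ near i j →
      ∫⁻ ω, X i ω * X j ω ∂P ≤ (∫⁻ ω, X i ω ∂P) * ∫⁻ ω, X j ω ∂P)
    (hb : ∀ i ∈ s, ∫⁻ ω, X i ω ^ 2 ∂P ≤ b)
    (hD : ∀ i ∈ s, ((s.filter (near i)).card : ℝ≥0∞) ≤ D) :
    ∫⁻ ω, (∑ i ∈ s, X i ω) ^ 2 ∂P ≤ (∑ i ∈ s, ∫⁻ ω, X i ω ∂P) ^ 2 + s.card * (D * (2 * b)) := by
  have e1 : ∀ ω, (∑ i ∈ s, X i ω) ^ 2 = ∑ i ∈ s, ∑ j ∈ s, X i ω * X j ω := by
    intro ω
    rw [pow_two, Finset.sum_mul_sum]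
  simp_rw [e1]
  have hm : ∀ i j, Measurable fun ω => X i ω * X j ω := fun i j => (hX i).mul (hX j)
  rw [lintegral_finsetSum _ fun i _ => Finset.measurable_fun_sum _ fun j _ => hm i j]
  have e2 : ∀ i ∈ s, ∫⁻ ω, ∑ j ∈ s, X i ω * X j ω ∂P ≤
      ∑ j ∈ s, ((∫⁻ ω, X i ω ∂P) * ∫⁻ ω, X j ω ∂P) + D * (2 * b) := by
    intro i hi
    rw [lintegral_finsetSum _ fun j _ => hm i j]
    have e3 : ∀ j ∈ s, ∫⁻ ω, X i ω * X j ω ∂P ≤ (∫⁻ ω, X i ω ∂P) * (∫⁻ ω, X j ω ∂P) +
        if near i j then 2 * b else 0 := by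
      intro j hj
      split_ifs with hn
      · refine le_trans ?_ le_add_self
        calc ∫⁻ ω, X i ω * X j ω ∂P ≤ ∫⁻ ω, (X i ω ^ 2 + X j ω ^ 2) ∂P :=
              lintegral_mono fun ω => mul_le_sq_add_sq _ _
          _ = ∫⁻ ω, X i ω ^ 2 ∂P + ∫⁻ ω, X j ω ^ 2 ∂P :=
              lintegral_add_left ((hX i).pow_const 2) _
          _ ≤ b + b := add_le_add (hb i hi) (hb j hj)
          _ = 2 * b := (two_mul b).symm
      · rw [add_zero]
        exact hfar i hi j hj hn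
    refine (Finset.sum_le_sum e3).trans ?_
    rw [Finset.sum_add_distrib]
    gcongr
    rw [← Finset.sum_filter, Finset.sum_const, nsmul_eq_mul]
    gcongr
    exact hD i hi
  refine (Finset.sum_le_sum e2).trans (le_of_eq ?_)
  rw [Finset.sum_add_distrib, Finset.sum_const, nsmul_eq_mul]
  congr 1
  rw [pow_two, Finset.sum_mul_sum]

/-! ### the level functionals -/

theorem not_stabD_iff (T : Set Pt) (x : ℂ) (r : ℝ) :
    ¬ StabD (pts T) x r ↔ ∃ j ∈ net, T ∩ dsk (x + r * j) (r / 32) = ∅ := by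
  simp only [StabD, not_forall, pts_inter, image_nonempty, not_nonempty_iff_eq_empty, exists_prop]

/-- The configurations for which the level `k` is not stable. -/
def ns (x : ℂ) (a : ℝ) (k : ℕ) : Set (Set Pt) := {T | k = 0 ∨ ¬ StabD (pts T) x (k * a)}

theorem measurableSet_ns (x : ℂ) (a : ℝ) (k : ℕ) : @MeasurableSet _ voidSigma (ns x a k) := by
  have h1 : ns x a k = {_T | k = 0} ∪ ⋃ j ∈ net,
      {T : Set Pt | T ∩ dsk (x + (k * a : ℝ) * j) (k * a / 32) = ∅} := by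
    ext T
    simp only [ns, mem_ofPred_eq, not_stabD_iff, mem_union, mem_iUnion, exists_prop]
  rw [h1]
  refine @MeasurableSet.union _ voidSigma _ _ (@MeasurableSet.const _ voidSigma _) ?_
  refine @Finset.measurableSet_biUnion _ _ voidSigma _ _ fun j _ => ?_
  exact measurableSet_voidEvent (measurableSet_dsk _ _) (bdd_dsk _ _)

open Classical in
/-- The functional of level `k`. -/
noncomputable def lvl (x : ℂ) (a : ℝ) (q k : ℕ) (T : Set Pt) : ℝ≥0∞ :=
  (ns x a k).indicator (fun T => (num (dsk x (2 * ((k + 1 : ℕ) * a))) T) ^ q) T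

theorem measurable_lvl (x : ℂ) (a : ℝ) (q k : ℕ) :
    @Measurable _ _ voidSigma _ (lvl x a q k) := by
  have h1 : @MeasurableSet Conf _ (ns x a k) := measurableSet_ns x a k
  have h2 : @Measurable Conf ℝ≥0∞ _ _ (num (dsk x (2 * ((k + 1 : ℕ) * a)))) :=
    measurable_num (measurableSet_dsk _ _) (bdd_dsk _ _)
  exact Measurable.indicator (h2.pow_const q) h1

theorem indicator_bd (h : IsColouredPoisson P S lam) (x : ℂ) (a : ℝ) (q k : ℕ) (ω : Ω) :
    (bd S x a k).indicator (fun ω => (cnt S x (2 * ((k + 1 : ℕ) * a)) ω : ℝ≥0∞) ^ q) ω =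
      lvl x a q k (S ω) := by
  have h1 : ω ∈ bd S x a k ↔ S ω ∈ ns x a k := by
    unfold bd ns badD
    split_ifs with h0
    · simp [h0]
    · simp [h0]
  have h2 : num (dsk x (2 * ((k + 1 : ℕ) * a))) (S ω) =
      (cnt S x (2 * ((k + 1 : ℕ) * a)) ω : ℝ≥0∞) := by
    unfold num cnt
    rw [← (h.finite_inter ω (bdd_dsk _ _)).cast_ncard_eq]
    simp
  unfold lvl
  by_cases hω : ω ∈ bd S x a k
  · rw [indicator_of_mem hω, indicator_of_mem (h1.1 hω), h2]
  · rw [indicator_of_notMem hω, indicator_of_notMem (fun h' => hω (h1.2 h'))]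

/-- The range of the functional of level `k` is `rad * (k + 1) * a`. -/
noncomputable def rad : ℝ := 3 + ∑ j ∈ net, ‖j‖

theorem rad_pos : 3 ≤ rad := by
  have : 0 ≤ ∑ j ∈ net, ‖j‖ := Finset.sum_nonneg fun _ _ => norm_nonneg _
  unfold rad
  linarith

theorem res_inter {U : Set ℂ} {T A : Set Pt} (h : A ⊆ U ×ˢ univ) : res U T ∩ A = T ∩ A := by
  unfold res
  ext p
  simp only [mem_inter_iff]
  exact ⟨fun hp => ⟨hp.1.1, hp.2⟩, fun hp => ⟨⟨hp.1, h hp.2⟩, hp.2⟩⟩

theorem lvl_res {x : ℂ} {a : ℝ} (ha : 0 < a) (q k : ℕ) (T : Set Pt) :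
    lvl x a q k (res (ball x (rad * (k + 1 : ℕ) * a)) T) = lvl x a q k T := by
  set U := ball x (rad * (k + 1 : ℕ) * a) with hU
  have hk1 : (1 : ℝ) ≤ ((k + 1 : ℕ) : ℝ) := by exact_mod_cast Nat.succ_le_succ (Nat.zero_le k)
  have hr := rad_pos
  have h1 : dsk x (2 * ((k + 1 : ℕ) * a)) ⊆ U ×ˢ univ := by
    refine prod_mono ?_ subset_rfl
    refine closedBall_subset_ball ?_
    have : 0 < ((k + 1 : ℕ) : ℝ) * a := by positivity
    nlinarith
  have h2 : ∀ j ∈ net, dsk (x + (k * a : ℝ) * j) (k * a / 32) ⊆ U ×ˢ univ := by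
    intro j hj
    refine prod_mono ?_ subset_rfl
    intro y hy
    rw [mem_closedBall] at hy
    rw [hU, mem_ball]
    have h3 : dist (x + (k * a : ℝ) * j) x = k * a * ‖j‖ := by
      rw [dist_eq_norm, add_sub_cancel_left, norm_mul, Complex.norm_real,
        Real.norm_of_nonneg (by positivity)]
    have h4 : ‖j‖ ≤ rad - 3 := by
      have := Finset.single_le_sum (f := fun j : ℂ => ‖j‖) (fun _ _ => norm_nonneg _) hj
      unfold rad
      linarith
    have h5 := dist_triangle y (x + (k * a : ℝ) * j) x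
    have h6 : (k : ℝ) * a * ‖j‖ ≤ (k + 1 : ℕ) * a * (rad - 3) := by
      push_cast
      have : (k : ℝ) * a ≤ (k + 1) * a := by nlinarith
      have h0 := norm_nonneg j
      have : (0 : ℝ) ≤ (k : ℝ) * a := by positivity
      gcongr
    have h7 : (k : ℝ) * a / 32 < 3 * ((k + 1 : ℕ) * a) := by
      push_cast
      have : (0 : ℝ) ≤ (k : ℝ) * a := by positivity
      linarith
    calc dist y x ≤ k * a / 32 + k * a * ‖j‖ := by linarith
      _ < 3 * ((k + 1 : ℕ) * a) + (k + 1 : ℕ) * a * (rad - 3) := by linarith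
      _ = rad * (k + 1 : ℕ) * a := by ring
  have h3 : res U T ∈ ns x a k ↔ T ∈ ns x a k := by
    simp only [ns, mem_ofPred_eq, not_stabD_iff]
    refine or_congr Iff.rfl (exists_congr fun j => and_congr_right fun hj => ?_)
    rw [res_inter (T := T) (h2 j hj)]
  have h4 : num (dsk x (2 * ((k + 1 : ℕ) * a))) (res U T) =
      num (dsk x (2 * ((k + 1 : ℕ) * a))) T := by
    unfold num
    rw [res_inter h1]
  unfold lvl
  by_cases hT : T ∈ ns x a k
  · rw [indicator_of_mem hT, indicator_of_mem (h3.2 hT), h4]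
  · rw [indicator_of_notMem hT, indicator_of_notMem (fun h' => hT (h3.1 h'))]

/-- Independence of the functionals at distant points. -/
theorem lvl_indep [IsProbabilityMeasure P] (h : IsColouredPoisson P S lam) {a : ℝ} (ha : 0 < a)
    (q k : ℕ) {x y : ℂ} (hxy : 2 * (rad * (k + 1 : ℕ) * a) ≤ dist x y) :
    ∫⁻ ω, lvl x a q k (S ω) * lvl y a q k (S ω) ∂P =
      (∫⁻ ω, lvl x a q k (S ω) ∂P) * ∫⁻ ω, lvl y a q k (S ω) ∂P := by
  have hd : Disjoint (ball x (rad * (k + 1 : ℕ) * a)) (ball y (rad * (k + 1 : ℕ) * a)) :=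
    ball_disjoint_ball (by linarith)
  have key := lintegral_mul_res h measurableSet_ball measurableSet_ball hd
    (measurable_lvl x a q k) (measurable_lvl y a q k)
  simpa only [lvl_res ha] using key

theorem lvl_sq (x : ℂ) (a : ℝ) (q k : ℕ) (T : Set Pt) :
    lvl x a q k T ^ 2 = lvl x a (2 * q) k T := by
  unfold lvl
  by_cases hT : T ∈ ns x a k
  · rw [indicator_of_mem hT, indicator_of_mem hT, ← pow_mul, mul_comm q 2]
  · rw [indicator_of_notMem hT, indicator_of_notMem hT, zero_pow two_ne_zero]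

theorem lint_lvl [IsProbabilityMeasure P] (h : IsColouredPoisson P S lam) (x : ℂ) {a : ℝ}
    (ha : 0 < a) (hla : lam * a ^ 2 = 1) (q k : ℕ) :
    ∫⁻ ω, lvl x a q k (S ω) ∂P ≤ ENNReal.ofReal (bk 0 q k) := by
  have h1 := lint_level h x ha hla q k
  simp_rw [indicator_bd h x a q k] at h1
  refine h1.trans (le_of_eq ?_)
  unfold bk
  rw [pow_zero, one_mul]

theorem measurable_lvl_comp (h : IsColouredPoisson P S lam) (x : ℂ) (a : ℝ) (q k : ℕ) :
    Measurable fun ω => lvl x a q k (S ω) :=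
  @Measurable.comp _ _ _ _ voidSigma _ _ _ (measurable_lvl x a q k) h.measurable_self

/-! ### the constants -/

theorem summable_pexp {c : ℝ} (hc : 0 < c) (m : ℕ) :
    Summable (fun k : ℕ => ((k + 1 : ℕ) : ℝ) ^ m * Real.exp (-(c * (k : ℝ) ^ 2))) := by
  set r : ℝ := Real.exp (-c) with hr
  have hr0 : 0 < r := Real.exp_pos _
  have hr1 : ‖r‖ < 1 := by
    rw [hr, Real.norm_of_nonneg (Real.exp_nonneg _), Real.exp_lt_one_iff]
    linarith
  have h1 : Summable (fun k : ℕ => ((k + 1 : ℕ) : ℝ) ^ m * r ^ (k + 1)) :=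
    (summable_nat_add_iff (f := fun n : ℕ => (n : ℝ) ^ m * r ^ n) 1).2
      (summable_pow_mul_geometric_of_norm_lt_one m hr1)
  refine (h1.mul_left r⁻¹).of_nonneg_of_le (fun k => by positivity) fun k => ?_
  have e1 : Real.exp (-(c * (k : ℝ) ^ 2)) ≤ r ^ k := by
    rw [hr, ← Real.exp_nat_mul]
    refine Real.exp_le_exp.2 ?_
    have : (k : ℝ) ≤ k ^ 2 := by
      exact_mod_cast Nat.le_self_pow two_ne_zero k
    nlinarith
  calc ((k + 1 : ℕ) : ℝ) ^ m * Real.exp (-(c * (k : ℝ) ^ 2)) ≤ ((k + 1 : ℕ) : ℝ) ^ m * r ^ k := by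
        gcongr
    _ = r⁻¹ * (((k + 1 : ℕ) : ℝ) ^ m * r ^ (k + 1)) := by
        rw [pow_succ r k]
        field_simp

/-- The margin of level `k`. -/
noncomputable def wk (k : ℕ) : ℝ := Real.exp (-(Real.pi / 8192 * (k : ℝ) ^ 2))

theorem wk_pos (k : ℕ) : 0 < wk k := Real.exp_pos _

theorem wk_sq (k : ℕ) : wk k ^ 2 = Real.exp (-(Real.pi / 4096 * (k : ℝ) ^ 2)) := by
  rw [wk, pow_two, ← Real.exp_add]
  congr 1
  ring

/-- The constant of the upper bound. -/
noncomputable def CD (p q : ℕ) : ℝ := ∑' k : ℕ, ((k + 1 : ℕ) : ℝ) ^ p * (bk 0 q k + wk k)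

theorem bk_zero (p q k : ℕ) : ((k + 1 : ℕ) : ℝ) ^ p * bk 0 q k = bk p q k := by
  unfold bk
  rw [pow_zero, one_mul]

theorem summable_CD (p q : ℕ) :
    Summable fun k : ℕ => ((k + 1 : ℕ) : ℝ) ^ p * (bk 0 q k + wk k) := by
  have h1 := (summable_bk p q).add (summable_pexp (c := Real.pi / 8192) (by positivity) p)
  refine h1.congr fun k => ?_
  rw [mul_add, bk_zero, wk]

theorem CD_nonneg (p q : ℕ) : 0 ≤ CD p q :=
  tsum_nonneg fun k => mul_nonneg (by positivity) (add_nonneg (bk_nonneg 0 q k) (wk_pos k).le)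

/-- The terms of the constant of the error probability. -/
noncomputable def kk (q k : ℕ) : ℝ :=
  (4 * rad * (k + 1 : ℕ) + 1) ^ 2 * (2 * bk 0 (2 * q) k) / wk k ^ 2

theorem kk_nonneg (q k : ℕ) : 0 ≤ kk q k := by
  have := bk_nonneg 0 (2 * q) k
  unfold kk
  positivity

theorem summable_kk (q : ℕ) : Summable (kk q) := by
  set C : ℝ := (2 * (2 * q))! * Real.exp 2 * (4 * Real.pi) ^ (2 * (2 * q)) + net.card with hC
  set m := 2 + 2 * (2 * (2 * q)) with hm
  have h1 := (summable_pexp (c := Real.pi / 4096) (by positivity) m).mul_left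
    ((4 * rad + 1) ^ 2 * (2 * C))
  refine h1.of_nonneg_of_le (kk_nonneg q) fun k => ?_
  have hk1 : (1 : ℝ) ≤ ((k + 1 : ℕ) : ℝ) := by exact_mod_cast Nat.succ_le_succ (Nat.zero_le k)
  have hr := rad_pos
  have e1 : (4 * rad * (k + 1 : ℕ) + 1) ^ 2 ≤ (4 * rad + 1) ^ 2 * ((k + 1 : ℕ) : ℝ) ^ 2 := by
    rw [← mul_pow]
    refine pow_le_pow_left₀ (by positivity) ?_ 2
    nlinarith
  have e2 : (2 * (2 * q))! * Real.exp 2 * (4 * Real.pi * ((k + 1 : ℕ) : ℝ) ^ 2) ^ (2 * (2 * q)) +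
      net.card ≤ C * ((k + 1 : ℕ) : ℝ) ^ (2 * (2 * (2 * q))) := by
    rw [hC, add_mul, mul_pow, ← pow_mul]
    have : (net.card : ℝ) ≤ net.card * ((k + 1 : ℕ) : ℝ) ^ (2 * (2 * (2 * q))) :=
      le_mul_of_one_le_right (by positivity) (one_le_pow₀ hk1)
    have h4 : ((2 * (2 * q))! : ℝ) * Real.exp 2 * ((4 * Real.pi) ^ (2 * (2 * q)) *
        ((k + 1 : ℕ) : ℝ) ^ (2 * (2 * (2 * q)))) = (2 * (2 * q))! * Real.exp 2 *
          (4 * Real.pi) ^ (2 * (2 * q)) * ((k + 1 : ℕ) : ℝ) ^ (2 * (2 * (2 * q))) := by ring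
    rw [h4]
    gcongr
  have e3 : bk 0 (2 * q) k / wk k ^ 2 ≤
      Real.exp (-(Real.pi / 4096 * (k : ℝ) ^ 2)) * (C * ((k + 1 : ℕ) : ℝ) ^ (2 * (2 * (2 * q)))) := by
    rw [wk_sq, div_le_iff₀ (Real.exp_pos _)]
    unfold bk
    rw [pow_zero, one_mul]
    have e4 : Real.exp (-(Real.pi / 2048 * (k : ℝ) ^ 2)) =
        Real.exp (-(Real.pi / 4096 * (k : ℝ) ^ 2)) * Real.exp (-(Real.pi / 4096 * (k : ℝ) ^ 2)) := by
      rw [← Real.exp_add]
      congr 1
      ring
    rw [e4]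
    have h5 : 0 < Real.exp (-(Real.pi / 4096 * (k : ℝ) ^ 2)) := Real.exp_pos _
    calc _ ≤ Real.exp (-(Real.pi / 4096 * (k : ℝ) ^ 2)) *
          Real.exp (-(Real.pi / 4096 * (k : ℝ) ^ 2)) *
          (C * ((k + 1 : ℕ) : ℝ) ^ (2 * (2 * (2 * q)))) := by gcongr
      _ = _ := by ring
  calc kk q k = (4 * rad * (k + 1 : ℕ) + 1) ^ 2 * (2 * (bk 0 (2 * q) k / wk k ^ 2)) := by
        unfold kk
        ring
    _ ≤ (4 * rad + 1) ^ 2 * ((k + 1 : ℕ) : ℝ) ^ 2 * (2 *
          (Real.exp (-(Real.pi / 4096 * (k : ℝ) ^ 2)) *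
            (C * ((k + 1 : ℕ) : ℝ) ^ (2 * (2 * (2 * q)))))) := by
        have := bk_nonneg 0 (2 * q) k
        gcongr
    _ = _ := by
        rw [hm, pow_add]
        ring

/-- The constant of the error probability. -/
noncomputable def KK (q : ℕ) : ℝ := ∑' k : ℕ, kk q k

theorem KK_nonneg (q : ℕ) : 0 ≤ KK q := tsum_nonneg (kk_nonneg q)

/-! ### concentration -/

theorem level_tail [IsProbabilityMeasure P] (h : IsColouredPoisson P S lam) {a : ℝ}
    (ha : 0 < a) (hla : lam * a ^ 2 = 1) (q k : ℕ) (x : ℂ) {R : ℝ} {N : ℝ} (hN0 : 0 < N)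
    (hN : ((win a x R).card : ℝ) ≤ N) {t : ℝ} (ht : 0 < t) :
    P {ω | ENNReal.ofReal (N * (bk 0 q k + t)) ≤
      ∑ m ∈ win a x R, lvl (gp a m) a q k (S ω)} ≤
      ENNReal.ofReal ((4 * rad * (k + 1 : ℕ) + 1) ^ 2 * (2 * bk 0 (2 * q) k) / (N * t ^ 2)) := by
  classical
  set s := win a x R with hs
  set X : ℤ × ℤ → Ω → ℝ≥0∞ := fun m ω => lvl (gp a m) a q k (S ω) with hX
  have hXm : ∀ m, Measurable (X m) := fun m => measurable_lvl_comp h (gp a m) a q k
  have hb1 := bk_nonneg 0 q k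
  have hb2 := bk_nonneg 0 (2 * q) k
  have hr := rad_pos
  have hk1 : (1 : ℝ) ≤ ((k + 1 : ℕ) : ℝ) := by exact_mod_cast Nat.succ_le_succ (Nat.zero_le k)
  set D : ℝ := (4 * rad * (k + 1 : ℕ) + 1) ^ 2 with hD
  have hD0 : 0 ≤ D := by positivity
  -- first moment
  have hE : ∑ m ∈ s, ∫⁻ ω, X m ω ∂P ≤ ENNReal.ofReal (N * bk 0 q k) := by
    calc ∑ m ∈ s, ∫⁻ ω, X m ω ∂P ≤ ∑ _m ∈ s, ENNReal.ofReal (bk 0 q k) :=
          Finset.sum_le_sum fun m _ => lint_lvl h (gp a m) ha hla q k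
      _ = ENNReal.ofReal (s.card * bk 0 q k) := by
          rw [Finset.sum_const, nsmul_eq_mul, ENNReal.ofReal_mul (by positivity),
            ENNReal.ofReal_natCast]
      _ ≤ _ := ENNReal.ofReal_le_ofReal (by gcongr)
  have hEt : ∑ m ∈ s, ∫⁻ ω, X m ω ∂P ≠ ⊤ := (hE.trans_lt ENNReal.ofReal_lt_top).ne
  set μ : ℝ := (∑ m ∈ s, ∫⁻ ω, X m ω ∂P).toReal with hμ
  have hμ0 : 0 ≤ μ := ENNReal.toReal_nonneg
  have hμe : ∑ m ∈ s, ∫⁻ ω, X m ω ∂P = ENNReal.ofReal μ := (ENNReal.ofReal_toReal hEt).symm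
  have hμN : μ ≤ N * bk 0 q k := by
    rw [hμe] at hE
    exact (ENNReal.ofReal_le_ofReal_iff (by positivity)).1 hE
  -- second moment
  have h2 := second_moment (P := P) s X hXm
    (fun m m' => dist (gp a m) (gp a m') < 2 * (rad * (k + 1 : ℕ) * a))
    (b := ENNReal.ofReal (bk 0 (2 * q) k)) (D := ENNReal.ofReal D) (by
      intro i _ j _ hij
      push Not at hij
      exact (lvl_indep h ha q k hij).le) (by
      intro i _
      simp only [hX, lvl_sq]
      exact lint_lvl h (gp a i) ha hla (2 * q) k) (by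
      intro i _
      have h3 : (s.filter fun m' => dist (gp a i) (gp a m') < 2 * (rad * (k + 1 : ℕ) * a)) ⊆
          win a (gp a i) (2 * (rad * (k + 1 : ℕ) * a)) := by
        intro m' hm'
        rw [Finset.mem_filter, dist_comm] at hm'
        exact mem_win ha hm'.2.le
      have h4 := card_win_le ha (gp a i) (R := 2 * (rad * (k + 1 : ℕ) * a)) (by positivity)
      have h5 : 2 * (2 * (rad * (k + 1 : ℕ) * a)) / a + 1 = 4 * rad * (k + 1 : ℕ) + 1 := by
        field_simp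
        ring
      rw [h5, ← hD] at h4
      have h6 : ((s.filter fun m' => dist (gp a i) (gp a m') < 2 * (rad * (k + 1 : ℕ) * a)).card :
          ℝ) ≤ D := le_trans (by exact_mod_cast Finset.card_le_card h3) h4
      rw [← ENNReal.ofReal_natCast]
      exact ENNReal.ofReal_le_ofReal h6)
  set V : ℝ := N * (D * (2 * bk 0 (2 * q) k)) with hV
  have hV0 : 0 ≤ V := by positivity
  have h3 : ∫⁻ ω, (∑ m ∈ s, X m ω) ^ 2 ∂P ≤ ENNReal.ofReal (μ ^ 2 + V) := by
    refine h2.trans ?_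
    rw [hμe, ENNReal.ofReal_add (by positivity) hV0, ENNReal.ofReal_pow hμ0, hV,
      ENNReal.ofReal_mul hN0.le, ENNReal.ofReal_mul hD0, ENNReal.ofReal_mul (by norm_num : (0:ℝ) ≤ 2)]
    gcongr
    · rw [← ENNReal.ofReal_natCast]
      exact ENNReal.ofReal_le_ofReal hN
    · norm_num
  have h4 := cheb (P := P) (X := fun ω => ∑ m ∈ s, X m ω)
    (Finset.measurable_fun_sum _ fun m _ => hXm m) hμ0 hV0 (t := N * t) (by positivity) (by
      rw [lintegral_finsetSum _ fun m _ => hXm m, hμe]) h3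
  refine (measure_mono ?_).trans (h4.trans (le_of_eq ?_))
  · intro ω hω
    refine le_trans (ENNReal.ofReal_le_ofReal ?_) (show _ ≤ _ from hω)
    rw [mul_add]
    linarith
  · congr 1
    rw [hV]
    field_simp

/-- **Concentration of the majorants.** -/
theorem conc [IsProbabilityMeasure P] (h : IsColouredPoisson P S lam) {a : ℝ}
    (ha : 0 < a) (hla : lam * a ^ 2 = 1) (p q : ℕ) (x : ℂ) {R : ℝ} {N : ℝ} (hN0 : 0 < N)
    (hN : ((win a x R).card : ℝ) ≤ N) :
    P {ω | ENNReal.ofReal (N * CD p q) < ∑ m ∈ win a x R, maj S (gp a m) a p q ω} ≤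
      ENNReal.ofReal (KK q / N) := by
  have h1 : {ω | ENNReal.ofReal (N * CD p q) < ∑ m ∈ win a x R, maj S (gp a m) a p q ω} ⊆
      ⋃ k : ℕ, {ω | ENNReal.ofReal (N * (bk 0 q k + wk k)) ≤
        ∑ m ∈ win a x R, lvl (gp a m) a q k (S ω)} := by
    intro ω hω
    by_contra hcon
    simp only [mem_iUnion, mem_ofPred_eq, not_exists, not_le] at hcon
    refine absurd (show ENNReal.ofReal (N * CD p q) < _ from hω) (not_lt.2 ?_)
    calc ∑ m ∈ win a x R, maj S (gp a m) a p q ω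
        = ∑ m ∈ win a x R, ∑' k : ℕ, ((k + 1 : ℕ) : ℝ≥0∞) ^ p * lvl (gp a m) a q k (S ω) := by
          refine Finset.sum_congr rfl fun m _ => ?_
          unfold maj
          refine tsum_congr fun k => ?_
          rw [indicator_bd h (gp a m) a q k]
      _ = ∑' k : ℕ, ∑ m ∈ win a x R, ((k + 1 : ℕ) : ℝ≥0∞) ^ p * lvl (gp a m) a q k (S ω) := by
          rw [Summable.tsum_finsetSum fun _ _ => ENNReal.summable]
      _ ≤ ∑' k : ℕ, ENNReal.ofReal (N * (((k + 1 : ℕ) : ℝ) ^ p * (bk 0 q k + wk k))) := by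
          refine ENNReal.tsum_le_tsum fun k => ?_
          rw [← Finset.mul_sum]
          have hb := bk_nonneg 0 q k
          have hw := wk_pos k
          calc ((k + 1 : ℕ) : ℝ≥0∞) ^ p * ∑ m ∈ win a x R, lvl (gp a m) a q k (S ω)
              ≤ ((k + 1 : ℕ) : ℝ≥0∞) ^ p * ENNReal.ofReal (N * (bk 0 q k + wk k)) := by
                gcongr
                exact (hcon k).le
            _ = _ := by
                rw [← ENNReal.ofReal_natCast, ← ENNReal.ofReal_pow (by positivity),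
                  ← ENNReal.ofReal_mul (by positivity)]
                congr 1
                ring
      _ = ENNReal.ofReal (N * CD p q) := by
          rw [CD, ← tsum_mul_left, ENNReal.ofReal_tsum_of_nonneg]
          · intro k
            have hb := bk_nonneg 0 q k
            have hw := wk_pos k
            positivity
          · exact (summable_CD p q).mul_left N
  refine (measure_mono h1).trans ((measure_iUnion_le _).trans ?_)
  have h2 : KK q / N = ∑' k : ℕ, kk q k / N := by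
    rw [KK, tsum_div_const]
  rw [h2, ENNReal.ofReal_tsum_of_nonneg (fun k => div_nonneg (kk_nonneg q k) hN0.le)
    ((summable_kk q).div_const N)]
  refine ENNReal.tsum_le_tsum fun k => ?_
  refine (level_tail h ha hla q k x hN0 hN (wk_pos k)).trans (le_of_eq ?_)
  congr 1
  unfold kk
  have := wk_pos k
  field_simp

end Vale.Agent.P148.R2.H291
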