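import Vale.Agent.P148.R2.H291.Cut
import Vale.Agent.P148.R2.H592.Gen2
import Vale.Agent.P148.R2.H592.Del7

/-!
# Good centres

`GoodAt X k l J C`: the dyadic energy bound around `k` at the scales `l, 2 l, …, 2 ^ J * l`.
-/

open MeasureTheory Set Metric Filter ProbabilityTheory P148
open scoped ENNReal NNReal Nat
open Vale.Agent.P148.R2.H990
open Vale.Agent.P148.R2.H592 (nbr tail head Fc HullTri XU)

namespace Vale.Agent.P148.R2.H291

/-- The dyadic energy bound around `k`. -/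
def GoodAt (X : Set ℂ) (k : ℂ) (l : ℝ) (J : ℕ) (C : ℝ) : Prop :=
  ∀ F : Finset (ℂ × ℂ), (∀ e ∈ F, nbr X e.1 e.2) →
    ∑ j ∈ Finset.range (J + 1),
      (∑ e ∈ F with dist e.1 k ≤ 2 ^ j * l, dist e.1 e.2 ^ 2) / (2 ^ j * l) ^ 2 ≤ C * (J + 1)

theorem nbr_iff_adj {X : Set ℂ} {u v : ℂ} : nbr X u v ↔ Adj X u v := Iff.rfl

theorem GoodAt.mono {X : Set ℂ} {k : ℂ} {l : ℝ} {J : ℕ} {C C' : ℝ} (h : GoodAt X k l J C)
    (hC : C ≤ C') : GoodAt X k l J C' := fun F hF => (h F hF).trans (by gcongr)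

theorem goodAt_of_ed {X : Set ℂ} {k : ℂ} {l : ℝ} {J : ℕ} {C : ℝ} (hC : 0 ≤ C)
    (h : ∑ j ∈ Finset.range (J + 1), ENNReal.ofReal (((2 ^ j * l) ^ 2)⁻¹) *
      ed 2 X k (2 ^ j * l) ≤ ENNReal.ofReal (C * ((J + 1 : ℕ) : ℝ))) : GoodAt X k l J C := by
  intro F hF
  have h1 : ∀ j : ℕ, ENNReal.ofReal
      ((∑ e ∈ F with dist e.1 k ≤ 2 ^ j * l, dist e.1 e.2 ^ 2) / (2 ^ j * l) ^ 2) ≤
      ENNReal.ofReal (((2 ^ j * l) ^ 2)⁻¹) * ed 2 X k (2 ^ j * l) := by
    intro j
    rw [div_eq_inv_mul, ENNReal.ofReal_mul (by positivity),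
      ENNReal.ofReal_sum_of_nonneg fun _ _ => by positivity]
    gcongr
    refine sum_le_ed _ fun e he => ?_
    rw [Finset.mem_filter] at he
    exact ⟨hF e he.1, he.2⟩
  have h2 : ENNReal.ofReal (∑ j ∈ Finset.range (J + 1),
      (∑ e ∈ F with dist e.1 k ≤ 2 ^ j * l, dist e.1 e.2 ^ 2) / (2 ^ j * l) ^ 2) ≤
      ENNReal.ofReal (C * ((J + 1 : ℕ) : ℝ)) := by
    rw [ENNReal.ofReal_sum_of_nonneg fun _ _ => by positivity]
    exact (Finset.sum_le_sum fun j _ => h1 j).trans h
  rw [ENNReal.ofReal_le_ofReal_iff (by positivity)] at h2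
  push_cast at h2
  exact h2

/-- The neighbours of a stable point depend only on the points near it. -/
theorem adj_congr {X Y : Set ℂ} {u v : ℂ} {s : ℝ} (hs : Stab X u s) (h0 : 0 < s)
    (hXY : X ∩ closedBall u (5 * s) = Y ∩ closedBall u (5 * s)) (h : Adj Y u v) : Adj X u v := by
  obtain ⟨hu, hv, hne, y, hyu, hyv⟩ := h
  have hsY : Stab Y u s := hs.congr h0 (by rw [hXY]; exact inter_subset_left)
  have huself : (vcell Y u ∩ closedBall u s).Nonempty :=
    ⟨u, self_mem_vcell Y u, mem_closedBall_self h0.le⟩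
  have e1 : vcell Y u = vcell X u := hsY.vcell_eq h0 hXY.symm huself
  have h1 := hsY.vcell_subset h0 huself hyu
  rw [mem_closedBall] at h1
  have hvne : (vcell Y v ∩ closedBall u s).Nonempty :=
    ⟨y, hyv, by rw [mem_closedBall]; linarith⟩
  have e2 : vcell Y v = vcell X v := hsY.vcell_eq h0 hXY.symm hvne
  have h2 := hsY.center_mem h0 hvne
  have hu' : u ∈ X := by
    have : u ∈ Y ∩ closedBall u (5 * s) := ⟨hu, mem_closedBall_self (by positivity)⟩
    rw [← hXY] at this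
    exact this.1
  have hv' : v ∈ X := by
    have : v ∈ Y ∩ closedBall u (5 * s) := ⟨hv, by rw [mem_closedBall]; linarith⟩
    rw [← hXY] at this
    exact this.1
  exact ⟨hu', hv', hne, y, e1 ▸ hyu, e2 ▸ hyv⟩

theorem GoodAt.congr {X Y : Set ℂ} {k : ℂ} {l s : ℝ} {J : ℕ} {C : ℝ} (h : GoodAt X k l J C)
    (hl : 0 ≤ l) (h0 : 0 < s) (hst : ∀ x ∈ closedBall k (2 ^ J * l), Stab X x s)
    (hXY : X ∩ closedBall k (2 ^ J * l + 5 * s) = Y ∩ closedBall k (2 ^ J * l + 5 * s)) :
    GoodAt Y k l J C := by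
  classical
  intro F hF
  have hsub : ∀ u ∈ closedBall k (2 ^ J * l),
      X ∩ closedBall u (5 * s) = Y ∩ closedBall u (5 * s) := by
    intro u hu
    have h1 : closedBall u (5 * s) ⊆ closedBall k (2 ^ J * l + 5 * s) := by
      refine closedBall_subset_closedBall' ?_
      rw [mem_closedBall] at hu
      linarith
    ext w
    constructor
    · rintro ⟨hw, hw'⟩
      have : w ∈ X ∩ closedBall k (2 ^ J * l + 5 * s) := ⟨hw, h1 hw'⟩
      rw [hXY] at this
      exact ⟨this.1, hw'⟩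
    · rintro ⟨hw, hw'⟩
      have : w ∈ Y ∩ closedBall k (2 ^ J * l + 5 * s) := ⟨hw, h1 hw'⟩
      rw [← hXY] at this
      exact ⟨this.1, hw'⟩
  have key := h (F.filter fun e => dist e.1 k ≤ 2 ^ J * l) (by
    intro e he
    rw [Finset.mem_filter] at he
    have hm : e.1 ∈ closedBall k (2 ^ J * l) := by
      rw [mem_closedBall]
      exact he.2
    exact adj_congr (hst _ hm) h0 (hsub _ hm) (hF e he.1))
  refine le_trans (le_of_eq ?_) key
  refine Finset.sum_congr rfl fun j hj => ?_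
  congr 1
  rw [Finset.filter_filter]
  refine Finset.sum_congr ?_ fun _ _ => rfl
  refine Finset.filter_congr fun e _ => ?_
  have hj' : j ≤ J := Nat.lt_succ_iff.1 (Finset.mem_range.1 hj)
  have h2 : (2 : ℝ) ^ j * l ≤ 2 ^ J * l := by
    gcongr
    norm_num
  constructor
  · intro h3
    exact ⟨h3.trans h2, h3⟩
  · intro h3
    exact h3.2

/-- The dyadic energy bound for the darts of the triangulation. -/
theorem GoodAt.darts {X : Set ℂ} {b : ZMod 3 → ℂ} (hX : HullTri X b)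
    [Fintype (Fc X b × ZMod 3)] {k : ℂ} {l : ℝ} {J : ℕ} {C : ℝ} (h : GoodAt X k l J C) :
    ∑ j ∈ Finset.range (J + 1),
      (∑ q : Fc X b × ZMod 3 with dist (tail q) k ≤ 2 ^ j * l,
        dist (tail q) (head q) ^ 2) / (2 ^ j * l) ^ 2 ≤ C * (J + 1) := by
  classical
  have hinj : Function.Injective (fun q : Fc X b × ZMod 3 => (tail q, head q)) := by
    intro p q hpq
    exact hX.th_inj (congrArg Prod.fst hpq) (congrArg Prod.snd hpq)
  have key := h (Finset.univ.map ⟨_, hinj⟩) (by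
    intro e he
    rw [Finset.mem_map] at he
    obtain ⟨q, -, rfl⟩ := he
    exact hX.nbr_th q)
  refine le_trans (le_of_eq ?_) key
  refine Finset.sum_congr rfl fun j _ => ?_
  congr 1
  rw [Finset.filter_map, Finset.sum_map]
  rfl

/-- The points over `U` agree with all the points in a disc inside `U`. -/
theorem inter_XU {T : Set Pt} {U : Set ℂ} {b : ZMod 3 → ℂ} {R : ℝ}
    (hU : closedBall 0 R ⊆ U) (hb : ∀ j, R < ‖b j‖) {D : Set ℂ} (hD : D ⊆ closedBall 0 R) :
    pts T ∩ D = XU T U b ∩ D := by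
  ext w
  constructor
  · rintro ⟨h1, h2⟩
    exact ⟨Or.inl ⟨h1, hU (hD h2)⟩, h2⟩
  · rintro ⟨h1 | ⟨j, rfl⟩, h2⟩
    · exact ⟨h1.1, h2⟩
    · have h3 := hD h2
      rw [mem_closedBall, dist_zero_right] at h3
      exact absurd (hb j) (not_lt.2 h3)

variable {Ω : Type*} [MeasurableSpace Ω] {P : Measure Ω} {S : Ω → Set Pt} {lam : ℝ≥0}

/-- **Good centres with large probability.** -/
theorem exists_good [IsProbabilityMeasure P] (h : IsColouredPoisson P S lam) {a : ℝ}
    (ha : 0 < a) (hla : lam * a ^ 2 = 1) {l : ℝ} (hl : a ≤ l) (J : ℕ) (K : Finset ℂ)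
    {R s : ℝ} (hR : 0 ≤ R) (hs : 0 < s) (hK : ∀ k ∈ K, ‖k‖ + 2 ^ J * l ≤ R) {η : ℝ}
    (hη : 0 < η) : ∃ B : Set Ω, MeasurableSet B ∧
      P B ≤ ENNReal.ofReal (K.card * η) + ENNReal.ofReal
        ((2 * R / s + 3) ^ 2 * net.card * Real.exp (-(lam * (Real.pi / 1024 * s ^ 2)))) ∧
      ∀ ω ∉ B, (∀ z ∈ closedBall (0 : ℂ) R, Stab (pts (S ω)) z s) ∧
        (∀ k ∈ K, GoodAt (pts (S ω)) k l J (25 * CC 2 2 / η)) ∧
        ∀ (U : Set ℂ) (b : ZMod 3 → ℂ), closedBall 0 (R + 5 * s) ⊆ U →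
          (∀ j, R + 5 * s < ‖b j‖) →
          (∀ z ∈ closedBall (0 : ℂ) R, Stab (XU (S ω) U b) z s) ∧
          ∀ k ∈ K, GoodAt (XU (S ω) U b) k l J (25 * CC 2 2 / η) := by
  classical
  have hl0 : 0 < l := ha.trans_le hl
  have hC := CC_pos 2 2
  set E : ℂ → Set Ω := fun k => {ω | ENNReal.ofReal (25 * CC 2 2 / η * ((J + 1 : ℕ) : ℝ)) <
      ∑ j ∈ Finset.range (J + 1), ENNReal.ofReal (((2 ^ j * l) ^ 2)⁻¹) *
        ed 2 (pts (S ω)) k (2 ^ j * l)} with hE
  have hEP : ∀ k, P (E k) ≤ ENNReal.ofReal η := by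
    intro k
    have key := edge_energy h ha hla hη (Finset.range (J + 1)) (fun _ => k) (fun j => 2 ^ j * l)
      (fun j => ((2 ^ j * l) ^ 2)⁻¹) (by
        intro j _
        exact hl.trans (le_mul_of_one_le_left hl0.le (one_le_pow₀ (by norm_num))))
      (by intro j _; positivity) (by
        refine Finset.sum_pos (fun j _ => by positivity) ⟨0, by simp⟩)
    have hsum : ∑ j ∈ Finset.range (J + 1), ((2 ^ j * l) ^ 2)⁻¹ * (2 ^ j * l) ^ 2 =
        ((J + 1 : ℕ) : ℝ) := by
      rw [Finset.sum_congr rfl fun j _ => inv_mul_cancel₀ (by positivity), Finset.sum_const,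
        Finset.card_range, nsmul_eq_mul, mul_one]
    rw [hsum] at key
    exact key
  refine ⟨(⋃ k ∈ K, toMeasurable P (E k)) ∪ badU S 0 R s,
    (Finset.measurableSet_biUnion _ fun k _ => measurableSet_toMeasurable P _).union
      (measurableSet_badU h 0 R s), ?_, ?_⟩
  · refine (measure_union_le _ _).trans (add_le_add ?_ (badU_le h 0 hR hs))
    refine (measure_biUnion_finset_le _ _).trans ?_
    calc ∑ k ∈ K, P (toMeasurable P (E k)) ≤ ∑ _k ∈ K, ENNReal.ofReal η := by
          refine Finset.sum_le_sum fun k _ => ?_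
          rw [measure_toMeasurable]
          exact hEP k
      _ = _ := by
          rw [Finset.sum_const, nsmul_eq_mul, ENNReal.ofReal_mul (by positivity),
            ENNReal.ofReal_natCast]
  · intro ω hω
    rw [mem_union, not_or] at hω
    obtain ⟨h1, h2⟩ := hω
    have hst : ∀ z ∈ closedBall (0 : ℂ) R, Stab (pts (S ω)) z s := fun z hz =>
      stab_of_notMem_badU hs h2 hz
    have hgood : ∀ k ∈ K, GoodAt (pts (S ω)) k l J (25 * CC 2 2 / η) := by
      intro k hk
      refine goodAt_of_ed (by positivity) ?_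
      by_contra hcon
      push Not at hcon
      exact h1 (mem_biUnion hk (subset_toMeasurable P _ hcon))
    refine ⟨hst, hgood, fun U b hU hb => ⟨fun z hz => ?_, fun k hk => ?_⟩⟩
    · refine (hst z hz).congr hs ?_
      rw [inter_XU hU hb (D := closedBall z (5 * s))]
      · exact inter_subset_left
      · refine closedBall_subset_closedBall' ?_
        rw [mem_closedBall] at hz
        linarith
    · have hk' := hK k hk
      refine (hgood k hk).congr hl0.le hs (fun x hx => hst x ?_) (inter_XU hU hb ?_)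
      · rw [mem_closedBall, dist_zero_right]
        rw [mem_closedBall] at hx
        have := norm_le_norm_add_norm_sub' x k
        rw [← dist_eq_norm] at this
        linarith
      · refine closedBall_subset_closedBall' ?_
        rw [dist_zero_right]
        linarith

end Vale.Agent.P148.R2.H291
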