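import Vale.Agent.P148.R2.F.Defs
import Vale.Agent.P148.R2.H291.Conc
import Vale.Agent.P148.R2.H291.Good

/-!
# Energies and stabilisation with high probability
-/

open MeasureTheory Set Metric Filter ProbabilityTheory Topology
open _root_.P148
open scoped ENNReal NNReal Nat
open Vale.Agent.P148.R2.H990
open Vale.Agent.P148.R2.H592 (nbr tail head Fc HullTri vc)
open Vale.Agent.P148.R2.F (whp eventually_whp Dom Conv)
open Vale.Agent.P148.R2.H219 (tau)

universe u

namespace Vale.Agent.P148.R2.H291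

theorem lam_eps {ε : ℝ} (hε : 0 < ε) :
    ((Real.toNNReal (ε ^ (-2 : ℤ)) : ℝ≥0) : ℝ) * ε ^ 2 = 1 := by
  rw [Real.coe_toNNReal _ (by positivity), ← zpow_natCast, ← zpow_add₀ hε.ne']
  norm_num

/-- From bounds of the probabilities to `whp`. -/
theorem whp_of_le {A : ℝ × Set Pt → Prop} {ε₀ : ℝ} (hε₀ : 0 < ε₀) {f : ℝ → ℝ≥0∞}
    (hf : Tendsto f (𝓝[>] 0) (𝓝 0))
    (h : ∀ (Ω : Type u) [MeasurableSpace Ω] (P : Measure Ω) [IsProbabilityMeasure P]
      (S : Ω → Set Pt) (ε : ℝ), 0 < ε → ε < ε₀ →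
      IsColouredPoisson P S (Real.toNNReal (ε ^ (-2 : ℤ))) → P {ω | ¬ A (ε, S ω)} ≤ f ε) :
    ∀ᶠ m in whp.{u}, A m := by
  rw [eventually_whp]
  intro Ω _ P _ S hS
  refine tendsto_of_tendsto_of_tendsto_of_le_of_le' tendsto_const_nhds hf
    (Eventually.of_forall fun ε => zero_le) ?_
  filter_upwards [Ioo_mem_nhdsGT hε₀] with ε hε
  exact h (Ω ε) (P ε) (S ε) ε hε.1 hε.2 (hS ε hε.1)

theorem tendsto_err (c : ℝ) {r : ℝ} (hr : 0 < r) :
    Tendsto (fun ε : ℝ => ENNReal.ofReal (c / (25 * (r / ε) ^ 2))) (𝓝[>] 0) (𝓝 0) := by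
  have h1 : Tendsto (fun ε : ℝ => c / (25 * r ^ 2) * ε ^ 2) (𝓝[>] 0) (𝓝 0) := by
    have h2 : Tendsto (fun ε : ℝ => c / (25 * r ^ 2) * ε ^ 2) (𝓝 0) (𝓝 (c / (25 * r ^ 2) * 0 ^ 2)) :=
      (continuous_const.mul (continuous_pow 2)).tendsto 0
    rw [zero_pow two_ne_zero, mul_zero] at h2
    exact h2.mono_left nhdsWithin_le_nhds
  have h3 := ENNReal.tendsto_ofReal h1
  rw [ENNReal.ofReal_zero] at h3
  refine h3.congr' ?_
  filter_upwards [self_mem_nhdsWithin] with ε hε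
  have hε' : (0 : ℝ) < ε := hε
  congr 1
  field_simp

theorem card_win_le' {a : ℝ} (ha : 0 < a) (x : ℂ) {r : ℝ} (hr : a ≤ r) :
    ((win a x (r + a)).card : ℝ) ≤ 25 * (r / a) ^ 2 := by
  have hra : 1 ≤ r / a := by rwa [one_le_div ha]
  have h1 := card_win_le ha x (R := r + a) (by linarith)
  have h2 : 2 * (r + a) / a + 1 = 2 * (r / a) + 3 := by
    field_simp
    ring
  rw [h2] at h1
  nlinarith

/-- The energies of the edges with high probability. -/
theorem whp_ed (p : ℕ) (x : ℂ) {r : ℝ} (hr : 0 < r) :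
    ∀ᶠ m in whp.{u}, ed p (pts m.2) x r ≤
      ENNReal.ofReal (25 * CD p 2 * (r / m.1) ^ 2 * m.1 ^ p) := by
  refine whp_of_le hr (tendsto_err (KK 2) hr) fun Ω _ P _ S ε hε hεr h => ?_
  have hN : 0 < 25 * (r / ε) ^ 2 := by positivity
  refine le_trans (measure_mono_ae ?_) (conc h hε (lam_eps hε) p 2 x hN (card_win_le' hε x hεr.le))
  filter_upwards [ae_ed_le h hε (lam_eps hε)] with ω hω hlt
  have h1 : ENNReal.ofReal (25 * CD p 2 * (r / ε) ^ 2 * ε ^ p) < ed p (pts (S ω)) x r :=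
    not_le.1 hlt
  have h2 := h1.trans_le (hω p x r)
  unfold edMaj at h2
  rw [← Finset.mul_sum] at h2
  have h3 : ENNReal.ofReal (25 * CD p 2 * (r / ε) ^ 2 * ε ^ p) =
      ENNReal.ofReal (ε ^ p) * ENNReal.ofReal (25 * (r / ε) ^ 2 * CD p 2) := by
    rw [← ENNReal.ofReal_mul (by positivity)]
    congr 1
    ring
  rw [h3] at h2
  exact lt_of_mul_lt_mul_left' h2

/-- The energies of the Voronoi vertices with high probability. -/
theorem whp_en (p : ℕ) (x : ℂ) {r : ℝ} (hr : 0 < r) :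
    ∀ᶠ m in whp.{u}, en p (pts m.2) x r ≤
      ENNReal.ofReal (25 * CD p 3 * (r / m.1) ^ 2 * m.1 ^ p) := by
  refine whp_of_le hr (tendsto_err (KK 3) hr) fun Ω _ P _ S ε hε hεr h => ?_
  have hN : 0 < 25 * (r / ε) ^ 2 := by positivity
  refine le_trans (measure_mono_ae ?_) (conc h hε (lam_eps hε) p 3 x hN (card_win_le' hε x hεr.le))
  filter_upwards [ae_en_le h hε (lam_eps hε)] with ω hω hlt
  have h1 : ENNReal.ofReal (25 * CD p 3 * (r / ε) ^ 2 * ε ^ p) < en p (pts (S ω)) x r :=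
    not_le.1 hlt
  have h2 := h1.trans_le (hω p x r)
  unfold enMaj at h2
  rw [← Finset.mul_sum] at h2
  have h3 : ENNReal.ofReal (25 * CD p 3 * (r / ε) ^ 2 * ε ^ p) =
      ENNReal.ofReal (ε ^ p) * ENNReal.ofReal (25 * (r / ε) ^ 2 * CD p 3) := by
    rw [← ENNReal.ofReal_mul (by positivity)]
    congr 1
    ring
  rw [h3] at h2
  exact lt_of_mul_lt_mul_left' h2

/-- The absolute constant of the energy bound. -/
noncomputable def C0 : ℝ := 25 * CD 2 2

theorem C0_nonneg : 0 ≤ C0 := mul_nonneg (by norm_num) (CD_nonneg 2 2)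

/-- **(W1)** The energy of the edges is at most `C0 * r ^ 2` with high probability. -/
theorem whp_ed_two (x : ℂ) {r : ℝ} (hr : 0 < r) :
    ∀ᶠ m in whp.{u}, ed 2 (pts m.2) x r ≤ ENNReal.ofReal (C0 * r ^ 2) := by
  have h1 : ∀ᶠ m : ℝ × Set Pt in whp.{u}, 0 < m.1 := by
    refine whp_of_le one_pos tendsto_const_nhds fun Ω _ P _ S ε hε _ _ => ?_
    have : {ω : Ω | ¬ 0 < ((ε, S ω) : ℝ × Set Pt).1} = ∅ := by
      ext ω
      simp [hε]
    rw [this, measure_empty]
  filter_upwards [whp_ed 2 x hr, h1] with m hm h0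
  refine hm.trans (le_of_eq ?_)
  congr 1
  unfold C0
  field_simp

/-- **(W2)** All the points of a disc are stable at a macroscopic scale. -/
theorem whp_stab (R : ℝ) {s : ℝ} (hs : 0 < s) :
    ∀ᶠ m in whp.{u}, ∀ z ∈ closedBall (0 : ℂ) R, Stab (pts m.2) z s := by
  rcases lt_or_ge R 0 with hR | hR
  · refine Eventually.of_forall fun m z hz => ?_
    rw [closedBall_eq_empty.2 hR] at hz
    exact absurd hz (notMem_empty z)
  have ht : Tendsto (fun ε : ℝ => ENNReal.ofReal ((2 * R / s + 3) ^ 2 * net.card *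
      Real.exp (-((Real.toNNReal (ε ^ (-2 : ℤ)) : ℝ≥0) * (Real.pi / 1024 * s ^ 2)))))
      (𝓝[>] 0) (𝓝 0) := by
    have h1 : Tendsto (fun ε : ℝ => ε ^ (-2 : ℤ)) (𝓝[>] 0) atTop := by
      have h2 : Tendsto (fun ε : ℝ => (ε⁻¹) ^ 2) (𝓝[>] 0) atTop :=
        (tendsto_pow_atTop two_ne_zero).comp tendsto_inv_nhdsGT_zero
      refine h2.congr fun ε => ?_
      rw [zpow_neg, inv_pow]
      norm_cast
    have h2 : Tendsto (fun ε : ℝ => ((Real.toNNReal (ε ^ (-2 : ℤ)) : ℝ≥0) : ℝ))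
        (𝓝[>] 0) atTop := by
      refine tendsto_atTop_mono (fun ε => ?_) h1
      rw [Real.coe_toNNReal']
      exact le_max_left _ _
    have h3 : Tendsto (fun ε : ℝ => ((Real.toNNReal (ε ^ (-2 : ℤ)) : ℝ≥0) : ℝ) *
        (Real.pi / 1024 * s ^ 2)) (𝓝[>] 0) atTop :=
      h2.atTop_mul_const (by positivity)
    have h4 := (Real.tendsto_exp_neg_atTop_nhds_zero.comp h3).const_mul
      ((2 * R / s + 3) ^ 2 * net.card)
    rw [mul_zero] at h4
    have h5 := ENNReal.tendsto_ofReal h4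
    rwa [ENNReal.ofReal_zero] at h5
  refine whp_of_le one_pos ht fun Ω _ P _ S ε hε _ h => ?_
  refine (measure_mono ?_).trans (stab_unif h 0 hR hs)
  intro ω hω
  have h1 : ¬ ∀ z ∈ closedBall (0 : ℂ) R, Stab (pts (S ω)) z s := hω
  push Not at h1
  exact h1

/-! ### along a filter -/

variable {ι : Type*} {l : Filter ι} {m : ι → ℝ × Set Pt} {X : ι → Set ℂ}

/-- The sets `X i` agree with the configurations in every window. -/
def Agree (l : Filter ι) (m : ι → ℝ × Set Pt) (X : ι → Set ℂ) : Prop :=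
  ∀ R : ℝ, ∀ᶠ i in l, pts (m i).2 ∩ closedBall 0 R = X i ∩ closedBall 0 R

theorem agree_pts : Agree l m fun i => pts (m i).2 := fun _ => Eventually.of_forall fun _ => rfl

theorem agree_conv {ι : Type} {l : Filter ι} {m : ι → ℝ × Set Pt} {Q : Quad} {E : ι → Dom}
    (h : Conv Q l m E) : Agree l m fun i => (E i).X := by
  intro R
  filter_upwards [h.sub, h.win (R + 1), h.far (R + 1)] with i h1 h2 h3
  ext w
  constructor
  · rintro ⟨hw, hw'⟩
    refine ⟨h2 ⟨hw, ?_⟩, hw'⟩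
    rw [mem_closedBall] at hw'
    rw [mem_ball]
    linarith
  · rintro ⟨hw, hw'⟩
    refine ⟨?_, hw'⟩
    rcases h1 hw with h4 | ⟨j, rfl⟩
    · exact h4
    · rw [mem_closedBall, dist_zero_right] at hw'
      have := h3 j
      linarith

theorem Agree.ball (hX : Agree l m X) (x : ℂ) (R : ℝ) :
    ∀ᶠ i in l, pts (m i).2 ∩ closedBall x R = X i ∩ closedBall x R := by
  filter_upwards [hX (‖x‖ + R)] with i hi
  have hsub : closedBall x R ⊆ closedBall 0 (‖x‖ + R) := by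
    refine closedBall_subset_closedBall' ?_
    rw [dist_zero_right]
    linarith
  have e : ∀ Y : Set ℂ, Y ∩ closedBall x R = (Y ∩ closedBall 0 (‖x‖ + R)) ∩ closedBall x R := by
    intro Y
    rw [inter_assoc, inter_eq_right.2 hsub]
  rw [e, hi, ← e]

/-- **(W3)** stabilisation. -/
theorem Agree.stab (hm : Tendsto m l whp.{u}) (hX : Agree l m X) (R : ℝ) {s : ℝ} (hs : 0 < s) :
    ∀ᶠ i in l, ∀ z ∈ closedBall (0 : ℂ) R, Stab (X i) z s := by
  filter_upwards [hm (whp_stab R hs), hX (R + 5 * s)] with i h1 h2 z hz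
  have h3 : Stab (pts (m i).2) z s := h1 z hz
  refine h3.congr hs ?_
  rintro w ⟨hw, hw'⟩
  have : w ∈ pts (m i).2 ∩ closedBall 0 (R + 5 * s) := by
    refine ⟨hw, closedBall_subset_closedBall' ?_ hw'⟩
    rw [mem_closedBall] at hz
    linarith
  rw [h2] at this
  exact this.1

/-- The cells and the edges in a window are small. -/
theorem Agree.small (hm : Tendsto m l whp.{u}) (hX : Agree l m X) (R : ℝ) {s : ℝ} (hs : 0 < s) :
    ∀ᶠ i in l, (∀ z ∈ closedBall (0 : ℂ) R, ∃ v ∈ X i, dist z v ≤ s) ∧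
      (∀ z ∈ closedBall (0 : ℂ) R, ∀ v, z ∈ vcell (X i) v →
        dist z v ≤ s ∧ vcell (X i) v ⊆ closedBall v s) ∧
      ∀ z ∈ closedBall (0 : ℂ) R, ∀ v, nbr (X i) z v → dist z v ≤ s := by
  filter_upwards [hX.stab hm R hs] with i h1
  refine ⟨fun z hz => ?_, fun z hz v hv => ?_, fun z hz v hv => ?_⟩
  · obtain ⟨v, hv, h2⟩ := h1 z hz z (mem_closedBall_self (by positivity))
    exact ⟨v, hv, by linarith⟩
  · refine ⟨?_, ?_⟩
    · have := (h1 z hz).dist_le (mem_closedBall_self (by positivity)) hv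
      linarith
    · refine ((h1 z hz).vcell_subset hs ⟨z, hv, mem_closedBall_self hs.le⟩).trans ?_
      exact closedBall_subset_closedBall (by linarith)
  · have := dist_adj_le (h1 z hz) hs hv
    linarith

/-- **(W3)** good centres. -/
theorem Agree.goodAt (hm : Tendsto m l whp.{u}) (hX : Agree l m X) (k : ℂ) {l₀ : ℝ}
    (hl : 0 < l₀) (J : ℕ) : ∀ᶠ i in l, GoodAt (X i) k l₀ J C0 := by
  have h1 : ∀ᶠ i in l, ∀ j ∈ Finset.range (J + 1),
      ed 2 (pts (m i).2) k (2 ^ j * l₀) ≤ ENNReal.ofReal (C0 * (2 ^ j * l₀) ^ 2) :=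
    (Finset.eventually_all _).2 fun j _ => hm (whp_ed_two k (by positivity))
  filter_upwards [h1, hm (whp_stab (‖k‖ + 2 ^ J * l₀) one_pos),
    hX.ball k (2 ^ J * l₀ + 5 * 1)] with i h2 h3 h4
  have h5 : GoodAt (pts (m i).2) k l₀ J C0 := by
    refine goodAt_of_ed C0_nonneg ?_
    calc ∑ j ∈ Finset.range (J + 1), ENNReal.ofReal (((2 ^ j * l₀) ^ 2)⁻¹) *
          ed 2 (pts (m i).2) k (2 ^ j * l₀)
        ≤ ∑ _j ∈ Finset.range (J + 1), ENNReal.ofReal C0 := by
          refine Finset.sum_le_sum fun j hj => ?_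
          calc _ ≤ ENNReal.ofReal (((2 ^ j * l₀) ^ 2)⁻¹) *
                ENNReal.ofReal (C0 * (2 ^ j * l₀) ^ 2) := by
                gcongr
                exact h2 j hj
            _ = _ := by
                rw [← ENNReal.ofReal_mul (by positivity)]
                congr 1
                field_simp
      _ = _ := by
          rw [Finset.sum_const, Finset.card_range, nsmul_eq_mul, mul_comm C0,
            ENNReal.ofReal_mul (by positivity), ENNReal.ofReal_natCast]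
  refine h5.congr hl.le one_pos (fun x hx => h3 x ?_) h4
  rw [mem_closedBall, dist_zero_right]
  rw [mem_closedBall] at hx
  have := norm_le_norm_add_norm_sub' x k
  rw [← dist_eq_norm] at this
  linarith

end Vale.Agent.P148.R2.H291
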