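import Vale.Agent.P148.R2.H291.Unif

/-!
# The energy of Delaunay edges
-/

open MeasureTheory Set Metric Filter ProbabilityTheory P148
open scoped ENNReal NNReal Nat
open Vale.Agent.P148.R2.H990

namespace Vale.Agent.P148.R2.H291

variable {Ω : Type*} [MeasurableSpace Ω] {P : Measure Ω} {S : Ω → Set Pt} {lam : ℝ≥0}

/-- Adjacent points are at distance at most a quarter of the stabilisation scale. -/
theorem dist_adj_le {X : Set ℂ} {u v : ℂ} {h : ℝ} (hs : Stab X u h) (h0 : 0 < h)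
    (hadj : Adj X u v) : dist u v ≤ h / 4 := by
  obtain ⟨hu, hv, -, y, hyu, hyv⟩ := hadj
  have h1 := hs.vcell_subset h0 ⟨u, self_mem_vcell X u, mem_closedBall_self h0.le⟩ hyu
  rw [mem_closedBall] at h1
  have h2 : dist y u = dist y v := dist_eq_of_mem hu hv hyu hyv
  have := dist_triangle u y v
  rw [dist_comm u y] at this
  linarith

theorem dist_adj_le_loc {X : Set ℂ} {u v : ℂ} (hne : ∃ h, 0 < h ∧ Stab X u h)
    (hadj : Adj X u v) : dist u v ≤ loc X u / 4 := by
  refine le_of_forall_pos_lt_add fun ε hε => ?_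
  obtain ⟨h, ⟨h0, hs⟩, hlt⟩ := exists_lt_of_csInf_lt (s := {h | 0 < h ∧ Stab X u h}) hne
    (b := loc X u + ε) (by
      show loc X u < loc X u + ε
      linarith)
  have := dist_adj_le hs h0 hadj
  linarith

/-- The `p`-energy of the Delaunay edges with the first end point in a disc. -/
noncomputable def ed (p : ℕ) (X : Set ℂ) (x : ℂ) (r : ℝ) : ℝ≥0∞ :=
  ∑' e : {e : ℂ × ℂ // Adj X e.1 e.2 ∧ dist e.1 x ≤ r}, ENNReal.ofReal (dist e.1.1 e.1.2 ^ p)

/-- The energy of the edges next to a grid point. -/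
theorem sum_fiber_edge_le (h : IsColouredPoisson P S lam) {a : ℝ} (ha : 0 < a) (x : ℂ) (p : ℕ)
    (ω : Ω) (hk : ∃ k : ℕ, 1 ≤ k ∧ StabD (pts (S ω)) x (k * a)) (Z : Finset (ℂ × ℂ))
    (hZ : ∀ e ∈ Z, Adj (pts (S ω)) e.1 e.2 ∧ dist e.1 x ≤ a) :
    ∑ e ∈ Z, ENNReal.ofReal (dist e.1 e.2 ^ p) ≤
      ENNReal.ofReal (a ^ p) * maj S x a p 2 ω := by
  classical
  obtain ⟨k, h1, h2, h3⟩ := exists_level (S := S) a x p 2 ω hk
  have hk1 : (1 : ℝ) ≤ k := by exact_mod_cast h1
  have hka : 0 < k * a := by positivity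
  have hak : a ≤ k * a := le_mul_of_one_le_left ha.le hk1
  have e0 : ∀ e ∈ Z, dist e.1 e.2 ≤ k * a / 4 := by
    intro e he
    have h4 : Stab (pts (S ω)) e.1 (3 / 4 * (k * a)) := h2.stab hka ((hZ e he).2.trans hak)
    have := dist_adj_le h4 (by positivity) (hZ e he).1
    linarith
  have e1 : ∀ e ∈ Z, ENNReal.ofReal (dist e.1 e.2 ^ p) ≤ ENNReal.ofReal ((k * a) ^ p) := by
    intro e he
    refine ENNReal.ofReal_le_ofReal (pow_le_pow_left₀ dist_nonneg ?_ p)
    have := e0 e he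
    linarith
  have e2 : Z.card ≤ cnt S x (2 * (k * a)) ω ^ 2 := by
    have hN := finite_pts h ω x (2 * (k * a))
    have hsub : Z ⊆ hN.toFinset ×ˢ hN.toFinset := by
      intro e he
      simp only [Finset.mem_product, Finite.mem_toFinset, mem_inter_iff, mem_closedBall]
      have h5 := (hZ e he).2
      have h6 := e0 e he
      refine ⟨⟨(hZ e he).1.1, by linarith⟩, (hZ e he).1.2.1, ?_⟩
      have := dist_triangle e.2 e.1 x
      rw [dist_comm e.2 e.1] at this
      linarith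
    have := Finset.card_le_card hsub
    rw [Finset.card_product, ← Set.ncard_eq_toFinset_card _ hN] at this
    refine this.trans ?_
    rw [pow_two]
    exact Nat.mul_le_mul (ncard_pts_le h ω x _) (ncard_pts_le h ω x _)
  calc ∑ e ∈ Z, ENNReal.ofReal (dist e.1 e.2 ^ p)
      ≤ ∑ e ∈ Z, ENNReal.ofReal ((k * a) ^ p) := Finset.sum_le_sum e1
    _ = Z.card * ENNReal.ofReal ((k * a) ^ p) := by rw [Finset.sum_const, nsmul_eq_mul]
    _ ≤ (cnt S x (2 * (k * a)) ω ^ 2 : ℕ) * ENNReal.ofReal ((k * a) ^ p) := by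
        gcongr
    _ = ENNReal.ofReal (a ^ p) * ((k : ℝ≥0∞) ^ p * (cnt S x (2 * (k * a)) ω : ℝ≥0∞) ^ 2) := by
        rw [mul_pow, ENNReal.ofReal_mul (by positivity), ENNReal.ofReal_pow (by positivity),
          ENNReal.ofReal_natCast]
        push_cast
        ring
    _ ≤ _ := by gcongr

/-- The majorant of the energy of the edges. -/
noncomputable def edMaj (S : Ω → Set Pt) (a : ℝ) (p : ℕ) (x : ℂ) (r : ℝ) (ω : Ω) : ℝ≥0∞ :=
  ∑ m ∈ win a x (r + a), ENNReal.ofReal (a ^ p) * maj S (gp a m) a p 2 ω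

theorem measurable_edMaj (h : IsColouredPoisson P S lam) (a : ℝ) (p : ℕ) (x : ℂ) (r : ℝ) :
    Measurable (edMaj S a p x r) :=
  Finset.measurable_fun_sum _ fun m _ => (measurable_maj h (gp a m) a p 2).const_mul _

theorem ed_le_of_levels (h : IsColouredPoisson P S lam) {a : ℝ} (ha : 0 < a) (ω : Ω)
    (hlev : ∀ m : ℤ × ℤ, ∃ k : ℕ, 1 ≤ k ∧ StabD (pts (S ω)) (gp a m) (k * a)) (p : ℕ) (x : ℂ)
    (r : ℝ) : ed p (pts (S ω)) x r ≤ edMaj S a p x r ω := by
  classical
  unfold ed edMaj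
  rw [ENNReal.tsum_eq_iSup_sum]
  refine iSup_le fun s => ?_
  set Z : Finset (ℂ × ℂ) := s.map (Function.Embedding.subtype _) with hZ
  have hZm : ∀ e ∈ Z, Adj (pts (S ω)) e.1 e.2 ∧ dist e.1 x ≤ r := by
    intro e he
    rw [hZ, Finset.mem_map] at he
    obtain ⟨e', -, rfl⟩ := he
    exact e'.2
  have e1 : ∑ e ∈ s, ENNReal.ofReal (dist e.1.1 e.1.2 ^ p) =
      ∑ e ∈ Z, ENNReal.ofReal (dist e.1 e.2 ^ p) := by
    rw [hZ, Finset.sum_map]
    rfl
  rw [e1]
  have hmaps : ∀ e ∈ Z, rd a e.1 ∈ win a x (r + a) := by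
    intro e he
    refine mem_win ha ?_
    have h1 := dist_gp_rd ha e.1
    have h2 := (hZm e he).2
    have := dist_triangle (gp a (rd a e.1)) e.1 x
    rw [dist_comm (gp a (rd a e.1)) e.1] at this
    linarith
  rw [← Finset.sum_fiberwise_of_maps_to hmaps]
  refine Finset.sum_le_sum fun m _ => ?_
  refine sum_fiber_edge_le h ha (gp a m) p ω (hlev m) _ fun e he => ?_
  rw [Finset.mem_filter] at he
  refine ⟨(hZm e he.1).1, ?_⟩
  rw [← he.2]
  exact dist_gp_rd ha e.1

theorem ae_ed_le [IsProbabilityMeasure P] (h : IsColouredPoisson P S lam) {a : ℝ}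
    (ha : 0 < a) (hla : lam * a ^ 2 = 1) :
    ∀ᵐ ω ∂P, ∀ (p : ℕ) (x : ℂ) (r : ℝ), ed p (pts (S ω)) x r ≤ edMaj S a p x r ω := by
  filter_upwards [ae_levels h ha hla] with ω hω p x r
  exact ed_le_of_levels h ha ω hω p x r

theorem lint_edMaj [IsProbabilityMeasure P] (h : IsColouredPoisson P S lam) {a : ℝ}
    (ha : 0 < a) (hla : lam * a ^ 2 = 1) (p : ℕ) (x : ℂ) {r : ℝ} (hr : a ≤ r) :
    ∫⁻ ω, edMaj S a p x r ω ∂P ≤ ENNReal.ofReal (25 * CC p 2 * (r / a) ^ 2 * a ^ p) := by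
  unfold edMaj
  rw [lintegral_finsetSum _ fun m _ => (measurable_maj h (gp a m) a p 2).const_mul _]
  have hra : 1 ≤ r / a := by rwa [one_le_div ha]
  calc ∑ m ∈ win a x (r + a), ∫⁻ ω, ENNReal.ofReal (a ^ p) * maj S (gp a m) a p 2 ω ∂P
      ≤ ∑ _m ∈ win a x (r + a), ENNReal.ofReal (a ^ p) * ENNReal.ofReal (CC p 2) := by
        refine Finset.sum_le_sum fun m _ => ?_
        rw [lintegral_const_mul _ (measurable_maj h (gp a m) a p 2)]
        gcongr
        exact lint_maj h (gp a m) ha hla p 2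
    _ = ENNReal.ofReal ((win a x (r + a)).card * (a ^ p * CC p 2)) := by
        rw [Finset.sum_const, nsmul_eq_mul, ENNReal.ofReal_mul (by positivity),
          ENNReal.ofReal_mul (by positivity), ENNReal.ofReal_natCast]
    _ ≤ _ := by
        refine ENNReal.ofReal_le_ofReal ?_
        have h1 := card_win_le ha x (R := r + a) (by linarith)
        have h2 : 2 * (r + a) / a + 1 = 2 * (r / a) + 3 := by
          field_simp
          ring
        have h3 : (2 * (r + a) / a + 1) ^ 2 ≤ 25 * (r / a) ^ 2 := by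
          rw [h2]
          nlinarith
        have h4 := CC_nonneg p 2
        calc ((win a x (r + a)).card : ℝ) * (a ^ p * CC p 2)
            ≤ (25 * (r / a) ^ 2) * (a ^ p * CC p 2) := by
              gcongr
              exact h1.trans h3
          _ = _ := by ring

/-- The expected `2`-energy of the edges in a disc. -/
theorem lint_edMaj_two [IsProbabilityMeasure P] (h : IsColouredPoisson P S lam) {a : ℝ}
    (ha : 0 < a) (hla : lam * a ^ 2 = 1) (x : ℂ) {r : ℝ} (hr : a ≤ r) :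
    ∫⁻ ω, edMaj S a 2 x r ω ∂P ≤ ENNReal.ofReal (25 * CC 2 2 * r ^ 2) := by
  refine (lint_edMaj h ha hla 2 x hr).trans (le_of_eq ?_)
  congr 1
  field_simp

theorem CC_pos (p q : ℕ) : 0 < CC p q := by
  have h5 : bk p q 0 ≤ CC p q := (summable_bk p q).le_tsum 0 fun k _ => bk_nonneg p q k
  have h6 : 0 < bk p q 0 := by
    unfold bk
    positivity
  linarith

/-- Markov's inequality for several discs: `w i` are the weights of the discs
`closedBall (c i) (r i)`. With probability at least `1 - δ` all the weighted energies are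
bounded. -/
theorem edge_energy {ι : Type*} [IsProbabilityMeasure P] (h : IsColouredPoisson P S lam) {a : ℝ}
    (ha : 0 < a) (hla : lam * a ^ 2 = 1) {δ : ℝ} (hδ : 0 < δ) (I : Finset ι) (c : ι → ℂ)
    (r w : ι → ℝ) (hr : ∀ i ∈ I, a ≤ r i) (hw : ∀ i ∈ I, 0 ≤ w i)
    (hpos : 0 < ∑ i ∈ I, w i * r i ^ 2) :
    P {ω | ENNReal.ofReal (25 * CC 2 2 / δ * ∑ i ∈ I, w i * r i ^ 2) <
      ∑ i ∈ I, ENNReal.ofReal (w i) * ed 2 (pts (S ω)) (c i) (r i)} ≤ ENNReal.ofReal δ := by
  set G : Ω → ℝ≥0∞ := fun ω => ∑ i ∈ I, ENNReal.ofReal (w i) * edMaj S a 2 (c i) (r i) ω with hG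
  have hGm : Measurable G := Finset.measurable_fun_sum _ fun j _ =>
    (measurable_edMaj h a 2 _ _).const_mul _
  have hC := CC_pos 2 2
  have h1 : ∫⁻ ω, G ω ∂P ≤ ENNReal.ofReal (25 * CC 2 2 * ∑ i ∈ I, w i * r i ^ 2) := by
    rw [hG, lintegral_finsetSum _ fun j _ => (measurable_edMaj h a 2 _ _).const_mul _]
    calc ∑ i ∈ I, ∫⁻ ω, ENNReal.ofReal (w i) * edMaj S a 2 (c i) (r i) ω ∂P
        ≤ ∑ i ∈ I, ENNReal.ofReal (25 * CC 2 2 * (w i * r i ^ 2)) := by
          refine Finset.sum_le_sum fun i hi => ?_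
          rw [lintegral_const_mul _ (measurable_edMaj h a 2 _ _)]
          calc ENNReal.ofReal (w i) * ∫⁻ ω, edMaj S a 2 (c i) (r i) ω ∂P
              ≤ ENNReal.ofReal (w i) * ENNReal.ofReal (25 * CC 2 2 * r i ^ 2) := by
                gcongr
                exact lint_edMaj_two h ha hla _ (hr i hi)
            _ = _ := by
                rw [← ENNReal.ofReal_mul (hw i hi)]
                congr 1
                ring
      _ = _ := by
          rw [← ENNReal.ofReal_sum_of_nonneg, Finset.mul_sum]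
          intro i hi
          have := hw i hi
          positivity
  have hmono : P {ω | ENNReal.ofReal (25 * CC 2 2 / δ * ∑ i ∈ I, w i * r i ^ 2) <
      ∑ i ∈ I, ENNReal.ofReal (w i) * ed 2 (pts (S ω)) (c i) (r i)} ≤
      P {ω | ENNReal.ofReal (25 * CC 2 2 / δ * ∑ i ∈ I, w i * r i ^ 2) < G ω} := by
    refine measure_mono_ae ?_
    filter_upwards [ae_ed_le h ha hla] with ω hω hlt
    refine lt_of_lt_of_le hlt (Finset.sum_le_sum fun i _ => ?_)
    gcongr
    exact hω 2 _ _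
  refine hmono.trans ?_
  set t : ℝ := 25 * CC 2 2 / δ * ∑ i ∈ I, w i * r i ^ 2 with ht
  have ht0 : 0 < t := by positivity
  have h3 := mul_meas_ge_le_lintegral₀ (μ := P) hGm.aemeasurable (ENNReal.ofReal t)
  have h4 : P {ω | ENNReal.ofReal t < G ω} ≤ P {ω | ENNReal.ofReal t ≤ G ω} :=
    measure_mono fun ω (hω : ENNReal.ofReal t < G ω) => (hω.le : ENNReal.ofReal t ≤ G ω)
  have h5 : ENNReal.ofReal t * P {ω | ENNReal.ofReal t < G ω} ≤ ENNReal.ofReal t *
      ENNReal.ofReal δ := by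
    calc _ ≤ ENNReal.ofReal t * P {ω | ENNReal.ofReal t ≤ G ω} := by gcongr
      _ ≤ ∫⁻ ω, G ω ∂P := h3
      _ ≤ ENNReal.ofReal (25 * CC 2 2 * ∑ i ∈ I, w i * r i ^ 2) := h1
      _ = ENNReal.ofReal t * ENNReal.ofReal δ := by
        rw [← ENNReal.ofReal_mul ht0.le, ht]
        congr 1
        field_simp
  rwa [ENNReal.mul_le_mul_iff_right (ENNReal.ofReal_pos.2 ht0).ne' ENNReal.ofReal_ne_top] at h5

end Vale.Agent.P148.R2.H291
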