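import Vale.Agent.P148.R2.H291.Energy

/-!
# Uniform stabilisation
-/

open MeasureTheory Set Metric Filter ProbabilityTheory P148
open scoped ENNReal NNReal Nat
open Vale.Agent.P148.R2.H990

namespace Vale.Agent.P148.R2.H291

variable {Ω : Type*} [MeasurableSpace Ω] {P : Measure Ω} {S : Ω → Set Pt} {lam : ℝ≥0}

/-- A measurable event of small probability outside which all the points of a disc are stable
at scale `s`. -/
def badU (S : Ω → Set Pt) (x : ℂ) (R s : ℝ) : Set Ω :=
  ⋃ m ∈ win s x (R + s), badD S (gp s m) (4 / 3 * s)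

theorem measurableSet_badU (h : IsColouredPoisson P S lam) (x : ℂ) (R s : ℝ) :
    MeasurableSet (badU S x R s) :=
  Finset.measurableSet_biUnion _ fun _ _ => measurableSet_badD h _ _

theorem badU_le (h : IsColouredPoisson P S lam) (x : ℂ) {R s : ℝ} (hR : 0 ≤ R) (hs : 0 < s) :
    P (badU S x R s) ≤ ENNReal.ofReal
      ((2 * R / s + 3) ^ 2 * net.card * Real.exp (-(lam * (Real.pi / 1024 * s ^ 2)))) := by
  refine (measure_biUnion_finset_le _ _).trans ?_
  calc ∑ m ∈ win s x (R + s), P (badD S (gp s m) (4 / 3 * s))
      ≤ ∑ _m ∈ win s x (R + s), ENNReal.ofReal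
          (net.card * Real.exp (-(lam * (Real.pi / 1024 * s ^ 2)))) := by
        refine Finset.sum_le_sum fun m _ => (badD_le h _ (by positivity)).trans ?_
        refine ENNReal.ofReal_le_ofReal ?_
        gcongr
        linarith
    _ = ENNReal.ofReal ((win s x (R + s)).card *
          (net.card * Real.exp (-(lam * (Real.pi / 1024 * s ^ 2))))) := by
        rw [Finset.sum_const, nsmul_eq_mul,
          ENNReal.ofReal_mul (p := ((win s x (R + s)).card : ℝ)) (by positivity),
          ENNReal.ofReal_natCast]
    _ ≤ _ := by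
        refine ENNReal.ofReal_le_ofReal ?_
        have h1 := card_win_le hs x (R := R + s) (by linarith)
        have h2 : 2 * (R + s) / s + 1 = 2 * R / s + 3 := by
          field_simp
          ring
        rw [h2] at h1
        calc ((win s x (R + s)).card : ℝ) *
              (net.card * Real.exp (-(lam * (Real.pi / 1024 * s ^ 2))))
            ≤ (2 * R / s + 3) ^ 2 *
              (net.card * Real.exp (-(lam * (Real.pi / 1024 * s ^ 2)))) := by gcongr
          _ = _ := by ring

omit [MeasurableSpace Ω] in
theorem stab_of_notMem_badU {x : ℂ} {R s : ℝ} (hs : 0 < s) {ω : Ω} (hω : ω ∉ badU S x R s)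
    {z : ℂ} (hz : z ∈ closedBall x R) : Stab (pts (S ω)) z s := by
  have hmem : rd s z ∈ win s x (R + s) := by
    refine mem_win hs ?_
    have h1 := dist_gp_rd hs z
    rw [mem_closedBall] at hz
    have := dist_triangle (gp s (rd s z)) z x
    rw [dist_comm (gp s (rd s z)) z] at this
    linarith
  have h1 : StabD (pts (S ω)) (gp s (rd s z)) (4 / 3 * s) := by
    by_contra hc
    exact hω (mem_biUnion hmem hc)
  have h2 := h1.stab (by positivity) (z := z) ((dist_gp_rd hs z).trans (by linarith))
  have h3 : 3 / 4 * (4 / 3 * s) = s := by ring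
  rwa [h3] at h2

/-- Outside an event of small probability all the points of a disc are stable at scale `s`. -/
theorem stab_unif (h : IsColouredPoisson P S lam) (x : ℂ) {R s : ℝ} (hR : 0 ≤ R) (hs : 0 < s) :
    P {ω | ∃ z ∈ closedBall x R, ¬ Stab (pts (S ω)) z s} ≤ ENNReal.ofReal
      ((2 * R / s + 3) ^ 2 * net.card * Real.exp (-(lam * (Real.pi / 1024 * s ^ 2)))) := by
  refine (measure_mono ?_).trans (badU_le h x hR hs)
  rintro ω ⟨z, hz, hn⟩
  by_contra hω
  exact hn (stab_of_notMem_badU hs hω hz)

end Vale.Agent.P148.R2.H291
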