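import Vale.Agent.P148.R2.F.Defs
import Vale.Agent.P148.R2.H729.Q5

/-!
# From the filter `whp` to bounds which are uniform in the process
-/

open MeasureTheory Set Metric Filter ProbabilityTheory Topology
open _root_.P148
open scoped ENNReal NNReal
open Vale.Agent.P148.R2.F (whp eventually_whp)
open _root_.P148.H729 (scale_poisson)

universe u

namespace Vale.Agent.P148.R2.H291

/-- A random set of coloured points on a probability space, bundled. -/
structure Proc where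
  Ω : Type u
  ms : MeasurableSpace Ω
  P : Measure Ω
  pr : IsProbabilityMeasure P
  S : Ω → Set Pt

attribute [instance] Proc.ms Proc.pr

theorem toNNReal_sqrt_inv {lam : ℝ≥0} (h : 0 < lam) :
    Real.toNNReal (((Real.sqrt lam)⁻¹) ^ (-2 : ℤ)) = lam := by
  have h0 : (0 : ℝ) < lam := by exact_mod_cast h
  have h1 : ((Real.sqrt lam)⁻¹ : ℝ) ^ (-2 : ℤ) = lam := by
    rw [zpow_neg, inv_zpow, inv_inv]
    exact Real.sq_sqrt h0.le
  rw [h1, Real.toNNReal_coe]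

/-- Some process of every positive intensity, from one process. -/
theorem exists_scaled {Ω : Type u} [MeasurableSpace Ω] {P : Measure Ω} {S : Ω → Set Pt}
    {lam : ℝ≥0} (h : IsColouredPoisson P S lam) (hlam : 0 < lam) {mu : ℝ≥0} (hmu : 0 < mu) :
    ∃ S' : Ω → Set Pt, IsColouredPoisson P S' mu := by
  set r : ℝ≥0 := NNReal.sqrt (lam / mu) with hr
  have hq : 0 < lam / mu := div_pos hlam hmu
  have hr0 : r ≠ 0 := (NNReal.sqrt_pos.2 hq).ne'
  have h1 := scale_poisson h hr0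
  have h2 : lam / r ^ 2 = mu := by
    rw [hr, NNReal.sq_sqrt, div_div_cancel₀ hlam.ne']
  rw [h2] at h1
  exact ⟨_, h1⟩

/-- **Uniformity**: a property which holds with high probability has probability at least `1 - δ`
for all processes of intensity at least `K`. -/
theorem whp_unif {A : ℝ × Set Pt → Prop} (hA : ∀ᶠ m in whp.{u}, A m) {δ : ℝ≥0∞} (hδ : 0 < δ) :
    ∃ K : ℝ, 0 < K ∧ ∀ (Ω : Type u) [MeasurableSpace Ω] (P : Measure Ω) [IsProbabilityMeasure P]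
      (S : Ω → Set Pt) (lam : ℝ≥0), IsColouredPoisson P S lam → K ≤ lam →
      P {ω | ¬ A ((Real.sqrt lam)⁻¹, S ω)} ≤ δ := by
  by_contra hcon
  push Not at hcon
  have hn : ∀ n : ℕ, ∃ (p : Proc.{u}) (lam : ℝ≥0), IsColouredPoisson p.P p.S lam ∧
      ((n : ℝ) + 1 ≤ lam) ∧ δ < p.P {ω | ¬ A ((Real.sqrt lam)⁻¹, p.S ω)} := by
    intro n
    obtain ⟨Ω, ms, P, pr, S, lam, h1, h2, h3⟩ := hcon (n + 1) (by positivity)
    exact ⟨⟨Ω, ms, P, pr, S⟩, lam, h1, h2, h3⟩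
  choose q L hq1 hq2 hq3 using hn
  have hL : ∀ n, 0 < L n := by
    intro n
    have h1 : (0 : ℝ) < L n := lt_of_lt_of_le (by positivity) (hq2 n)
    exact_mod_cast h1
  have hF : ∀ ε : ℝ, ∃ p : Proc.{u},
      (0 < ε → IsColouredPoisson p.P p.S (Real.toNNReal (ε ^ (-2 : ℤ)))) ∧
      ((∃ n, (Real.sqrt (L n))⁻¹ = ε) → δ < p.P {ω | ¬ A (ε, p.S ω)}) := by
    intro ε
    by_cases h : ∃ n, (Real.sqrt (L n))⁻¹ = ε
    · obtain ⟨n, rfl⟩ := h
      refine ⟨q n, fun _ => ?_, fun _ => hq3 n⟩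
      rw [toNNReal_sqrt_inv (hL n)]
      exact hq1 n
    · by_cases hε : 0 < ε
      · obtain ⟨S', hS'⟩ := exists_scaled (hq1 0) (hL 0) (mu := Real.toNNReal (ε ^ (-2 : ℤ)))
          (Real.toNNReal_pos.2 (by positivity))
        exact ⟨⟨(q 0).Ω, (q 0).ms, (q 0).P, (q 0).pr, S'⟩, fun _ => hS', fun h' => absurd h' h⟩
      · exact ⟨q 0, fun h' => absurd h' hε, fun h' => absurd h' h⟩
  choose F hF1 hF2 using hF
  have h1 := (eventually_whp.1 hA) (fun ε => (F ε).Ω) (fun ε => (F ε).P) (fun ε => (F ε).S)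
    (fun ε hε => hF1 ε hε)
  have h2 : Tendsto (fun n => (Real.sqrt (L n))⁻¹) atTop (𝓝[>] 0) := by
    rw [tendsto_nhdsWithin_iff]
    refine ⟨?_, Eventually.of_forall fun n => ?_⟩
    · apply tendsto_inv_atTop_zero.comp
      apply Real.tendsto_sqrt_atTop.comp
      apply tendsto_atTop_mono hq2
      exact tendsto_atTop_add_const_right _ _ tendsto_natCast_atTop_atTop
    · have h3 : (0 : ℝ) < L n := by exact_mod_cast hL n
      exact inv_pos.2 (Real.sqrt_pos.2 h3)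
  have h3 := h1.comp h2
  obtain ⟨n, hn⟩ := ((tendsto_order.1 h3).2 δ hδ).exists
  exact absurd hn (not_lt.2 (hF2 _ ⟨n, rfl⟩).le)

/-- The same for a property of the configuration only. -/
theorem whp_unif' {A : Set Pt → Prop} (hA : ∀ᶠ m in whp.{u}, A m.2) {δ : ℝ≥0∞} (hδ : 0 < δ) :
    ∃ K : ℝ, 0 < K ∧ ∀ (Ω : Type u) [MeasurableSpace Ω] (P : Measure Ω) [IsProbabilityMeasure P]
      (S : Ω → Set Pt) (lam : ℝ≥0), IsColouredPoisson P S lam → K ≤ lam →
      P {ω | ¬ A (S ω)} ≤ δ :=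
  whp_unif (A := fun m => A m.2) hA hδ

/-- Conversely, uniform bounds give the filter. -/
theorem whp_of_unif {A : ℝ × Set Pt → Prop}
    (h : ∀ δ : ℝ≥0∞, 0 < δ → ∃ K : ℝ, ∀ (Ω : Type u) [MeasurableSpace Ω] (P : Measure Ω)
      [IsProbabilityMeasure P] (S : Ω → Set Pt) (lam : ℝ≥0), IsColouredPoisson P S lam → K ≤ lam →
      P {ω | ¬ A ((Real.sqrt lam)⁻¹, S ω)} ≤ δ) : ∀ᶠ m in whp.{u}, A m := by
  rw [eventually_whp]
  intro Ω _ P _ S hS
  rw [ENNReal.tendsto_nhds_zero]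
  intro δ hδ
  obtain ⟨K, hK⟩ := h δ hδ
  have h1 : Tendsto (fun ε : ℝ => ε ^ (-2 : ℤ)) (𝓝[>] 0) atTop := by
    have h2 : Tendsto (fun ε : ℝ => (ε⁻¹) ^ 2) (𝓝[>] 0) atTop :=
      (tendsto_pow_atTop two_ne_zero).comp tendsto_inv_nhdsGT_zero
    refine h2.congr fun ε => ?_
    rw [inv_pow, zpow_neg]
    rfl
  filter_upwards [self_mem_nhdsWithin, h1.eventually_ge_atTop K] with ε hε hεK
  have hε' : (0 : ℝ) < ε := hε
  have hpos : (0 : ℝ) ≤ ε ^ (-2 : ℤ) := by positivity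
  have h3 := hK (Ω ε) (P ε) (S ε) _ (hS ε hε') (by rw [Real.coe_toNNReal _ hpos]; exact hεK)
  have h4 : (Real.sqrt (Real.toNNReal (ε ^ (-2 : ℤ)) : ℝ≥0))⁻¹ = ε := by
    rw [Real.coe_toNNReal _ hpos]
    have h5 : ε ^ (-2 : ℤ) = (ε⁻¹) ^ 2 := by
      rw [inv_pow, zpow_neg]; rfl
    rw [h5, Real.sqrt_sq (by positivity), inv_inv]
  rw [h4] at h3
  exact h3

end Vale.Agent.P148.R2.H291
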