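import Vale.Agent.P148.R2.H291.TotW
import Vale.Agent.P148.R2.H291.WhpU
import Vale.Agent.P148.R2.H566.Omega
import Vale.Agent.P148.R2.H995.CrossW

/-!
# The environment event of the collar in the form of the middle assembly

`ev_iff_whp` : the two notions of an event of high probability agree. `GEnv` : finitely many
points in bounded sets, general position, stability at a macroscopic scale, energy and number of
edges of finitely many discs. `Scene.mq_le` : the mean total energy of a scene.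
-/

open MeasureTheory Set Metric Filter ProbabilityTheory Topology
open _root_.P148 _root_.P148.H729
open scoped ENNReal NNReal
open Vale.Agent.P148.R2.H184 Vale.Agent.P148.R2.H144
open Vale.Agent.P148.R2.H592 (Three)
open Vale.Agent.P148.R2.H566 (W0 Scene Ev)
open Vale.Agent.P148.R2.F (whp)

universe u

namespace Vale.Agent.P148.R2.H291

theorem ev_of_whp {A : Set Pt → Prop} (h : ∀ᶠ m in whp.{u}, A m.2) : Ev.{u} A := by
  intro δ hδ
  obtain ⟨K, _, hK⟩ := whp_unif' h (δ := ENNReal.ofReal δ) (ENNReal.ofReal_pos.2 hδ)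
  exact ⟨K, hK⟩

theorem whp_of_ev {A : Set Pt → Prop} (h : Ev.{u} A) : ∀ᶠ m in whp.{u}, A m.2 := by
  refine whp_of_unif (A := fun m => A m.2) fun δ hδ => ?_
  have h1 : min δ 1 ≠ ⊤ := ne_top_of_le_ne_top ENNReal.one_ne_top (min_le_right _ _)
  have h2 : 0 < min δ 1 := lt_min hδ one_pos
  obtain ⟨K, hK⟩ := h (min δ 1).toReal (ENNReal.toReal_pos h2.ne' h1)
  refine ⟨K, fun Ω _ P _ S lam hS hl => ?_⟩
  have h3 := hK Ω P S lam hS hl
  rw [ENNReal.ofReal_toReal h1] at h3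
  exact h3.trans (min_le_left _ _)

theorem ev_iff_whp {A : Set Pt → Prop} : Ev.{u} A ↔ ∀ᶠ m in whp.{u}, A m.2 :=
  ⟨whp_of_ev, ev_of_whp⟩

theorem ev_of_ae {A : Set Pt → Prop}
    (h : ∀ (Ω : Type u) [MeasurableSpace Ω] (P : Measure Ω) [IsProbabilityMeasure P]
      (S : Ω → Set Pt) (lam : ℝ≥0), IsColouredPoisson P S lam → ∀ᵐ ω ∂P, A (S ω)) : Ev.{u} A :=
  fun δ _ => ⟨0, fun Ω _ P _ S lam hS _ => by
    have h1 := h Ω P S lam hS
    rw [ae_iff] at h1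
    rw [h1]
    exact bot_le⟩

theorem ev_oneCol : Ev.{u} OneCol := ev_of_ae fun _ _ _ _ _ _ hS =>
  Eventually.of_forall fun ω => hS.oneColour ω

/-- The environment of the collar: `R` a radius, `s` the scale of stability, `I` a list of
discs. -/
structure GEnv (κ : ℝ) (Θ : Dt → ℂ) (R s : ℝ) (I : Finset (ℂ × ℝ)) (T : Set Pt) : Prop where
  one : OneCol T
  three : Three (pts T)
  fin : ∀ r : ℝ, (pts T ∩ closedBall 0 r).Finite
  stab : ∀ z ∈ closedBall (0 : ℂ) R, Stab (pts T) z s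
  tot : EQ (pts T) (closedBall 0 (2 * R)) Θ ≤ ENNReal.ofReal (CT κ (2 * R))
  en : ∀ k ∈ I, EQ (pts T) (closedBall k.1 k.2) Θ ≤ ENNReal.ofReal (CT κ k.2)
  ed : ∀ k ∈ I, ed 2 (pts T) k.1 k.2 ≤ ENNReal.ofReal (C0 * k.2 ^ 2)

theorem ev_gEnv {τ : ℂ} {κ : ℝ} {Θ : Dt → ℂ} (hΘ : Wt τ κ Θ) {R s : ℝ} (hR : 0 < R) (hs : 0 < s)
    (I : Finset (ℂ × ℝ)) (hI : ∀ k ∈ I, 0 < k.2) : Ev.{u} (GEnv κ Θ R s I) := by
  have h1 : Ev.{u} fun T => ∀ r : ℝ, (pts T ∩ closedBall 0 r).Finite :=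
    ev_of_ae fun _ _ _ _ _ _ hS => Eventually.of_forall fun ω r => finite_pts hS ω 0 r
  have h2 : ∀ᶠ m in whp.{u}, ∀ k ∈ I, EQ (pts m.2) (closedBall k.1 k.2) Θ ≤
      ENNReal.ofReal (CT κ k.2) :=
    (Finset.eventually_all I).2 fun k hk => whp_EQ hΘ k.1 (hI k hk) subset_rfl
  have h3 : ∀ᶠ m in whp.{u}, ∀ k ∈ I, Vale.Agent.P148.R2.H291.ed 2 (pts m.2) k.1 k.2 ≤
      ENNReal.ofReal (C0 * k.2 ^ 2) :=
    (Finset.eventually_all I).2 fun k hk => whp_ed_two k.1 (hI k hk)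
  have h4 := whp_of_ev.{u} ev_oneCol
  have h5 := whp_of_ev.{u} h1
  refine ev_of_whp ?_
  filter_upwards [h2, h3, h4, h5, Vale.Agent.P148.R2.H995.whp_three, whp_stab R hs,
    whp_EQ hΘ 0 (r := 2 * R) (by positivity) subset_rfl] with m a2 a3 a4 a5 a6 a7 a8
  exact ⟨a4, a6, a5, a7, a8, a2, a3⟩

theorem GEnv.mono {κ : ℝ} {Θ : Dt → ℂ} {R s : ℝ} {I J : Finset (ℂ × ℝ)} {T : Set Pt}
    (h : GEnv κ Θ R s I T) (hJ : J ⊆ I) : GEnv κ Θ R s J T :=
  ⟨h.one, h.three, h.fin, h.stab, h.tot, fun k hk => h.en k (hJ hk), fun k hk => h.ed k (hJ hk)⟩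

/-- **The mean total energy of a scene.** -/
theorem mq_le {sc : Scene} (hp : ∑ i, sc.p i = 1) {T : Set Pt} {κ : ℝ} {Θ : Dt → ℂ}
    {R s : ℝ} {I : Finset (ℂ × ℝ)} (h : GEnv κ Θ R s I T) (hsR : s ≤ R)
    (hw : ∀ i, sc.p i ≠ 0 → InEnv (sc.w i) (pts T) R s) :
    sc.mq Θ ≤ ENNReal.ofReal (CT κ (2 * R)) := by
  have h1 : ∀ i, sc.p i * (sc.w i).Qt ((sc.w i).th Θ) ≤
      sc.p i * ENNReal.ofReal (CT κ (2 * R)) := by
    intro i
    by_cases hi : sc.p i = 0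
    · rw [hi, zero_mul, zero_mul]
    · gcongr
      refine ((hw i hi).Qt_le Θ).trans (le_trans ?_ h.tot)
      unfold EQ
      refine ENNReal.tsum_le_tsum fun d => ?_
      classical
      split_ifs with h1 h2 h2
      · exact le_rfl
      · exact absurd (h1.mono (closedBall_subset_closedBall (by linarith))) h2
      · exact zero_le
      · exact le_rfl
  calc sc.mq Θ ≤ ∑ i, sc.p i * ENNReal.ofReal (CT κ (2 * R)) := Finset.sum_le_sum fun i _ => h1 i
    _ = _ := by rw [← Finset.sum_mul, hp, one_mul]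

end Vale.Agent.P148.R2.H291
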