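import Vale.Agent.P148.R2.H291.EvW
import Vale.Agent.P148.R2.H184.PC4
import Vale.Agent.P148.R2.H938.One

/-!
# The set of sites of a world

`site T R` : the points of `T` in the disc of radius `R` and three far points. `SiteOK T R s` :
general position and stability at scale `s`. All the properties of a world which do not depend on
its frozen set are derived from `SiteOK`.
-/

set_option linter.unusedSectionVars false

open MeasureTheory Set Metric Filter ProbabilityTheory Topology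
open _root_.P148 _root_.P148.H729
open scoped ENNReal NNReal
open Vale.Agent.P148.R2.H184 Vale.Agent.P148.R2.H144
open Vale.Agent.P148.R2.H990 (Net)
open Vale.Agent.P148.R2.H995 (nsup)
open Vale.Agent.P148.R2.H592 (Three nbr tail head vc Fc HullTri XU Generic bfar)
open Vale.Agent.P148.R2.H566 (W0 Scene Ev)
open Vale.Agent.P148.R2.H938 (norm_bfar)
open Vale.Agent.P148.R2.F (whp)

universe u

namespace Vale.Agent.P148.R2.H291

/-- The hull. -/
noncomputable def bR (R : ℝ) : ZMod 3 → ℂ := bfar (2 * R)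

/-- The set of sites. -/
noncomputable def site (T : Set Pt) (R : ℝ) : Set ℂ := XU T (ball 0 R) (bR R)

/-- General position and stability. -/
structure SiteOK (T : Set Pt) (R s : ℝ) : Prop where
  hR : 2 ≤ R
  hs : 0 < s
  hs1 : 10 * s ≤ 1
  gen : Generic T (bR R)
  one : OneCol T
  stab : ∀ z ∈ closedBall (0 : ℂ) R, Stab (pts T) z s

theorem ev_siteOK {R s : ℝ} (hR : 2 ≤ R) (hs : 0 < s) (hs1 : 10 * s ≤ 1) :
    Ev.{u} fun T => SiteOK T R s := by
  refine ev_of_whp ?_
  filter_upwards [F.whp_generic.{u} (bR R), whp_of_ev.{u} ev_oneCol, whp_stab R hs] with m h1 h2 h3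
  exact ⟨hR, hs, hs1, h1, h2, h3⟩

theorem norm_bR {R : ℝ} (hR : 0 ≤ R) (j : ZMod 3) : ‖bR R j‖ = 2 * R :=
  norm_bfar (by positivity) j

theorem norm_le_nsup (z : ℂ) : ‖z‖ ≤ 2 * nsup z := by
  refine (Complex.norm_le_abs_re_add_abs_im z).trans ?_
  have h1 : |z.re| ≤ nsup z := le_max_left _ _
  have h2 : |z.im| ≤ nsup z := le_max_right _ _
  linarith

theorem nsup_le_norm (z : ℂ) : nsup z ≤ ‖z‖ :=
  max_le (Complex.abs_re_le_norm z) (Complex.abs_im_le_norm z)

theorem nsup_bR {R : ℝ} (hR : 0 ≤ R) (j : ZMod 3) : R ≤ nsup (bR R j) := by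
  have h1 := norm_le_nsup (bR R j)
  rw [norm_bR hR] at h1
  linarith

namespace SiteOK

variable {T : Set Pt} {R s : ℝ} (h : SiteOK T R s)
include h

theorem R0 : 0 < R := by linarith [h.hR]

theorem hull : HullTri (site T R) (bR R) :=
  h.gen.hullTri_ball (ρ := 2 * R) (by linarith [h.hR]) (by
    rw [show 2 * R / 2 = R by ring])

theorem b_mem (j : ZMod 3) : bR R j ∈ site T R := h.hull.mem j

omit h in
/-- The sites are the points in the ball and the corners of the hull. -/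
theorem mem_iff {x : ℂ} : x ∈ site T R ↔ (x ∈ pts T ∧ ‖x‖ < R) ∨ ∃ j, bR R j = x := by
  unfold site XU
  rw [mem_union, mem_inter_iff, mem_ball_zero_iff, mem_range]

theorem not_ball (j : ZMod 3) : bR R j ∉ ball (0 : ℂ) R := by
  rw [mem_ball_zero_iff, norm_bR h.R0.le]
  linarith [h.R0]

/-- The sites in the ball are the points of the configuration. -/
theorem agree {D : Set ℂ} (hD : D ⊆ ball 0 R) : site T R ∩ D = pts T ∩ D := by
  ext w
  constructor
  · rintro ⟨h1, h2⟩
    rcases mem_iff.1 h1 with h3 | ⟨j, rfl⟩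
    · exact ⟨h3.1, h2⟩
    · exact absurd (hD h2) (h.not_ball j)
  · rintro ⟨h1, h2⟩
    exact ⟨mem_iff.2 (Or.inl ⟨h1, mem_ball_zero_iff.1 (hD h2)⟩), h2⟩

theorem mem_pts {x : ℂ} (hx : x ∈ site T R) (hb : ∀ j, x ≠ bR R j) : x ∈ pts T ∧ ‖x‖ < R := by
  rcases mem_iff.1 hx with h1 | ⟨j, hj⟩
  · exact h1
  · exact absurd hj.symm (hb j)

theorem ball_sub {z : ℂ} (hz : z ∈ closedBall (0 : ℂ) (R - 1)) : closedBall z (5 * s) ⊆ ball 0 R := by
  intro w hw
  rw [mem_closedBall] at hz hw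
  rw [mem_ball]
  have h1 := dist_triangle w z 0
  linarith [h.hs1, h.hs]

theorem stab' {z : ℂ} (hz : z ∈ closedBall (0 : ℂ) (R - 1)) : Stab (pts T) z s :=
  h.stab z (closedBall_subset_closedBall (by linarith) hz)

theorem stabX {z : ℂ} (hz : z ∈ closedBall (0 : ℂ) (R - 1)) : Stab (site T R) z s := by
  refine (h.stab' hz).congr h.hs ?_
  rw [← h.agree (h.ball_sub hz)]
  exact inter_subset_left

/-- The neighbours. -/
theorem nbr_iff {x y : ℂ} (hx : x ∈ closedBall (0 : ℂ) (R - 1)) :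
    nbr (site T R) x y ↔ nbr (pts T) x y := by
  rw [nbr_iff_adj, nbr_iff_adj]
  exact ⟨adj_congr (h.stab' hx) h.hs (h.agree (h.ball_sub hx)).symm,
    adj_congr (h.stabX hx) h.hs (h.agree (h.ball_sub hx))⟩

/-- The edges are short. -/
theorem edge {x y : ℂ} (hx : x ∈ closedBall (0 : ℂ) (R - 1)) (hxy : nbr (site T R) x y) :
    dist x y ≤ s / 4 := dist_adj_le (h.stabX hx) h.hs (nbr_iff_adj.1 hxy)

theorem edge_pts {x y : ℂ} (hx : x ∈ closedBall (0 : ℂ) (R - 1)) (hxy : nbr (pts T) x y) :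
    dist x y ≤ s / 4 := dist_adj_le (h.stab' hx) h.hs (nbr_iff_adj.1 hxy)

/-- The sites are dense. -/
theorem net {ρ : ℝ} (hρ : s / 8 ≤ ρ) : Net (site T R) (closedBall 0 (R - 1)) ρ := by
  intro z hz
  obtain ⟨v, hv, hd⟩ := h.stabX hz z (mem_closedBall_self (by linarith [h.hs]))
  exact ⟨v, hv, hd.trans hρ⟩

theorem net_pts {ρ : ℝ} (hρ : s / 8 ≤ ρ) : Net (pts T) (closedBall 0 (R - 1)) ρ := by
  intro z hz
  obtain ⟨v, hv, hd⟩ := h.stab' hz z (mem_closedBall_self (by linarith [h.hs]))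
  exact ⟨v, hv, hd.trans hρ⟩

theorem far (j : ZMod 3) : R ≤ nsup (bR R j) := nsup_bR h.R0.le j

theorem ne_b {x : ℂ} (hx : x ∈ ball (0 : ℂ) R) (j : ZMod 3) : x ≠ bR R j := by
  rintro rfl
  exact h.not_ball j hx

/-- The faces with a corner in the disc are local. -/
theorem lf {q : Fc (site T R) (bR R) × ZMod 3} (hq : tail q ∈ closedBall (0 : ℂ) (R - 1)) :
    LF (site T R) (closedBall (tail q) (s / 4)) (dt q) :=
  lf_of_stab h.hull h.hs (h.stab' hq) (h.agree (h.ball_sub hq)).symm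
    (h.ne_b (closedBall_subset_ball (by linarith) hq))

/-- The environment of a world. -/
theorem inEnv {w : W0} (hX : w.X = site T R) (hB : ∀ j, w.b j ∈ w.B) {R' : ℝ}
    (hR' : R' + 1 ≤ R) (hfree : ∀ x, w.Free x → x ∈ closedBall (0 : ℂ) R') :
    InEnv w (pts T) R' s where
  hs := h.hs
  stab z hz := h.stab z (closedBall_subset_closedBall (by linarith) hz)
  agree := by
    rw [hX, h.agree]
    refine closedBall_subset_ball ?_
    linarith [h.hs1, h.hs]
  hull := hB
  free x hx hxB := hfree x ⟨hx, hxB⟩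

/-- The hypotheses of the row PC. -/
theorem pcw {w : W0} (hR : 6 ≤ R) (hX : w.X = site T R) (hb : w.b = bR R)
    (hB : ∀ j, w.b j ∈ w.B) (hnear : ∀ x, w.Free x → nsup x < 3 / 2)
    (hbdry : ∀ x y, nbr w.X x y → w.Free x → y ∈ w.B → H184.col T y = true)
    (hinner : ∀ x ∈ w.X, x ∈ A0 → x ∉ w.B) : PCW T w where
  sub x hx := by
    have h1 : x ∈ site T R := hX ▸ hx.1
    refine (h.mem_pts h1 fun j hj => hx.2 ?_).1
    rw [hj, ← hb]
    exact hB j
  near := hnear
  bdry := hbdry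
  win := by
    rw [hX]
    refine h.agree ?_
    intro z hz
    obtain ⟨⟨h1, h2⟩, h3, h4⟩ := hz
    simp only at h1 h2 h3 h4
    rw [mem_ball_zero_iff]
    have h5 : ‖z‖ ^ 2 < 36 := by
      rw [← Complex.normSq_eq_norm_sq, Complex.normSq_apply]
      nlinarith
    have h6 : ‖z‖ < 6 := by nlinarith [norm_nonneg z]
    linarith
  inner := hinner
  net := by
    rw [hX]
    exact (h.net (ρ := 1) (by linarith [h.hs1, h.hs])).mono
      (closedBall_subset_closedBall (by linarith)) le_rfl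
  far j := by
    rw [hb]
    linarith [h.far j]

/-- Four sites around a box. -/
theorem quad {p : ℂ} {r : ℝ} (hsr : 4 * s ≤ r) (hp : ‖p‖ + 3 * r < R) (i : Fin 4) :
    (site T R ∩ H609.hpl p r i ∩ H609.hpl p r (i + 1)).Nonempty := by
  have hs := h.hs
  have hsub : closedBall p (3 * r) ⊆ ball 0 R := by
    intro z hz
    rw [mem_closedBall] at hz
    rw [mem_ball]
    have h1 := dist_triangle z p 0
    rw [dist_zero_right p] at h1
    linarith
  exact quad_of_env (Y := pts T) (fun z hz => h.stab z (ball_subset_closedBall (hsub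
    (closedBall_subset_closedBall (by linarith) hz)))) h.hs hsr (h.agree hsub).symm i

/-- The edges which start in a box are short. -/
theorem mesh {p : ℂ} {r μ : ℝ} (hμ : s / 4 ≤ μ) (hp : ‖p‖ + 2 * r + 1 ≤ R) {x y : ℂ}
    (hxy : nbr (site T R) x y) (hx : x ∈ H609.Sq p r) : dist x y ≤ μ := by
  refine (h.edge ?_ hxy).trans hμ
  have h1 := norm_le_of_sq hx
  have hr : 0 ≤ r := (abs_nonneg _).trans hx.1
  rw [mem_closedBall]
  have h2 := dist_triangle x p 0
  rw [dist_zero_right p] at h2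
  linarith

/-- The geometric part of the box environment. -/
theorem boxOK {ι : Type*} {O : ι → Set ℂ} {j₀ : ι} {p : ℂ} {r μ : ℝ} (hsr : 4 * s ≤ r)
    (hμ : s / 4 ≤ μ) (hμr : 4 * μ ≤ r) (hp : ‖p‖ + 3 * r < R) (hp' : ‖p‖ + 2 * r + 1 ≤ R)
    (hother : ∀ j ≠ j₀, O j ⊆ (H609.Sq p r)ᶜ) (hout : (O j₀ \ H609.Sq p r).Nonempty) :
    H609.BoxOK (site T R) O j₀ p r μ where
  rpos := by linarith [h.hs]
  mu_nonneg := by linarith [h.hs]
  mu_le := hμr
  quad i := h.quad hsr hp i
  other := hother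
  out := hout
  mesh _ _ hxy hx := h.mesh hμ hp' hxy hx

end SiteOK

end Vale.Agent.P148.R2.H291
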