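import Vale.Agent.P148.R2.H291.MomEQ
import Vale.Agent.P148.R2.H729.Q2

/-!
# The energy of the environment under a bounded density

The law of the environment may be changed by a density bounded by a constant `Dm`: for large
intensities the mean energy of a disc is still at most an absolute constant times the area.
-/

open MeasureTheory Set Metric Filter ProbabilityTheory Topology
open _root_.P148
open scoped ENNReal NNReal Nat
open Vale.Agent.P148.R2.H990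
open Vale.Agent.P148.R2.H184 (Dt EQ Wt)
open _root_.P148.H729 (avg recolSum flipOn)

universe u

namespace Vale.Agent.P148.R2.H291

section
variable {Ω : Type*} [MeasurableSpace Ω] {P : Measure Ω} {S : Ω → Set Pt} {lam : ℝ≥0}

/-- A density bounded by `Dm` and the tail of `Y`. -/
theorem dens_le {Y D : Ω → ℝ≥0∞} (hY : Measurable Y) {Dm c b : ℝ≥0∞} (hDm : Dm ≠ ⊤)
    (hc : c ≠ ⊤) (hD : ∀ᵐ ω ∂P, D ω ≤ Dm) (htail : ∫⁻ ω in {ω | c < Y ω}, Y ω ∂P ≤ b) :
    ∫⁻ ω, D ω * Y ω ∂P ≤ (∫⁻ ω, D ω ∂P) * c + Dm * b := by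
  set A : Set Ω := {ω | c < Y ω} with hA
  have hAm : MeasurableSet A := measurableSet_lt measurable_const hY
  have h1 : ∀ᵐ ω ∂P, D ω * Y ω ≤ D ω * c + Dm * A.indicator Y ω := by
    filter_upwards [hD] with ω hω
    by_cases hωA : ω ∈ A
    · rw [indicator_of_mem hωA]
      exact (mul_le_mul' hω le_rfl).trans le_add_self
    · rw [indicator_of_notMem hωA, mul_zero, add_zero]
      have : Y ω ≤ c := not_lt.1 hωA
      gcongr
  calc ∫⁻ ω, D ω * Y ω ∂P ≤ ∫⁻ ω, (D ω * c + Dm * A.indicator Y ω) ∂P := lintegral_mono_ae h1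
    _ = (∫⁻ ω, D ω ∂P) * c + Dm * ∫⁻ ω in A, Y ω ∂P := by
        rw [lintegral_add_right _ ((hY.indicator hAm).const_mul _), lintegral_mul_const' _ _ hc,
          lintegral_const_mul' _ _ hDm, lintegral_indicator hAm]
    _ ≤ _ := by gcongr

/-- The absolute constant of the energy of the faces. -/
noncomputable def CE (κ : ℝ) : ℝ := 675 * κ ^ 2 * CD 2 3

theorem CE_nonneg (κ : ℝ) : 0 ≤ CE κ := mul_nonneg (by positivity) (CD_nonneg 2 3)

/-- The tail of the energy. -/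
theorem eqMaj_tail [IsProbabilityMeasure P] (h : IsColouredPoisson P S lam) {a : ℝ}
    (ha : 0 < a) (hla : lam * a ^ 2 = 1) (κ : ℝ) (x : ℂ) {r : ℝ} (hr : a ≤ r) {t : ℝ}
    (ht : 0 < t) :
    ∫⁻ ω in {ω | ENNReal.ofReal (CE κ * r ^ 2) < eqMaj S κ a x r ω}, eqMaj S κ a x r ω ∂P ≤
      ENNReal.ofReal (r ^ 2 * (911250 * t * κ ^ 4 * CM 2 3) + r ^ 2 * t⁻¹ *
        (KK 3 / (25 * (r / a) ^ 2))) := by
  have hr0 : 0 < r := ha.trans_le hr
  have hC := CM_nonneg 2 3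
  have hK := KK_nonneg 3
  have hA : MeasurableSet {ω | ENNReal.ofReal (CE κ * r ^ 2) < eqMaj S κ a x r ω} :=
    measurableSet_lt measurable_const (measurable_eqMaj h κ a x r)
  refine (lint_eqMaj_restrict h ha hla κ x hr ht hA).trans ?_
  rw [ENNReal.ofReal_add (by positivity) (by positivity),
    ENNReal.ofReal_mul (p := r ^ 2 * t⁻¹) (by positivity)]
  gcongr
  exact eqMaj_conc h ha hla κ x hr

end

/-- For large intensities the tail of the energy is small. -/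
theorem exists_tail (κ : ℝ) {η : ℝ} (hη : 0 < η) : ∃ K : ℝ, 1 ≤ K ∧
    ∀ (Ω : Type u) [MeasurableSpace Ω] (P : Measure Ω) [IsProbabilityMeasure P]
      (S : Ω → Set Pt) (lam : ℝ≥0), IsColouredPoisson P S lam →
      ∀ (a : ℝ), 0 < a → lam * a ^ 2 = 1 → ∀ (x : ℂ) (r : ℝ), 0 < r → K ≤ lam * r ^ 2 →
      a ≤ r ∧ ∫⁻ ω in {ω | ENNReal.ofReal (CE κ * r ^ 2) < eqMaj S κ a x r ω},
        eqMaj S κ a x r ω ∂P ≤ ENNReal.ofReal (η * r ^ 2) := by
  have hC := CM_nonneg 2 3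
  have hK := KK_nonneg 3
  set c : ℝ := 911250 * κ ^ 4 * CM 2 3 + 1 with hc
  have hc0 : 0 < c := by positivity
  set t : ℝ := η / (2 * c) with ht
  have ht0 : 0 < t := by positivity
  refine ⟨2 * KK 3 / (25 * t * η) + 1, by
    have : 0 ≤ 2 * KK 3 / (25 * t * η) := by positivity
    linarith, ?_⟩
  intro Ω _ P _ S lam h a ha hla x r hr hlr
  have hra : (r / a) ^ 2 = lam * r ^ 2 := by
    rw [div_pow, div_eq_iff (by positivity)]
    linear_combination (-(r ^ 2)) * hla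
  have h1 : 1 ≤ (r / a) ^ 2 := by
    rw [hra]
    have : 0 ≤ 2 * KK 3 / (25 * t * η) := by positivity
    linarith
  have har : a ≤ r := by
    have h2 : 1 ≤ r / a := by
      by_contra hcon
      push Not at hcon
      have h3 : 0 ≤ r / a := by positivity
      nlinarith
    rwa [one_le_div ha] at h2
  refine ⟨har, (eqMaj_tail h ha hla κ x har ht0).trans (ENNReal.ofReal_le_ofReal ?_)⟩
  have e1 : r ^ 2 * (911250 * t * κ ^ 4 * CM 2 3) ≤ η / 2 * r ^ 2 := by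
    have : 911250 * t * κ ^ 4 * CM 2 3 ≤ η / 2 := by
      have e2 : 911250 * t * κ ^ 4 * CM 2 3 ≤ t * c := by
        rw [hc]
        nlinarith
      have e3 : t * c = η / 2 := by
        rw [ht]
        field_simp
      linarith
    nlinarith [sq_nonneg r]
  have e4 : t⁻¹ * (KK 3 / (25 * (r / a) ^ 2)) ≤ η / 2 := by
    have h5 : 2 * KK 3 / (25 * t * η) ≤ (r / a) ^ 2 := by
      rw [hra]
      linarith
    rw [div_le_iff₀ (by positivity)] at h5
    have e5 : t⁻¹ * (KK 3 / (25 * (r / a) ^ 2)) = KK 3 / (25 * t * (r / a) ^ 2) := by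
      field_simp
    rw [e5, div_le_iff₀ (by positivity)]
    nlinarith
  calc r ^ 2 * (911250 * t * κ ^ 4 * CM 2 3) + r ^ 2 * t⁻¹ * (KK 3 / (25 * (r / a) ^ 2))
      = r ^ 2 * (911250 * t * κ ^ 4 * CM 2 3) +
        r ^ 2 * (t⁻¹ * (KK 3 / (25 * (r / a) ^ 2))) := by ring
    _ ≤ η / 2 * r ^ 2 + r ^ 2 * (η / 2) := by gcongr
    _ = η * r ^ 2 := by ring

/-- **Energy under a bounded density.** -/
theorem exists_dens (κ : ℝ) {Dm : ℝ≥0∞} (hDm : Dm ≠ ⊤) : ∃ K : ℝ, 1 ≤ K ∧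
    ∀ (Ω : Type u) [MeasurableSpace Ω] (P : Measure Ω) [IsProbabilityMeasure P]
      (S : Ω → Set Pt) (lam : ℝ≥0), IsColouredPoisson P S lam →
      ∀ (a : ℝ), 0 < a → lam * a ^ 2 = 1 → ∀ (x : ℂ) (r : ℝ), 0 < r → K ≤ lam * r ^ 2 →
      ∀ D : Ω → ℝ≥0∞, (∀ᵐ ω ∂P, D ω ≤ Dm) → ∫⁻ ω, D ω ∂P ≤ 1 →
      ∫⁻ ω, D ω * eqMaj S κ a x r ω ∂P ≤ ENNReal.ofReal ((CE κ + 1) * r ^ 2) := by
  have hη : 0 < 1 / (Dm.toReal + 1) := by positivity
  obtain ⟨K, hK1, hK⟩ := exists_tail.{u} κ hη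
  refine ⟨K, hK1, ?_⟩
  intro Ω _ P _ S lam h a ha hla x r hr hlr D hD hD1
  obtain ⟨har, h1⟩ := hK Ω P S lam h a ha hla x r hr hlr
  refine (dens_le (measurable_eqMaj h κ a x r) hDm ENNReal.ofReal_ne_top hD h1).trans ?_
  have hCE := CE_nonneg κ
  calc (∫⁻ ω, D ω ∂P) * ENNReal.ofReal (CE κ * r ^ 2) +
        Dm * ENNReal.ofReal (1 / (Dm.toReal + 1) * r ^ 2)
      ≤ 1 * ENNReal.ofReal (CE κ * r ^ 2) + ENNReal.ofReal (r ^ 2) := by
        gcongr
        have h0 : 0 ≤ Dm.toReal := ENNReal.toReal_nonneg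
        have e0 : Dm = ENNReal.ofReal Dm.toReal := (ENNReal.ofReal_toReal hDm).symm
        set q : ℝ := Dm.toReal with hq
        rw [e0, ← ENNReal.ofReal_mul h0]
        refine ENNReal.ofReal_le_ofReal ?_
        have h2 : q * (1 / (q + 1)) ≤ 1 := by
          rw [mul_one_div, div_le_one (by positivity)]
          linarith
        calc q * (1 / (q + 1) * r ^ 2) = q * (1 / (q + 1)) * r ^ 2 := by ring
          _ ≤ 1 * r ^ 2 := by gcongr
          _ = r ^ 2 := one_mul _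
    _ = _ := by
        rw [one_mul, ← ENNReal.ofReal_add (by positivity) (by positivity)]
        congr 1
        ring

/-! ### quenched averages -/

theorem pts_flipOn (U : Set ℂ) (T : Set Pt) : pts (flipOn U '' T) = pts T := by
  ext z
  constructor
  · rintro ⟨_, ⟨q, hq, rfl⟩, rfl⟩
    exact ⟨q, hq, rfl⟩
  · rintro ⟨q, hq, rfl⟩
    exact ⟨_, ⟨q, hq, rfl⟩, rfl⟩

/-- The average of a product with a function bounded by a colour blind one. -/
theorem avg_mul_le {W : Set ℂ} {D X G : Set Pt → ℝ≥0∞} (hX : ∀ T, X T ≤ G T)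
    (hG : ∀ (U : Set ℂ) (T : Set Pt), G (flipOn U '' T) = G T) (T : Set Pt) :
    avg W (fun T => D T * X T) T ≤ avg W D T * G T := by
  unfold avg
  rw [mul_assoc]
  refine mul_le_mul' le_rfl ?_
  unfold recolSum
  split_ifs with hf
  · rw [Finset.sum_mul]
    refine Finset.sum_le_sum fun U _ => ?_
    refine mul_le_mul' le_rfl ((hX _).trans (le_of_eq ?_))
    exact hG _ _
  · exact zero_le

theorem avg_le_const {W : Set ℂ} {D : Set Pt → ℝ≥0∞} {Dm : ℝ≥0∞} (hD : ∀ T, D T ≤ Dm)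
    {T : Set Pt} (hT : (pts T ∩ W).Finite) : avg W D T ≤ Dm := by
  unfold avg recolSum
  rw [dif_pos hT]
  calc (2 ^ (pts T ∩ W).ncard)⁻¹ * ∑ U ∈ hT.toFinset.powerset, D (flipOn (U : Set ℂ) '' T)
      ≤ (2 ^ (pts T ∩ W).ncard)⁻¹ * (2 ^ (pts T ∩ W).ncard * Dm) := by
        gcongr
        refine (Finset.sum_le_card_nsmul _ _ Dm fun U _ => hD _).trans ?_
        rw [Finset.card_powerset, ← Set.ncard_eq_toFinset_card _ hT, nsmul_eq_mul]
        push_cast
        rfl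
    _ = Dm := by rw [← mul_assoc, ENNReal.inv_mul_cancel (by simp) (by simp), one_mul]

/-- **The crude energy bound (TOT)**: under a density bounded by `Dm` the mean of a quenched
quantity which is at most `c` times the energy of the local faces in a disc of radius `r` is at
most `c` times an absolute constant times `κ ^ 2 * r ^ 2`, for large intensities. -/
theorem exists_tot (κ : ℝ) {Dm : ℝ≥0∞} (hDm : Dm ≠ ⊤) : ∃ K : ℝ, 1 ≤ K ∧
    ∀ (Ω : Type u) [MeasurableSpace Ω] (P : Measure Ω) [IsProbabilityMeasure P]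
      (S : Ω → Set Pt) (lam : ℝ≥0), IsColouredPoisson P S lam →
      ∀ (x : ℂ) (r : ℝ), 0 < r → K ≤ lam * r ^ 2 →
      ∀ (D : Set Pt → ℝ≥0∞), @Measurable _ _ voidSigma _ D → (∀ T, D T ≤ Dm) →
      ∫⁻ ω, D (S ω) ∂P ≤ 1 → ∀ (W : Set ℂ), MeasurableSet W → Bornology.IsBounded W →
      ∀ (Q : Set ℂ) (τ : ℂ) (Θ : Dt → ℂ), Q ⊆ closedBall x r → Wt τ κ Θ →
      ∀ (c : ℝ≥0), ∀ X : Set Pt → ℝ≥0∞, (∀ T, X T ≤ c * EQ (pts T) Q Θ) →
      ∃ g : Ω → ℝ≥0∞, Measurable g ∧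
        (∀ᵐ ω ∂P, avg W (fun T => D T * X T) (S ω) ≤ g ω) ∧
        ∫⁻ ω, g ω ∂P ≤ c * ENNReal.ofReal ((CE κ + 1) * r ^ 2) := by
  obtain ⟨K, hK1, hK⟩ := exists_dens.{u} κ hDm
  refine ⟨K, hK1, ?_⟩
  intro Ω _ P _ S lam h x r hr hlr D hDm' hD hD1 W hW hWb Q τ Θ hQ hΘ c X hX
  have hlam : (0 : ℝ) < lam := by
    by_contra hcon
    have h0 : (lam : ℝ) = 0 := le_antisymm (not_lt.1 hcon) lam.2
    rw [h0, zero_mul] at hlr
    linarith
  set a : ℝ := (Real.sqrt lam)⁻¹ with ha'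
  have ha : 0 < a := inv_pos.2 (Real.sqrt_pos.2 hlam)
  have hla : (lam : ℝ) * a ^ 2 = 1 := by
    rw [ha', inv_pow, Real.sq_sqrt hlam.le, mul_inv_cancel₀ hlam.ne']
  refine ⟨fun ω => avg W D (S ω) * (c * eqMaj S κ a x r ω),
    (_root_.P148.H729.measurable_avg h hW hWb hDm').mul ((measurable_eqMaj h κ a x r).const_mul _),
    ?_, ?_⟩
  · filter_upwards [ae_EQ_le h ha hla] with ω hω
    refine (avg_mul_le hX (fun U T => by rw [pts_flipOn]) (S ω)).trans ?_
    gcongr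
    exact hω x r Q τ κ Θ hQ hΘ
  · have h1 : ∀ᵐ ω ∂P, avg W D (S ω) ≤ Dm := Eventually.of_forall fun ω =>
      avg_le_const hD (_root_.P148.H729.finite_pts h hWb ω)
    have h2 : ∫⁻ ω, avg W D (S ω) ∂P ≤ 1 := by
      rw [_root_.P148.H729.lintegral_avg h hW hWb hDm']
      exact hD1
    have h3 := hK Ω P S lam h a ha hla x r hr hlr (fun ω => avg W D (S ω)) h1 h2
    calc ∫⁻ ω, avg W D (S ω) * (c * eqMaj S κ a x r ω) ∂P
        = c * ∫⁻ ω, avg W D (S ω) * eqMaj S κ a x r ω ∂P := by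
          rw [← lintegral_const_mul' _ _ ENNReal.coe_ne_top]
          refine lintegral_congr fun ω => ?_
          ring
      _ ≤ _ := by gcongr

end Vale.Agent.P148.R2.H291
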