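import Vale.Agent.P148.R2.H291.Mom

/-!
# The energy of Voronoi vertices
-/

open MeasureTheory Set Metric Filter ProbabilityTheory P148
open scoped ENNReal NNReal Nat
open Vale.Agent.P148.R2.H990

namespace Vale.Agent.P148.R2.H291

variable {Ω : Type*} [MeasurableSpace Ω] {P : Measure Ω} {S : Ω → Set Pt} {lam : ℝ≥0}

/-- The stabilisation radius. -/
noncomputable def loc (X : Set ℂ) (z : ℂ) : ℝ := sInf {h | 0 < h ∧ Stab X z h}

theorem loc_nonneg (X : Set ℂ) (z : ℂ) : 0 ≤ loc X z :=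
  Real.sInf_nonneg fun _ hh => hh.1.le

theorem loc_le {X : Set ℂ} {z : ℂ} {h : ℝ} (h0 : 0 < h) (hs : Stab X z h) : loc X z ≤ h :=
  csInf_le ⟨0, fun _ hh => hh.1.le⟩ ⟨h0, hs⟩

/-- The cells at a Voronoi vertex are smaller than the stabilisation radius. -/
theorem vcell_subset_loc {X : Set ℂ} {z v : ℂ} (hne : ∃ h, 0 < h ∧ Stab X z h)
    (hz : z ∈ vcell X v) : vcell X v ⊆ closedBall v (loc X z / 8) := by
  intro y hy
  rw [mem_closedBall]
  refine le_of_forall_pos_lt_add fun ε hε => ?_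
  obtain ⟨h, ⟨h0, hs⟩, hlt⟩ := exists_lt_of_csInf_lt (s := {h | 0 < h ∧ Stab X z h}) hne
    (b := loc X z + ε) (by
      show loc X z < loc X z + ε
      linarith)
  have h1 := hs.vcell_subset h0 ⟨z, hz, mem_closedBall_self h0.le⟩ hy
  rw [mem_closedBall] at h1
  linarith

theorem dist_le_loc {X : Set ℂ} {z v : ℂ} (hne : ∃ h, 0 < h ∧ Stab X z h)
    (hz : z ∈ vcell X v) : dist z v ≤ loc X z / 8 :=
  vcell_subset_loc hne hz hz

/-- The `p`-energy of the Voronoi vertices in a disc. -/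
noncomputable def en (p : ℕ) (X : Set ℂ) (x : ℂ) (r : ℝ) : ℝ≥0∞ :=
  ∑' z : {z : ℂ // VV X z ∧ dist z x ≤ r}, ENNReal.ofReal (loc X z ^ p)

/-! ### the grid -/

/-- The grid point of a pair of integers. -/
noncomputable def gp (a : ℝ) (m : ℤ × ℤ) : ℂ := ⟨a * m.1, a * m.2⟩

/-- The grid point next to `z`. -/
noncomputable def rd (a : ℝ) (z : ℂ) : ℤ × ℤ := (round (z.re / a), round (z.im / a))

theorem dist_gp_rd {a : ℝ} (ha : 0 < a) (z : ℂ) : dist z (gp a (rd a z)) ≤ a := by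
  have key : ∀ t : ℝ, |t - a * round (t / a)| ≤ a / 2 := by
    intro t
    have h1 := abs_sub_round (t / a)
    have h2 : t - a * round (t / a) = a * (t / a - round (t / a)) := by
      field_simp
    rw [h2, abs_mul, abs_of_pos ha]
    nlinarith
  have h1 := key z.re
  have h2 := key z.im
  rw [Complex.dist_eq]
  refine (Complex.norm_le_abs_re_add_abs_im _).trans ?_
  simp only [gp, rd, Complex.sub_re, Complex.sub_im]
  linarith

/-- The grid points near a disc. -/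
noncomputable def win (a : ℝ) (x : ℂ) (R : ℝ) : Finset (ℤ × ℤ) :=
  Finset.Icc ⌈(x.re - R) / a⌉ ⌊(x.re + R) / a⌋ ×ˢ Finset.Icc ⌈(x.im - R) / a⌉ ⌊(x.im + R) / a⌋

theorem mem_win {a : ℝ} (ha : 0 < a) {x : ℂ} {R : ℝ} {m : ℤ × ℤ} (hm : dist (gp a m) x ≤ R) :
    m ∈ win a x R := by
  rw [Complex.dist_eq] at hm
  have h1 := (Complex.abs_re_le_norm _).trans hm
  have h2 := (Complex.abs_im_le_norm _).trans hm
  simp only [gp, Complex.sub_re, Complex.sub_im, abs_le] at h1 h2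
  simp only [win, Finset.mem_product, Finset.mem_Icc, Int.ceil_le, Int.le_floor]
  refine ⟨⟨?_, ?_⟩, ⟨?_, ?_⟩⟩
  · rw [div_le_iff₀ ha]; linarith
  · rw [le_div_iff₀ ha]; linarith
  · rw [div_le_iff₀ ha]; linarith
  · rw [le_div_iff₀ ha]; linarith

theorem card_win_le {a : ℝ} (ha : 0 < a) (x : ℂ) {R : ℝ} (hR : 0 ≤ R) :
    ((win a x R).card : ℝ) ≤ (2 * R / a + 1) ^ 2 := by
  have key : ∀ u : ℝ, ((Finset.Icc ⌈(u - R) / a⌉ ⌊(u + R) / a⌋).card : ℝ) ≤ 2 * R / a + 1 := by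
    intro u
    rw [Int.card_Icc]
    have h1 : (⌊(u + R) / a⌋ : ℝ) ≤ (u + R) / a := Int.floor_le _
    have h2 : (u - R) / a ≤ (⌈(u - R) / a⌉ : ℝ) := Int.le_ceil _
    have h3 : (u + R) / a - (u - R) / a = 2 * R / a := by ring
    have h4 : 0 ≤ 2 * R / a := by positivity
    rcases le_total 0 (⌊(u + R) / a⌋ + 1 - ⌈(u - R) / a⌉) with h | h
    · have : (((⌊(u + R) / a⌋ + 1 - ⌈(u - R) / a⌉).toNat : ℤ) : ℝ) =
          ((⌊(u + R) / a⌋ + 1 - ⌈(u - R) / a⌉ : ℤ) : ℝ) := by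
        rw [Int.toNat_of_nonneg h]
      rw [Int.cast_natCast] at this
      rw [this]
      push_cast
      linarith
    · rw [Int.toNat_eq_zero.2 h]
      push_cast
      linarith
  rw [win, Finset.card_product, Nat.cast_mul, pow_two]
  gcongr
  · exact key _
  · exact key _

/-! ### the bound -/

/-- The energy of the Voronoi vertices next to a grid point. -/
theorem sum_fiber_le (h : IsColouredPoisson P S lam) {a : ℝ} (ha : 0 < a) (x : ℂ) (p : ℕ) (ω : Ω)
    (hk : ∃ k : ℕ, 1 ≤ k ∧ StabD (pts (S ω)) x (k * a)) (Z : Finset ℂ)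
    (hZ : ∀ z ∈ Z, VV (pts (S ω)) z ∧ dist z x ≤ a) :
    ∑ z ∈ Z, ENNReal.ofReal (loc (pts (S ω)) z ^ p) ≤
      ENNReal.ofReal (a ^ p) * maj S x a p 3 ω := by
  obtain ⟨k, h1, h2, h3⟩ := exists_level (S := S) a x p 3 ω hk
  have hk1 : (1 : ℝ) ≤ k := by exact_mod_cast h1
  have hka : 0 < k * a := by positivity
  have hak : a ≤ k * a := le_mul_of_one_le_left ha.le hk1
  have e1 : ∀ z ∈ Z, ENNReal.ofReal (loc (pts (S ω)) z ^ p) ≤ ENNReal.ofReal ((k * a) ^ p) := by
    intro z hz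
    refine ENNReal.ofReal_le_ofReal ?_
    have h4 : Stab (pts (S ω)) z (3 / 4 * (k * a)) := h2.stab hka ((hZ z hz).2.trans hak)
    have h5 : loc (pts (S ω)) z ≤ k * a := (loc_le (by positivity) h4).trans (by linarith)
    exact pow_le_pow_left₀ (loc_nonneg _ _) h5 p
  have e2 : Z.card ≤ cnt S x (2 * (k * a)) ω ^ 3 := by
    refine (card_vv_le (X := pts (S ω)) (finite_pts h ω x (2 * (k * a))) Z ?_).trans
      (Nat.pow_le_pow_left (ncard_pts_le h ω x _) 3)
    intro z hz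
    refine ⟨(hZ z hz).1, fun v hv hzv => ⟨hv, ?_⟩⟩
    have h4 : dist z v ≤ k * a / 8 := (h2.stab_self hka).dist_le (by
      rw [mem_closedBall]
      have := (hZ z hz).2
      linarith) hzv
    rw [mem_closedBall]
    have := dist_triangle v z x
    rw [dist_comm v z] at this
    have := (hZ z hz).2
    linarith
  calc ∑ z ∈ Z, ENNReal.ofReal (loc (pts (S ω)) z ^ p)
      ≤ ∑ z ∈ Z, ENNReal.ofReal ((k * a) ^ p) := Finset.sum_le_sum e1
    _ = Z.card * ENNReal.ofReal ((k * a) ^ p) := by rw [Finset.sum_const, nsmul_eq_mul]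
    _ ≤ (cnt S x (2 * (k * a)) ω ^ 3 : ℕ) * ENNReal.ofReal ((k * a) ^ p) := by
        gcongr
    _ = ENNReal.ofReal (a ^ p) * ((k : ℝ≥0∞) ^ p * (cnt S x (2 * (k * a)) ω : ℝ≥0∞) ^ 3) := by
        rw [mul_pow, ENNReal.ofReal_mul (by positivity), ENNReal.ofReal_pow (by positivity),
          ENNReal.ofReal_natCast]
        push_cast
        ring
    _ ≤ _ := by gcongr

/-- The majorant of the energy. -/
noncomputable def enMaj (S : Ω → Set Pt) (a : ℝ) (p : ℕ) (x : ℂ) (r : ℝ) (ω : Ω) : ℝ≥0∞ :=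
  ∑ m ∈ win a x (r + a), ENNReal.ofReal (a ^ p) * maj S (gp a m) a p 3 ω

theorem measurable_enMaj (h : IsColouredPoisson P S lam) (a : ℝ) (p : ℕ) (x : ℂ) (r : ℝ) :
    Measurable (enMaj S a p x r) :=
  Finset.measurable_fun_sum _ fun m _ => (measurable_maj h (gp a m) a p 3).const_mul _

theorem ae_levels [IsProbabilityMeasure P] (h : IsColouredPoisson P S lam) {a : ℝ}
    (ha : 0 < a) (hla : lam * a ^ 2 = 1) :
    ∀ᵐ ω ∂P, ∀ m : ℤ × ℤ, ∃ k : ℕ, 1 ≤ k ∧ StabD (pts (S ω)) (gp a m) (k * a) :=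
  ae_all_iff.2 fun m => ae_exists_level h ha hla (gp a m)

theorem en_le_of_levels (h : IsColouredPoisson P S lam) {a : ℝ} (ha : 0 < a) (ω : Ω)
    (hlev : ∀ m : ℤ × ℤ, ∃ k : ℕ, 1 ≤ k ∧ StabD (pts (S ω)) (gp a m) (k * a)) (p : ℕ) (x : ℂ)
    (r : ℝ) : en p (pts (S ω)) x r ≤ enMaj S a p x r ω := by
  classical
  unfold en enMaj
  rw [ENNReal.tsum_eq_iSup_sum]
  refine iSup_le fun s => ?_
  set Z : Finset ℂ := s.map (Function.Embedding.subtype _) with hZ
  have hZm : ∀ z ∈ Z, VV (pts (S ω)) z ∧ dist z x ≤ r := by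
    intro z hz
    rw [hZ, Finset.mem_map] at hz
    obtain ⟨z', -, rfl⟩ := hz
    exact z'.2
  have e1 : ∑ z ∈ s, ENNReal.ofReal (loc (pts (S ω)) z ^ p) =
      ∑ z ∈ Z, ENNReal.ofReal (loc (pts (S ω)) z ^ p) := by
    rw [hZ, Finset.sum_map]
    rfl
  rw [e1]
  have hmaps : ∀ z ∈ Z, rd a z ∈ win a x (r + a) := by
    intro z hz
    refine mem_win ha ?_
    have h1 := dist_gp_rd ha z
    have h2 := (hZm z hz).2
    have := dist_triangle (gp a (rd a z)) z x
    rw [dist_comm (gp a (rd a z)) z] at this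
    linarith
  rw [← Finset.sum_fiberwise_of_maps_to hmaps]
  refine Finset.sum_le_sum fun m _ => ?_
  refine sum_fiber_le h ha (gp a m) p ω (hlev m) _ fun z hz => ?_
  rw [Finset.mem_filter] at hz
  refine ⟨(hZm z hz.1).1, ?_⟩
  rw [← hz.2]
  exact dist_gp_rd ha z

theorem ae_en_le [IsProbabilityMeasure P] (h : IsColouredPoisson P S lam) {a : ℝ}
    (ha : 0 < a) (hla : lam * a ^ 2 = 1) :
    ∀ᵐ ω ∂P, ∀ (p : ℕ) (x : ℂ) (r : ℝ), en p (pts (S ω)) x r ≤ enMaj S a p x r ω := by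
  filter_upwards [ae_levels h ha hla] with ω hω p x r
  exact en_le_of_levels h ha ω hω p x r

theorem lint_enMaj [IsProbabilityMeasure P] (h : IsColouredPoisson P S lam) {a : ℝ}
    (ha : 0 < a) (hla : lam * a ^ 2 = 1) (p : ℕ) (x : ℂ) {r : ℝ} (hr : a ≤ r) :
    ∫⁻ ω, enMaj S a p x r ω ∂P ≤ ENNReal.ofReal (25 * CC p 3 * (r / a) ^ 2 * a ^ p) := by
  unfold enMaj
  rw [lintegral_finsetSum _ fun m _ => (measurable_maj h (gp a m) a p 3).const_mul _]
  have hra : 1 ≤ r / a := by rwa [one_le_div ha]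
  calc ∑ m ∈ win a x (r + a), ∫⁻ ω, ENNReal.ofReal (a ^ p) * maj S (gp a m) a p 3 ω ∂P
      ≤ ∑ _m ∈ win a x (r + a), ENNReal.ofReal (a ^ p) * ENNReal.ofReal (CC p 3) := by
        refine Finset.sum_le_sum fun m _ => ?_
        rw [lintegral_const_mul _ (measurable_maj h (gp a m) a p 3)]
        gcongr
        exact lint_maj h (gp a m) ha hla p 3
    _ = ENNReal.ofReal ((win a x (r + a)).card * (a ^ p * CC p 3)) := by
        rw [Finset.sum_const, nsmul_eq_mul, ENNReal.ofReal_mul (by positivity),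
          ENNReal.ofReal_mul (by positivity), ENNReal.ofReal_natCast]
    _ ≤ _ := by
        refine ENNReal.ofReal_le_ofReal ?_
        have h1 := card_win_le ha x (R := r + a) (by linarith)
        have h2 : 2 * (r + a) / a + 1 = 2 * (r / a) + 3 := by
          field_simp
          ring
        have h3 : (2 * (r + a) / a + 1) ^ 2 ≤ 25 * (r / a) ^ 2 := by
          rw [h2]
          nlinarith
        have h4 := CC_nonneg p 3
        calc ((win a x (r + a)).card : ℝ) * (a ^ p * CC p 3)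
            ≤ (25 * (r / a) ^ 2) * (a ^ p * CC p 3) := by
              gcongr
              exact h1.trans h3
          _ = _ := by ring

/-- The expected `2`-energy in a disc is at most a constant times the square of the radius. -/
theorem lint_enMaj_two [IsProbabilityMeasure P] (h : IsColouredPoisson P S lam) {a : ℝ}
    (ha : 0 < a) (hla : lam * a ^ 2 = 1) (x : ℂ) {r : ℝ} (hr : a ≤ r) :
    ∫⁻ ω, enMaj S a 2 x r ω ∂P ≤ ENNReal.ofReal (25 * CC 2 3 * r ^ 2) := by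
  refine (lint_enMaj h ha hla 2 x hr).trans (le_of_eq ?_)
  congr 1
  field_simp

/-- The energies in dyadic annuli. -/
theorem energy [IsProbabilityMeasure P] (h : IsColouredPoisson P S lam) {a : ℝ}
    (ha : 0 < a) (hla : lam * a ^ 2 = 1) {δ : ℝ} (hδ : 0 < δ) (x : ℂ) {l : ℝ} (hl : a ≤ l)
    {J : ℕ} (hJ : 0 < J) :
    P {ω | ENNReal.ofReal (25 * CC 2 3 / δ * J) <
      ∑ j ∈ Finset.range J, ENNReal.ofReal (((2 ^ j * l) ^ 2)⁻¹) *
        en 2 (pts (S ω)) x (2 ^ j * l)} ≤ ENNReal.ofReal δ := by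
  have hl0 : 0 < l := ha.trans_le hl
  set G : Ω → ℝ≥0∞ := fun ω => ∑ j ∈ Finset.range J, ENNReal.ofReal (((2 ^ j * l) ^ 2)⁻¹) *
        enMaj S a 2 x (2 ^ j * l) ω with hG
  have hGm : Measurable G := Finset.measurable_fun_sum _ fun j _ =>
    (measurable_enMaj h a 2 x _).const_mul _
  have h1 : ∫⁻ ω, G ω ∂P ≤ ENNReal.ofReal (25 * CC 2 3 * J) := by
    rw [hG, lintegral_finsetSum _ fun j _ => (measurable_enMaj h a 2 x _).const_mul _]
    calc ∑ j ∈ Finset.range J, ∫⁻ ω, ENNReal.ofReal (((2 ^ j * l) ^ 2)⁻¹) *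
          enMaj S a 2 x (2 ^ j * l) ω ∂P
        ≤ ∑ _j ∈ Finset.range J, ENNReal.ofReal (25 * CC 2 3) := by
          refine Finset.sum_le_sum fun j _ => ?_
          rw [lintegral_const_mul _ (measurable_enMaj h a 2 x _)]
          have h2 : a ≤ 2 ^ j * l := hl.trans (le_mul_of_one_le_left hl0.le
            (one_le_pow₀ (by norm_num)))
          calc ENNReal.ofReal (((2 ^ j * l) ^ 2)⁻¹) * ∫⁻ ω, enMaj S a 2 x (2 ^ j * l) ω ∂P
              ≤ ENNReal.ofReal (((2 ^ j * l) ^ 2)⁻¹) *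
                ENNReal.ofReal (25 * CC 2 3 * (2 ^ j * l) ^ 2) := by
                gcongr
                exact lint_enMaj_two h ha hla x h2
            _ = ENNReal.ofReal (25 * CC 2 3) := by
                rw [← ENNReal.ofReal_mul (by positivity)]
                congr 1
                field_simp
      _ = _ := by
          rw [Finset.sum_const, Finset.card_range, nsmul_eq_mul, mul_comm (25 * CC 2 3) (J : ℝ),
            ENNReal.ofReal_mul (p := (J : ℝ)) (by positivity), ENNReal.ofReal_natCast]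
  have hC := CC_nonneg 2 3
  have hmono : P {ω | ENNReal.ofReal (25 * CC 2 3 / δ * J) <
      ∑ j ∈ Finset.range J, ENNReal.ofReal (((2 ^ j * l) ^ 2)⁻¹) *
        en 2 (pts (S ω)) x (2 ^ j * l)} ≤ P {ω | ENNReal.ofReal (25 * CC 2 3 / δ * J) < G ω} := by
    refine measure_mono_ae ?_
    filter_upwards [ae_en_le h ha hla] with ω hω hlt
    refine lt_of_lt_of_le hlt (Finset.sum_le_sum fun j _ => ?_)
    gcongr
    exact hω 2 x _
  refine hmono.trans ?_
  have hCp : 0 < CC 2 3 := by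
    have h5 : bk 2 3 0 ≤ CC 2 3 := (summable_bk 2 3).le_tsum 0 fun k _ => bk_nonneg 2 3 k
    have h6 : 0 < bk 2 3 0 := by
      unfold bk
      positivity
    linarith
  have hJ' : (0 : ℝ) < J := by exact_mod_cast hJ
  set t : ℝ := 25 * CC 2 3 / δ * J with ht
  have ht0 : 0 < t := by positivity
  have h3 := mul_meas_ge_le_lintegral₀ (μ := P) hGm.aemeasurable (ENNReal.ofReal t)
  have h4 : P {ω | ENNReal.ofReal t < G ω} ≤ P {ω | ENNReal.ofReal t ≤ G ω} :=
    measure_mono fun ω (hω : ENNReal.ofReal t < G ω) => (hω.le : ENNReal.ofReal t ≤ G ω)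
  have h5 : ENNReal.ofReal t * P {ω | ENNReal.ofReal t < G ω} ≤ ENNReal.ofReal t *
      ENNReal.ofReal δ := by
    calc _ ≤ ENNReal.ofReal t * P {ω | ENNReal.ofReal t ≤ G ω} := by gcongr
      _ ≤ ∫⁻ ω, G ω ∂P := h3
      _ ≤ ENNReal.ofReal (25 * CC 2 3 * J) := h1
      _ = ENNReal.ofReal t * ENNReal.ofReal δ := by
        rw [← ENNReal.ofReal_mul ht0.le, ht]
        congr 1
        field_simp
  rwa [ENNReal.mul_le_mul_iff_right (ENNReal.ofReal_pos.2 ht0).ne' ENNReal.ofReal_ne_top] at h5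

end Vale.Agent.P148.R2.H291
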