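import Vale.Agent.P148.R2.H291.Whp
import Vale.Agent.P148.R2.H609.DB2
import Vale.Agent.P148.R2.H938.One

/-!
# The environment event

`EnvT Y R s K`: stability at scale `s` in the disc of radius `R`, and the edge energy bounds in the
discs of the finite family `K`.  It holds with high probability, and it gives the standing
assumptions of the crossing count and of the small footprint bound.
-/

open MeasureTheory Set Metric Filter ProbabilityTheory Topology
open _root_.P148
open scoped ENNReal NNReal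
open Vale.Agent.P148.R2.H990
open Vale.Agent.P148.R2.H592 (nbr tail head Fc HullTri vc ConnIn)
open Vale.Agent.P148.R2.H847 (qpr UArm)
open Vale.Agent.P148.R2.H609
open Vale.Agent.P148.R2.F (whp ArmStmt)

universe u

namespace Vale.Agent.P148.R2.H291

/-- The environment event. -/
structure EnvT (Y : Set ℂ) (R s : ℝ) (K : Finset (ℂ × ℝ)) : Prop where
  stab : ∀ z ∈ closedBall (0 : ℂ) R, Stab Y z s
  en : ∀ k ∈ K, ed 2 Y k.1 k.2 ≤ ENNReal.ofReal (C0 * k.2 ^ 2)

theorem whp_envT (R : ℝ) {s : ℝ} (hs : 0 < s) (K : Finset (ℂ × ℝ)) (hK : ∀ k ∈ K, 0 < k.2) :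
    ∀ᶠ m in whp.{u}, EnvT (pts m.2) R s K := by
  have h1 : ∀ᶠ m in whp.{u}, ∀ k ∈ K, ed 2 (pts m.2) k.1 k.2 ≤ ENNReal.ofReal (C0 * k.2 ^ 2) :=
    (Finset.eventually_all K).2 fun k hk => whp_ed_two k.1 (hK k hk)
  filter_upwards [whp_stab R hs, h1] with m h2 h3
  exact ⟨h2, h3⟩

section det

variable {Y X : Set ℂ} {b : ZMod 3 → ℂ} {p : ℂ} {r s : ℝ}

theorem inter_sub {A B : Set ℂ} (hAB : A ⊆ B) (h : Y ∩ B = X ∩ B) : Y ∩ A = X ∩ A := by
  have e : ∀ Z : Set ℂ, Z ∩ A = (Z ∩ B) ∩ A := by
    intro Z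
    rw [inter_assoc, inter_eq_right.2 hAB]
  rw [e, h, ← e]

theorem norm_le_of_sq {z p : ℂ} {r : ℝ} (h : z ∈ Sq p r) : dist z p ≤ 3 / 2 * r := by
  obtain ⟨h1, h2⟩ := h
  have hr : 0 ≤ r := (abs_nonneg _).trans h1
  rw [dist_eq_norm, Complex.norm_eq_sqrt_sq_add_sq]
  refine Real.sqrt_le_iff.2 ⟨by positivity, ?_⟩
  rw [Complex.sub_re, Complex.sub_im]
  have h3 := abs_le.1 h1
  have h4 := abs_le.1 h2
  nlinarith

/-- A point with prescribed small displacement. -/
theorem exists_site (hst : ∀ z ∈ closedBall p (2 * r), Stab Y z s) (hs : 0 < s) (hsr : 4 * s ≤ r)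
    (hXY : Y ∩ closedBall p (3 * r) = X ∩ closedBall p (3 * r)) {e : ℂ}
    (he1 : |e.re| ≤ 1) (he2 : |e.im| ≤ 1) :
    ∃ v ∈ X, |v.re - (p.re + (r + s) * e.re)| ≤ s / 8 ∧ |v.im - (p.im + (r + s) * e.im)| ≤ s / 8 := by
  have hr : 0 < r := by linarith
  set z : ℂ := ⟨p.re + (r + s) * e.re, p.im + (r + s) * e.im⟩ with hz
  have h1 : dist z p ≤ 2 * r := by
    have h2 : z ∈ Sq p (5 / 4 * r) := by
      constructor
      · show |p.re + (r + s) * e.re - p.re| ≤ 5 / 4 * r
        rw [add_sub_cancel_left, abs_mul, abs_of_pos (by linarith : 0 < r + s)]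
        nlinarith [abs_nonneg e.re]
      · show |p.im + (r + s) * e.im - p.im| ≤ 5 / 4 * r
        rw [add_sub_cancel_left, abs_mul, abs_of_pos (by linarith : 0 < r + s)]
        nlinarith [abs_nonneg e.im]
    have := norm_le_of_sq h2
    linarith
  obtain ⟨v, hv, hvz⟩ := hst z (mem_closedBall.2 h1) z (mem_closedBall_self (by linarith))
  have hvp : v ∈ closedBall p (3 * r) := by
    rw [mem_closedBall]
    have := dist_triangle v z p
    rw [dist_comm v z] at this
    linarith
  have hvX : v ∈ X := by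
    have : v ∈ Y ∩ closedBall p (3 * r) := ⟨hv, hvp⟩
    rw [hXY] at this
    exact this.1
  rw [dist_comm, dist_eq_norm] at hvz
  refine ⟨v, hvX, ?_, ?_⟩
  · have := Complex.abs_re_le_norm (v - z)
    rw [Complex.sub_re] at this
    exact this.trans hvz
  · have := Complex.abs_im_le_norm (v - z)
    rw [Complex.sub_im] at this
    exact this.trans hvz

/-- The corners of the box. -/
theorem quad_of_env (hst : ∀ z ∈ closedBall p (2 * r), Stab Y z s) (hs : 0 < s) (hsr : 4 * s ≤ r)
    (hXY : Y ∩ closedBall p (3 * r) = X ∩ closedBall p (3 * r)) (i : Fin 4) :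
    (X ∩ hpl p r i ∩ hpl p r (i + 1)).Nonempty := by
  have key : ∀ e : ℂ, |e.re| ≤ 1 → |e.im| ≤ 1 → ∃ v ∈ X,
      |v.re - (p.re + (r + s) * e.re)| ≤ s / 8 ∧ |v.im - (p.im + (r + s) * e.im)| ≤ s / 8 :=
    fun e he1 he2 => exists_site hst hs hsr hXY he1 he2
  fin_cases i
  · obtain ⟨v, hv, h1, h2⟩ := key ⟨1, 1⟩ (by simp) (by simp)
    rw [abs_le] at h1 h2
    simp only [mul_one] at h1 h2
    refine ⟨v, ⟨hv, ?_⟩, ?_⟩
    · show p.re + r < (1 : ℂ).re * v.re + (1 : ℂ).im * v.im
      simp only [Complex.one_re, Complex.one_im]; linarith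
    · show p.im + r < Complex.I.re * v.re + Complex.I.im * v.im
      simp only [Complex.I_re, Complex.I_im]; linarith
  · obtain ⟨v, hv, h1, h2⟩ := key ⟨-1, 1⟩ (by simp) (by simp)
    rw [abs_le] at h1 h2
    simp only [mul_one, mul_neg] at h1 h2
    refine ⟨v, ⟨hv, ?_⟩, ?_⟩
    · show p.im + r < Complex.I.re * v.re + Complex.I.im * v.im
      simp only [Complex.I_re, Complex.I_im]; linarith
    · show -p.re + r < (-1 : ℂ).re * v.re + (-1 : ℂ).im * v.im
      simp only [Complex.neg_re, Complex.neg_im, Complex.one_re, Complex.one_im]; linarith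
  · obtain ⟨v, hv, h1, h2⟩ := key ⟨-1, -1⟩ (by simp) (by simp)
    rw [abs_le] at h1 h2
    simp only [mul_one, mul_neg] at h1 h2
    refine ⟨v, ⟨hv, ?_⟩, ?_⟩
    · show -p.re + r < (-1 : ℂ).re * v.re + (-1 : ℂ).im * v.im
      simp only [Complex.neg_re, Complex.neg_im, Complex.one_re, Complex.one_im]; linarith
    · show -p.im + r < (-Complex.I).re * v.re + (-Complex.I).im * v.im
      simp only [Complex.neg_re, Complex.neg_im, Complex.I_re, Complex.I_im]; linarith
  · obtain ⟨v, hv, h1, h2⟩ := key ⟨1, -1⟩ (by simp) (by simp)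
    rw [abs_le] at h1 h2
    simp only [mul_one, mul_neg] at h1 h2
    refine ⟨v, ⟨hv, ?_⟩, ?_⟩
    · show -p.im + r < (-Complex.I).re * v.re + (-Complex.I).im * v.im
      simp only [Complex.neg_re, Complex.neg_im, Complex.I_re, Complex.I_im]; linarith
    · show p.re + r < (1 : ℂ).re * v.re + (1 : ℂ).im * v.im
      simp only [Complex.one_re, Complex.one_im]; linarith

theorem adj_transfer (hst : ∀ z ∈ closedBall p (2 * r), Stab Y z s) (hs : 0 < s) (hsr : 5 * s ≤ r)
    (hXY : Y ∩ closedBall p (3 * r) = X ∩ closedBall p (3 * r)) {u v : ℂ}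
    (hu : u ∈ closedBall p (2 * r)) (h : nbr X u v) : nbr Y u v ∧ dist u v ≤ s / 4 := by
  have hsub : closedBall u (5 * s) ⊆ closedBall p (3 * r) := by
    refine closedBall_subset_closedBall' ?_
    rw [mem_closedBall] at hu
    linarith
  have h1 : nbr Y u v := adj_congr (hst u hu) hs (inter_sub hsub hXY) h
  exact ⟨h1, dist_adj_le (hst u hu) hs h1⟩

/-- The energy of the box. -/
theorem edE_le_of_env (h : HullTri X b) [Fintype (Fc X b × ZMod 3)]
    (hst : ∀ z ∈ closedBall p (2 * r), Stab Y z s) (hs : 0 < s) (hsr : 5 * s ≤ r)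
    (hXY : Y ∩ closedBall p (3 * r) = X ∩ closedBall p (3 * r)) {C : ℝ} (hC : 0 ≤ C)
    (hed : ed 2 Y p (2 * r) ≤ ENNReal.ofReal (C * (2 * r) ^ 2)) :
    edE X b p r ≤ 4 * C * r ^ 2 := by
  classical
  have hr : 0 < r := by linarith
  have hinj : Function.Injective (fun q : Fc X b × ZMod 3 => (tail q, head q)) := by
    intro q q' hq
    exact h.th_inj (congrArg Prod.fst hq) (congrArg Prod.snd hq)
  set D : Finset (Fc X b × ZMod 3) :=
    Finset.univ.filter fun d => tail d ∈ Sq p r ∨ head d ∈ Sq p r with hD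
  have hmem : ∀ d ∈ D, nbr Y (tail d) (head d) ∧ dist (tail d) p ≤ 2 * r := by
    intro d hd
    rw [hD, Finset.mem_filter] at hd
    have hn : nbr X (tail d) (head d) := h.nbr_th d
    rcases hd.2 with h1 | h1
    · have h2 := norm_le_of_sq h1
      have h3 : tail d ∈ closedBall p (2 * r) := mem_closedBall.2 (by linarith)
      exact ⟨(adj_transfer hst hs hsr hXY h3 hn).1, by linarith⟩
    · have h2 := norm_le_of_sq h1
      have h3 : head d ∈ closedBall p (2 * r) := mem_closedBall.2 (by linarith)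
      have h4 := adj_transfer hst hs hsr hXY h3 (Vale.Agent.P148.R2.H592.nbr_symm hn)
      refine ⟨Vale.Agent.P148.R2.H592.nbr_symm h4.1, ?_⟩
      have := dist_triangle (tail d) (head d) p
      rw [dist_comm (tail d) (head d)] at this
      linarith [h4.2]
  have h1 : ENNReal.ofReal (edE X b p r) ≤ ed 2 Y p (2 * r) := by
    have h2 : edE X b p r = ∑ e ∈ D.map ⟨_, hinj⟩, dist e.1 e.2 ^ 2 := by
      rw [Finset.sum_map, hD, Finset.sum_filter]
      rfl
    rw [h2, ENNReal.ofReal_sum_of_nonneg fun _ _ => by positivity]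
    refine sum_le_ed _ fun e he => ?_
    rw [Finset.mem_map] at he
    obtain ⟨q, hq, rfl⟩ := he
    exact hmem q hq
  have h2 := h1.trans hed
  rw [ENNReal.ofReal_le_ofReal_iff (by positivity)] at h2
  calc edE X b p r ≤ C * (2 * r) ^ 2 := h2
    _ = 4 * C * r ^ 2 := by ring

end det

/-! ### arms -/

/-- The arm probability of a domain near `z` from the one of the full configuration near `k`. -/
theorem qpr_arm_le {Y X N : Set ℂ} {z k : ℂ} {r s η δ ε : ℝ} (hs : 0 < s)
    (hsr : 10 * s ≤ r) (hst : ∀ x ∈ closedBall k r, Stab Y x s)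
    (hXY : Y ∩ closedBall z (2 * r) = X ∩ closedBall z (2 * r)) (hN : N.Finite) (hNX : N ⊆ X)
    (hzk : dist z k + η ≤ δ) (hδr : δ < r / 2) (hη : 0 ≤ η)
    (harm : ∀ M ⊆ Y, M.Finite → qpr M (fun W => UArm Y W (closedBall k δ) (ball k (r / 2))ᶜ) ≤ ε) :
    qpr N (fun W => UArm X W (closedBall z η) (ball z r)ᶜ) ≤ ε := by
  have hadj : ∀ u v, nbr X u v → dist u k < r / 2 → nbr Y u v ∧ dist u v ≤ s := by
    intro u v huv hu
    have hu' : u ∈ closedBall k r := mem_closedBall.2 (by linarith)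
    have hsub : closedBall u (5 * s) ⊆ closedBall z (2 * r) := by
      refine closedBall_subset_closedBall' ?_
      have := dist_triangle u k z
      rw [dist_comm k z] at this
      linarith
    have h1 : nbr Y u v := adj_congr (hst u hu') hs (inter_sub hsub hXY) huv
    have h2 := dist_adj_le (hst u hu') hs h1
    exact ⟨h1, by linarith⟩
  have h1 : qpr N (fun W => UArm X W (closedBall z η) (ball z r)ᶜ) ≤
      qpr N (fun W => UArm Y (W ∩ closedBall k (r / 2 + s)) (closedBall k δ)
        (ball k (r / 2))ᶜ) := by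
    refine Vale.Agent.P148.R2.H847.qpr_mono hN fun W _ hW => ?_
    have h2 : UArm X W (closedBall k δ) (ball k (r / 2))ᶜ := by
      refine hW.mono (fun _ _ _ _ h => h) subset_rfl ?_ ?_
      · refine closedBall_subset_closedBall' ?_
        linarith
      · intro w hw
        rw [mem_compl_iff, mem_ball, not_lt] at hw ⊢
        have := dist_triangle w k z
        rw [dist_comm k z] at this
        linarith
    exact Vale.Agent.P148.R2.H938.uarm_restrict hδr (fun u v h h' => (hadj u v h h').2)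
      (fun u v h h' => (hadj u v h h').1) h2
  have hG : N ∩ closedBall k (r / 2 + s) ⊆ Y := by
    rintro w ⟨hw, hw'⟩
    have hwz : w ∈ closedBall z (2 * r) := by
      rw [mem_closedBall] at hw' ⊢
      have := dist_triangle w k z
      rw [dist_comm k z] at this
      linarith
    have : w ∈ X ∩ closedBall z (2 * r) := ⟨hNX hw, hwz⟩
    rw [← hXY] at this
    exact this.1
  have h3 : qpr N (fun W => UArm Y (W ∩ closedBall k (r / 2 + s)) (closedBall k δ)
        (ball k (r / 2))ᶜ) ≤
      qpr (N ∩ closedBall k (r / 2 + s)) (fun W => UArm Y W (closedBall k δ) (ball k (r / 2))ᶜ) :=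
    Vale.Agent.P148.R2.H938.cp_inter_le hN (hN.subset inter_subset_left) subset_rfl
      (Q := fun W => UArm Y W (closedBall k δ) (ball k (r / 2))ᶜ)
      fun W W' hWW' h => h.mono (fun _ _ _ _ h => h) hWW' subset_rfl subset_rfl
  exact h1.trans (h3.trans (harm _ hG (hN.subset inter_subset_left)))

/-- **Uniform one-arm bound**: with high probability, for all centres in a disc, all domains which
agree with the configuration near the centre and all finite sets of free sites. -/
theorem env_arm (hArm : ArmStmt.{u}) {r ε : ℝ} (hr : 0 < r) (hε : 0 < ε) : ∃ η > 0, ∀ R : ℝ,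
    ∀ᶠ m in whp.{u}, ∀ z ∈ closedBall (0 : ℂ) R, ∀ X N : Set ℂ,
      pts m.2 ∩ closedBall z (2 * r) = X ∩ closedBall z (2 * r) → N.Finite → N ⊆ X →
      qpr N (fun W => UArm X W (closedBall z η) (ball z r)ᶜ) ≤ ε := by
  obtain ⟨δ₀, hδ₀, harm⟩ := hArm (r / 2) (by positivity) ε hε
  set δ : ℝ := min δ₀ (r / 4) with hδ
  have hδpos : 0 < δ := lt_min hδ₀ (by positivity)
  refine ⟨δ / 2, by positivity, fun R => ?_⟩
  obtain ⟨t, htf, hts⟩ := Metric.totallyBounded_iff.1
    (isCompact_closedBall (0 : ℂ) R).totallyBounded (δ / 2) (by positivity)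
  have hall : ∀ᶠ m in whp.{u}, ∀ k ∈ htf.toFinset, ∀ N ⊆ pts m.2, N.Finite →
      qpr N (fun W => UArm (pts m.2) W (closedBall k δ₀) (ball k (r / 2))ᶜ) ≤ ε :=
    (Finset.eventually_all _).2 fun k _ => harm k
  filter_upwards [hall, whp_stab (R + 2 * r) (s := r / 10) (by positivity)] with m h1 h2
  intro z hz X N hXY hN hNX
  obtain ⟨k, hk, hzk⟩ := mem_iUnion₂.1 (hts hz)
  rw [mem_ball] at hzk
  have hδr : δ ≤ r / 4 := min_le_right _ _
  refine qpr_arm_le (k := k) (s := r / 10) (δ := δ) (by positivity) (by linarith)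
    (fun x hx => h2 x ?_) hXY hN hNX (by linarith) (by linarith) (by positivity) ?_
  · rw [mem_closedBall] at hx hz ⊢
    have h3 := dist_triangle x k 0
    have h4 := dist_triangle k z 0
    rw [dist_comm k z] at h4
    linarith
  · intro M hM hMf
    refine le_trans ?_ (h1 k (by simpa using hk) M hM hMf)
    refine Vale.Agent.P148.R2.H847.qpr_mono hMf fun W _ hW => ?_
    exact hW.mono (fun _ _ _ _ h => h) subset_rfl
      (closedBall_subset_closedBall (min_le_left _ _)) subset_rfl

end Vale.Agent.P148.R2.H291
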