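import Vale.Agent.P148.R2.H291.Whp

/-!
# Energies of the darts of the discrete domains
-/

open MeasureTheory Set Metric Filter ProbabilityTheory Topology
open _root_.P148
open scoped ENNReal NNReal Nat
open Vale.Agent.P148.R2.H990
open Vale.Agent.P148.R2.H592 (nbr tail head Fc HullTri vc)
open Vale.Agent.P148.R2.F (whp eventually_whp Dom Conv)
open Vale.Agent.P148.R2.H219 (tau)

universe u

namespace Vale.Agent.P148.R2.H291

theorem tail_rot {X : Set ℂ} {b : ZMod 3 → ℂ} (q : Fc X b × ZMod 3) :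
    tail ((q.1, q.2 + 1) : Fc X b × ZMod 3) = head q := by
  unfold tail head
  congr 1
  ring

theorem head_rot {X : Set ℂ} {b : ZMod 3 → ℂ} (q : Fc X b × ZMod 3) :
    head ((q.1, q.2 + 1) : Fc X b × ZMod 3) = vc q.1 q.2 := by
  unfold head
  show vc q.1 (q.2 + 1 + 2) = vc q.1 q.2
  congr 1
  have : (1 + 2 : ZMod 3) = 0 := by decide
  rw [add_assoc, this, add_zero]

theorem tail_rot2 {X : Set ℂ} {b : ZMod 3 → ℂ} (q : Fc X b × ZMod 3) :
    tail ((q.1, q.2 + 2) : Fc X b × ZMod 3) = vc q.1 q.2 := by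
  unfold tail
  show vc q.1 (q.2 + 2 + 1) = vc q.1 q.2
  congr 1
  have : (2 + 1 : ZMod 3) = 0 := by decide
  rw [add_assoc, this, add_zero]

theorem head_rot2 {X : Set ℂ} {b : ZMod 3 → ℂ} (q : Fc X b × ZMod 3) :
    head ((q.1, q.2 + 2) : Fc X b × ZMod 3) = tail q := by
  unfold head tail
  show vc q.1 (q.2 + 2 + 2) = vc q.1 (q.2 + 1)
  congr 1
  have : (2 + 2 : ZMod 3) = 1 := by decide
  rw [add_assoc, this]

/-- The energy of the darts in a disc. -/
theorem GoodAt.disc {X : Set ℂ} {b : ZMod 3 → ℂ} (hX : HullTri X b)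
    [Fintype (Fc X b × ZMod 3)] {k : ℂ} {r : ℝ} (hr : 0 < r) {C : ℝ} (h : GoodAt X k r 0 C) :
    ∑ q : Fc X b × ZMod 3 with dist (tail q) k ≤ r, dist (tail q) (head q) ^ 2 ≤ C * r ^ 2 := by
  have h1 := h.darts hX
  simp only [zero_add, Finset.range_one, Finset.sum_singleton, pow_zero, one_mul,
    Nat.cast_zero, mul_one] at h1
  rwa [div_le_iff₀ (by positivity)] at h1

/-- The energy of the shapes in a disc. -/
theorem GoodAt.shape {X : Set ℂ} {b : ZMod 3 → ℂ} (hX : HullTri X b)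
    [Fintype (Fc X b × ZMod 3)] {k : ℂ} {r : ℝ} (hr : 0 < r) {C : ℝ}
    (h : GoodAt X k (2 * r) 0 C)
    (hsm : ∀ z ∈ closedBall k (2 * r), ∀ v, nbr X z v → dist z v ≤ r / 2) :
    ∑ q : Fc X b × ZMod 3 with dist (tail q) k ≤ r,
      ‖tail q + tau * head q + tau ^ 2 * vc q.1 q.2‖ ^ 2 ≤ 16 * C * r ^ 2 := by
  classical
  have htau : tau ^ 2 + tau + 1 = 0 := by
    rw [H219.tau_sq]
    apply Complex.ext
    · simp only [H219.tau, Complex.add_re, Complex.one_re, Complex.zero_re]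
      norm_num
    · simp only [H219.tau, Complex.add_im, Complex.one_im, Complex.zero_im]
      ring
  have hnt : ‖tau‖ = 1 := by
    have h3 : (√3 : ℝ) ^ 2 = 3 := Real.sq_sqrt (by norm_num)
    have : ‖tau‖ ^ 2 = 1 := by
      rw [← Complex.normSq_eq_norm_sq, Complex.normSq_apply]
      simp only [H219.tau]
      linear_combination h3 / 4
    nlinarith [norm_nonneg tau]
  set w : Fc X b × ZMod 3 → ℝ := fun q => dist (tail q) (head q) ^ 2 with hw
  -- the pointwise bound
  have h1 : ∀ q : Fc X b × ZMod 3, ‖tail q + tau * head q + tau ^ 2 * vc q.1 q.2‖ ^ 2 ≤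
      2 * w (q.1, q.2 + 2) + 2 * w (q.1, q.2 + 1) := by
    intro q
    have e1 : tail q + tau * head q + tau ^ 2 * vc q.1 q.2 =
        (tail q - vc q.1 q.2) + tau * (head q - vc q.1 q.2) := by
      linear_combination (vc q.1 q.2) * htau
    have e2 : ‖tail q + tau * head q + tau ^ 2 * vc q.1 q.2‖ ≤
        dist (vc q.1 q.2) (tail q) + dist (head q) (vc q.1 q.2) := by
      rw [e1]
      refine (norm_add_le _ _).trans ?_
      rw [norm_mul, hnt, one_mul, ← dist_eq_norm, ← dist_eq_norm, dist_comm (tail q)]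
    simp only [hw, tail_rot, head_rot, tail_rot2, head_rot2]
    have e3 : ‖tail q + tau * head q + tau ^ 2 * vc q.1 q.2‖ ^ 2 ≤
        (dist (vc q.1 q.2) (tail q) + dist (head q) (vc q.1 q.2)) ^ 2 :=
      pow_le_pow_left₀ (norm_nonneg _) e2 2
    nlinarith [sq_nonneg (dist (vc q.1 q.2) (tail q) - dist (head q) (vc q.1 q.2))]
  -- the rotated darts are near
  have h2 : ∀ q : Fc X b × ZMod 3, dist (tail q) k ≤ r → dist (head q) k ≤ 2 * r ∧
      dist (vc q.1 q.2) k ≤ 2 * r := by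
    intro q hq
    have e1 := hsm (tail q) (by rw [mem_closedBall]; linarith) (head q) (hX.nbr_th q)
    have e2 : dist (head q) k ≤ r + r / 2 := by
      have := dist_triangle (head q) (tail q) k
      rw [dist_comm (head q) (tail q)] at this
      linarith
    have h3 : nbr X (head q) (vc q.1 q.2) := by
      have := hX.nbr_th (q.1, q.2 + 1)
      rwa [tail_rot, head_rot] at this
    have e3 := hsm (head q) (by rw [mem_closedBall]; linarith) (vc q.1 q.2) h3
    refine ⟨by linarith, ?_⟩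
    have := dist_triangle (vc q.1 q.2) (head q) k
    rw [dist_comm (vc q.1 q.2) (head q)] at this
    linarith
  have h3 := h.disc hX (by positivity : 0 < 2 * r)
  have hinj1 : Function.Injective (fun q : Fc X b × ZMod 3 => ((q.1, q.2 + 1) : Fc X b × ZMod 3)) := by
    rintro ⟨t, i⟩ ⟨t', i'⟩ hh
    simp only [Prod.mk.injEq, add_left_inj] at hh
    exact Prod.ext hh.1 hh.2
  have hinj2 : Function.Injective (fun q : Fc X b × ZMod 3 => ((q.1, q.2 + 2) : Fc X b × ZMod 3)) := by
    rintro ⟨t, i⟩ ⟨t', i'⟩ hh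
    simp only [Prod.mk.injEq, add_left_inj] at hh
    exact Prod.ext hh.1 hh.2
  have key : ∀ f : Fc X b × ZMod 3 → Fc X b × ZMod 3, Function.Injective f →
      (∀ q, dist (tail q) k ≤ r → dist (tail (f q)) k ≤ 2 * r) →
      ∑ q : Fc X b × ZMod 3 with dist (tail q) k ≤ r, w (f q) ≤ C * (2 * r) ^ 2 := by
    intro f hf hfr
    refine le_trans ?_ h3
    have e1 : ∑ q : Fc X b × ZMod 3 with dist (tail q) k ≤ r, w (f q) =
        ∑ q ∈ ((Finset.univ.filter fun q : Fc X b × ZMod 3 => dist (tail q) k ≤ r).map ⟨f, hf⟩),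
          w q := by
      rw [Finset.sum_map]
      rfl
    rw [e1]
    refine Finset.sum_le_sum_of_subset_of_nonneg ?_ fun _ _ _ => by positivity
    intro q' hq'
    rw [Finset.mem_map] at hq'
    obtain ⟨q, hq, rfl⟩ := hq'
    rw [Finset.mem_filter] at hq ⊢
    exact ⟨Finset.mem_univ _, hfr q hq.2⟩
  calc ∑ q : Fc X b × ZMod 3 with dist (tail q) k ≤ r,
        ‖tail q + tau * head q + tau ^ 2 * vc q.1 q.2‖ ^ 2
      ≤ ∑ q : Fc X b × ZMod 3 with dist (tail q) k ≤ r,
          (2 * w (q.1, q.2 + 2) + 2 * w (q.1, q.2 + 1)) := Finset.sum_le_sum fun q _ => h1 q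
    _ = 2 * ∑ q : Fc X b × ZMod 3 with dist (tail q) k ≤ r, w (q.1, q.2 + 2) +
        2 * ∑ q : Fc X b × ZMod 3 with dist (tail q) k ≤ r, w (q.1, q.2 + 1) := by
        rw [Finset.sum_add_distrib, Finset.mul_sum, Finset.mul_sum]
    _ ≤ 2 * (C * (2 * r) ^ 2) + 2 * (C * (2 * r) ^ 2) := by
        gcongr
        · exact key _ hinj2 fun q hq => by rw [tail_rot2]; exact (h2 q hq).2
        · exact key _ hinj1 fun q hq => by rw [tail_rot]; exact (h2 q hq).1
    _ = _ := by ring

variable {ι : Type} {l : Filter ι} {m : ι → ℝ × Set Pt} {Q : Quad} {E : ι → Dom}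

/-- The energy of the edges of the discrete domains. -/
theorem conv_edges (hm : Tendsto m l whp.{u}) (h : Conv Q l m E) (x : ℂ) {r : ℝ} (hr : 0 < r) :
    ∀ᶠ i in l, ∑ q : (E i).Dt with dist (tail q) x ≤ r, dist (tail q) (head q) ^ 2 ≤
      C0 * r ^ 2 := by
  filter_upwards [(agree_conv h).goodAt hm x hr 0] with i hi
  exact hi.disc (E i).hull hr

/-- The energy of the shapes of the discrete domains. -/
theorem conv_shapes (hm : Tendsto m l whp.{u}) (h : Conv Q l m E) (x : ℂ) {r : ℝ} (hr : 0 < r) :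
    ∀ᶠ i in l, ∑ q : (E i).Dt with dist (tail q) x ≤ r, ‖(E i).p q‖ ^ 2 ≤
      16 * C0 * r ^ 2 := by
  filter_upwards [(agree_conv h).goodAt hm x (by positivity : 0 < 2 * r) 0,
    (agree_conv h).small hm (‖x‖ + 2 * r) (by positivity : 0 < r / 2)] with i hi hi'
  refine hi.shape (E i).hull hr fun z hz v hv => hi'.2.2 z ?_ v hv
  refine closedBall_subset_closedBall' ?_ hz
  rw [dist_zero_right]
  linarith

end Vale.Agent.P148.R2.H291
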