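import Vale.Agent.P148.R2.H291.Whp
import Vale.Agent.P148.R2.H938.ArmF

/-!
# The energy bound in the form of helper938
-/

universe u

namespace Vale.Agent.P148.R2.H291

theorem energyWhp : H938.EnergyWhp.{u} C0 := fun k _ hr => whp_ed_two k hr

theorem armStmt (hHP : H938.HP) : F.ArmStmt.{u} := H938.armStmt hHP C0_nonneg energyWhp

theorem hpStmt (hHP : H938.HP) : H938.HPStmt.{u} := H938.hpStmt hHP C0_nonneg energyWhp

end Vale.Agent.P148.R2.H291
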