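import Vale.Agent.P148.R2.H291.WhpU
import Vale.Agent.P148.R2.H291.Tot

/-!
# Bad environments carry no energy

`G` is a property of the set of points which holds with high probability.  The energy on the
complement of `G` tends to `0`, also under bounded densities.
-/

open MeasureTheory Set Metric Filter ProbabilityTheory Topology
open _root_.P148
open _root_.P148.H729 (avg recolSum flipOn)
open scoped ENNReal NNReal
open Vale.Agent.P148.R2.H184 (Dt EQ Wt)
open Vale.Agent.P148.R2.F (whp)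

universe u

namespace Vale.Agent.P148.R2.H291

/-- The energy in a disc on a bad event of small probability. -/
theorem bad_maj (κ : ℝ) (x : ℂ) {r : ℝ} (hr : 0 < r) {G : Set ℂ → Prop}
    (hG : ∀ᶠ m in whp.{u}, G (pts m.2)) {ε : ℝ} (hε : 0 < ε) : ∃ K : ℝ, 0 < K ∧
    ∀ (Ω : Type u) [MeasurableSpace Ω] (P : Measure Ω) [IsProbabilityMeasure P]
      (S : Ω → Set Pt) (lam : ℝ≥0), IsColouredPoisson P S lam → K ≤ lam →
      ∃ B : Set Ω, MeasurableSet B ∧ (∀ ω, ¬ G (pts (S ω)) → ω ∈ B) ∧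
      ∃ g : Ω → ℝ≥0∞, Measurable g ∧
      (∀ᵐ ω ∂P, ω ∈ B → ∀ (Q : Set ℂ) (τ : ℂ) (Θ : Dt → ℂ), Q ⊆ closedBall x r → Wt τ κ Θ →
        EQ (pts (S ω)) Q Θ ≤ g ω) ∧ ∫⁻ ω, g ω ∂P ≤ ENNReal.ofReal ε := by
  have hC := CM_nonneg 2 3
  set c : ℝ := 911250 * κ ^ 4 * CM 2 3 + 1 with hc
  have hc0 : 0 < c := by positivity
  set t : ℝ := ε / (2 * c * r ^ 2) with ht
  have ht0 : 0 < t := by positivity
  set δ : ℝ := ε * t / (2 * r ^ 2) with hδ
  have hδ0 : 0 < δ := by positivity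
  obtain ⟨K, hK0, hK⟩ := whp_unif.{u} (A := fun m => G (pts m.2)) hG (δ := ENNReal.ofReal δ)
    (ENNReal.ofReal_pos.2 hδ0)
  refine ⟨max K (r ^ 2)⁻¹, lt_max_of_lt_left hK0, ?_⟩
  intro Ω _ P _ S lam h hlam
  have hlam0 : (0 : ℝ) < lam := hK0.trans_le ((le_max_left _ _).trans hlam)
  set a : ℝ := (Real.sqrt lam)⁻¹ with ha'
  have ha : 0 < a := inv_pos.2 (Real.sqrt_pos.2 hlam0)
  have hla : (lam : ℝ) * a ^ 2 = 1 := by
    rw [ha', inv_pow, Real.sq_sqrt hlam0.le, mul_inv_cancel₀ hlam0.ne']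
  have har : a ≤ r := by
    have h1 : (r ^ 2)⁻¹ ≤ lam := (le_max_right _ _).trans hlam
    have h2 : 1 ≤ lam * r ^ 2 := by
      rwa [inv_le_iff_one_le_mul₀ (by positivity)] at h1
    have h3 : lam * a ^ 2 ≤ lam * r ^ 2 := by rw [hla]; exact h2
    have h4 : a ^ 2 ≤ r ^ 2 := le_of_mul_le_mul_left h3 hlam0
    exact le_of_sq_le_sq h4 hr.le
  have hP := hK Ω P S lam h ((le_max_left _ _).trans hlam)
  set B : Set Ω := toMeasurable P {ω | ¬ G (pts (S ω))} with hB
  have hBm : MeasurableSet B := measurableSet_toMeasurable _ _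
  refine ⟨B, hBm, fun ω hω => subset_toMeasurable _ _ hω,
    B.indicator (eqMaj S κ a x r), (measurable_eqMaj h κ a x r).indicator hBm, ?_, ?_⟩
  · filter_upwards [ae_EQ_le h ha hla] with ω hω hωB Q τ Θ hQ hΘ
    rw [indicator_of_mem hωB]
    exact hω x r Q τ κ Θ hQ hΘ
  · rw [lintegral_indicator hBm]
    refine (lint_eqMaj_restrict h ha hla κ x har ht0 hBm).trans ?_
    have hPB : P B ≤ ENNReal.ofReal δ := by
      rw [hB, measure_toMeasurable]
      exact hP
    calc ENNReal.ofReal (r ^ 2 * (911250 * t * κ ^ 4 * CM 2 3)) +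
          ENNReal.ofReal (r ^ 2 * t⁻¹) * P B
        ≤ ENNReal.ofReal (ε / 2) + ENNReal.ofReal (ε / 2) := by
          gcongr
          · have e1 : r ^ 2 * (911250 * t * κ ^ 4 * CM 2 3) ≤ r ^ 2 * (t * c) := by
              rw [hc]
              have : 0 ≤ r ^ 2 * t := by positivity
              nlinarith
            refine e1.trans (le_of_eq ?_)
            rw [ht]
            field_simp
          · calc ENNReal.ofReal (r ^ 2 * t⁻¹) * P B
                ≤ ENNReal.ofReal (r ^ 2 * t⁻¹) * ENNReal.ofReal δ := by gcongr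
              _ = ENNReal.ofReal (ε / 2) := by
                  rw [← ENNReal.ofReal_mul (by positivity)]
                  congr 1
                  rw [hδ]
                  field_simp
      _ = ENNReal.ofReal ε := by
          rw [← ENNReal.ofReal_add (by positivity) (by positivity)]
          congr 1
          ring

/-- **The energy of the bad environments tends to `0`.** -/
theorem bad_EQ (κ : ℝ) (x : ℂ) {r : ℝ} (hr : 0 < r) {G : Set ℂ → Prop}
    (hG : ∀ᶠ m in whp.{u}, G (pts m.2)) {ε : ℝ} (hε : 0 < ε) : ∃ K : ℝ, 0 < K ∧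
    ∀ (Ω : Type u) [MeasurableSpace Ω] (P : Measure Ω) [IsProbabilityMeasure P]
      (S : Ω → Set Pt) (lam : ℝ≥0), IsColouredPoisson P S lam → K ≤ lam →
      ∀ (Q : Set ℂ) (τ : ℂ) (Θ : Dt → ℂ), Q ⊆ closedBall x r → Wt τ κ Θ →
      ∫⁻ ω in {ω | ¬ G (pts (S ω))}, EQ (pts (S ω)) Q Θ ∂P ≤ ENNReal.ofReal ε := by
  obtain ⟨K, hK0, hK⟩ := bad_maj.{u} κ x hr hG hε
  refine ⟨K, hK0, ?_⟩
  intro Ω _ P _ S lam h hlam Q τ Θ hQ hΘ
  obtain ⟨B, hBm, hB, g, hg, h1, h2⟩ := hK Ω P S lam h hlam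
  calc ∫⁻ ω in {ω | ¬ G (pts (S ω))}, EQ (pts (S ω)) Q Θ ∂P
      ≤ ∫⁻ ω in B, EQ (pts (S ω)) Q Θ ∂P :=
        lintegral_mono' (Measure.restrict_mono (fun ω hω => hB ω hω) le_rfl) le_rfl
    _ ≤ ∫⁻ ω in B, g ω ∂P := by
        refine lintegral_mono_ae ?_
        rw [ae_restrict_iff' hBm]
        filter_upwards [h1] with ω hω hωB
        exact hω hωB Q τ Θ hQ hΘ
    _ ≤ ∫⁻ ω, g ω ∂P := setLIntegral_le_lintegral _ _
    _ ≤ _ := h2

/-- **Bad environments in quenched averages**: the indicator of the good environment may be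
inserted, for every density bounded by `Dm`. -/
theorem ub_bad (κ : ℝ) (x : ℂ) {r : ℝ} (hr : 0 < r) {G : Set ℂ → Prop}
    (hG : ∀ᶠ m in whp.{u}, G (pts m.2)) {Dm : ℝ≥0∞} (hDm : Dm ≠ ⊤) {c : ℝ≥0} {ε : ℝ}
    (hε : 0 < ε) : ∃ K : ℝ, 0 < K ∧
    ∀ (Ω : Type u) [MeasurableSpace Ω] (P : Measure Ω) [IsProbabilityMeasure P]
      (S : Ω → Set Pt) (lam : ℝ≥0), IsColouredPoisson P S lam → K ≤ lam →
      ∀ (D : Set Pt → ℝ≥0∞), (∀ T, D T ≤ Dm) → ∀ (W : Set ℂ), Bornology.IsBounded W →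
      ∀ (Q : Set ℂ) (τ : ℂ) (Θ : Dt → ℂ), Q ⊆ closedBall x r → Wt τ κ Θ →
      ∀ X : Set Pt → ℝ≥0∞, (∀ T, G (pts T) → X T = 0) → (∀ T, X T ≤ c * EQ (pts T) Q Θ) →
      ∃ g : Ω → ℝ≥0∞, Measurable g ∧
        (∀ᵐ ω ∂P, avg W (fun T => D T * X T) (S ω) ≤ g ω) ∧ ∫⁻ ω, g ω ∂P ≤ ENNReal.ofReal ε := by
  set q : ℝ := Dm.toReal * c + 1 with hq
  have hq0 : 0 < q := by
    have : 0 ≤ Dm.toReal * c := mul_nonneg ENNReal.toReal_nonneg c.2
    linarith
  obtain ⟨K, hK0, hK⟩ := bad_maj.{u} κ x hr hG (ε := ε / q) (by positivity)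
  refine ⟨K, hK0, ?_⟩
  intro Ω _ P _ S lam h hlam D hD W hW Q τ Θ hQ hΘ X hX0 hX
  obtain ⟨B, hBm, hB, g, hg, h1, h2⟩ := hK Ω P S lam h hlam
  refine ⟨fun ω => Dm * c * g ω, hg.const_mul _, ?_, ?_⟩
  · filter_upwards [h1] with ω hω
    by_cases hGω : G (pts (S ω))
    · have e1 : avg W (fun T => D T * X T) (S ω) ≤ 0 := by
        classical
        have h3 := avg_mul_le (W := W) (D := fun T => D T * X T)
          (X := fun T => if G (pts T) then (0 : ℝ≥0∞) else 1)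
          (G := fun T => if G (pts T) then (0 : ℝ≥0∞) else 1) (fun _ => le_rfl)
          (fun U T => by rw [pts_flipOn]) (S ω)
        have e2 : (fun T => D T * X T * (if G (pts T) then (0 : ℝ≥0∞) else 1)) =
            fun T => D T * X T := by
          funext T
          by_cases hT : G (pts T)
          · rw [hX0 T hT, mul_zero, zero_mul]
          · rw [if_neg hT, mul_one]
        rw [e2, if_pos hGω, mul_zero] at h3
        exact h3
      exact e1.trans zero_le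
    · refine (avg_mul_le hX (fun U T => by rw [pts_flipOn]) (S ω)).trans ?_
      calc avg W D (S ω) * (c * EQ (pts (S ω)) Q Θ)
          ≤ Dm * (c * g ω) := by
            gcongr
            · exact avg_le_const hD (_root_.P148.H729.finite_pts h hW ω)
            · exact hω (hB ω hGω) Q τ Θ hQ hΘ
        _ = Dm * c * g ω := by rw [mul_assoc]
  · rw [lintegral_const_mul _ hg]
    calc Dm * c * ∫⁻ ω, g ω ∂P ≤ Dm * c * ENNReal.ofReal (ε / q) := by gcongr
      _ = ENNReal.ofReal (Dm.toReal * c * (ε / q)) := by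
          rw [ENNReal.ofReal_mul (p := Dm.toReal * c) (mul_nonneg ENNReal.toReal_nonneg c.2),
            ENNReal.ofReal_mul (p := Dm.toReal) ENNReal.toReal_nonneg, ENNReal.ofReal_toReal hDm,
            ENNReal.ofReal_coe_nnreal]
      _ ≤ ENNReal.ofReal ε := by
          refine ENNReal.ofReal_le_ofReal ?_
          rw [← mul_div_assoc, div_le_iff₀ hq0, hq]
          nlinarith

end Vale.Agent.P148.R2.H291
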