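import Vale.Agent.P148.R2.H291.Edges

/-!
# The logarithmic cut-off
-/

open MeasureTheory Set Metric Filter ProbabilityTheory P148
open scoped ENNReal NNReal Nat
open Vale.Agent.P148.R2.H990

namespace Vale.Agent.P148.R2.H291

/-- The logarithmic cut-off around `k`: `0` in the disc of radius `δ`, `1` outside the disc of
radius `r`. -/
noncomputable def cut (k : ℂ) (δ r : ℝ) (v : ℂ) : ℝ :=
  max 0 (min 1 (Real.log (dist v k / δ) / Real.log (r / δ)))

theorem cut_nonneg (k : ℂ) (δ r : ℝ) (v : ℂ) : 0 ≤ cut k δ r v := le_max_left _ _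

theorem cut_le_one (k : ℂ) (δ r : ℝ) (v : ℂ) : cut k δ r v ≤ 1 :=
  max_le zero_le_one (min_le_left _ _)

theorem cut_eq_zero {k : ℂ} {δ r : ℝ} {v : ℂ} (hδ : 0 < δ) (hr : δ < r) (hv : dist v k ≤ δ) :
    cut k δ r v = 0 := by
  unfold cut
  refine max_eq_left ((min_le_right _ _).trans ?_)
  refine div_nonpos_of_nonpos_of_nonneg ?_ (Real.log_nonneg ?_)
  · exact Real.log_nonpos (by positivity) ((div_le_one hδ).2 hv)
  · exact (one_le_div hδ).2 hr.le

theorem cut_eq_one {k : ℂ} {δ r : ℝ} {v : ℂ} (hδ : 0 < δ) (hr : δ < r) (hv : r ≤ dist v k) :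
    cut k δ r v = 1 := by
  unfold cut
  have h1 : 0 < Real.log (r / δ) := Real.log_pos ((one_lt_div hδ).2 hr)
  have h2 : 1 ≤ Real.log (dist v k / δ) / Real.log (r / δ) := by
    rw [one_le_div h1]
    refine Real.log_le_log (by have := hδ.trans hr; positivity) ?_
    gcongr
  rw [min_eq_left h2]
  exact max_eq_right zero_le_one

/-- The cut-off written with a truncated distance. -/
theorem cut_eq (k : ℂ) {δ r : ℝ} (hδ : 0 < δ) (hr : δ < r) (v : ℂ) :
    cut k δ r v = Real.log (min r (max δ (dist v k)) / δ) / Real.log (r / δ) := by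
  have hr0 : 0 < r := hδ.trans hr
  have h1 : 0 < Real.log (r / δ) := Real.log_pos ((one_lt_div hδ).2 hr)
  rcases le_total (dist v k) δ with h | h
  · rw [cut_eq_zero hδ hr h, max_eq_left h, min_eq_right hr.le, div_self hδ.ne', Real.log_one,
      zero_div]
  · rw [max_eq_right h]
    rcases le_total r (dist v k) with h' | h'
    · rw [cut_eq_one hδ hr h', min_eq_left h', div_self h1.ne']
    · rw [min_eq_right h']
      unfold cut
      have h3 : 0 < dist v k := hδ.trans_le h
      rw [min_eq_right, max_eq_right]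
      · exact div_nonneg (Real.log_nonneg ((one_le_div hδ).2 h)) h1.le
      · rw [div_le_one h1]
        exact Real.log_le_log (by positivity) (by gcongr)

/-- The increment of the cut-off. -/
theorem abs_cut_sub_le {k : ℂ} {δ r : ℝ} (hδ : 0 < δ) (hr : δ < r) {u v : ℂ}
    (huv : dist u k ≤ dist v k) :
    |cut k δ r u - cut k δ r v| ≤ dist u v / (max δ (dist u k) * Real.log (r / δ)) := by
  have hr0 : 0 < r := hδ.trans hr
  have hL : 0 < Real.log (r / δ) := Real.log_pos ((one_lt_div hδ).2 hr)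
  rw [cut_eq k hδ hr u, cut_eq k hδ hr v, ← sub_div, abs_div, abs_of_pos hL, ← div_div]
  refine div_le_div_of_nonneg_right ?_ hL.le
  set A := min r (max δ (dist u k)) with hA
  set B := min r (max δ (dist v k)) with hB
  have hA0 : 0 < A := lt_min hr0 (lt_max_of_lt_left hδ)
  have hAB : A ≤ B := min_le_min le_rfl (max_le_max le_rfl huv)
  have hB0 : 0 < B := hA0.trans_le hAB
  have h1 : Real.log (A / δ) - Real.log (B / δ) = -Real.log (B / A) := by
    rw [Real.log_div hA0.ne' hδ.ne', Real.log_div hB0.ne' hδ.ne', Real.log_div hB0.ne' hA0.ne']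
    ring
  rw [h1, abs_neg, abs_of_nonneg (Real.log_nonneg ((one_le_div hA0).2 hAB))]
  -- either both are `r`, or `A = max δ (dist u k)`
  rcases le_total r (max δ (dist u k)) with h | h
  · have hAr : A = r := min_eq_left h
    have hBr : B = r := le_antisymm (min_le_left _ _) (by rw [← hAr]; exact hAB)
    rw [hAr, hBr, div_self hr0.ne', Real.log_one]
    positivity
  · have hAe : A = max δ (dist u k) := min_eq_right h
    have h2 : B - A ≤ dist u v := by
      have h3 : B ≤ max δ (dist v k) := min_le_right _ _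
      have h4 : max δ (dist v k) ≤ max δ (dist u k) + dist u v := by
        refine max_le ?_ ?_
        · have := le_max_left δ (dist u k)
          have := dist_nonneg (x := u) (y := v)
          linarith
        · have h5 := dist_triangle v u k
          rw [dist_comm v u] at h5
          have := le_max_right δ (dist u k)
          linarith
      rw [hAe]
      linarith
    rw [← hAe]
    calc Real.log (B / A) ≤ B / A - 1 := Real.log_le_sub_one_of_pos (by positivity)
      _ = (B - A) / A := by field_simp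
      _ ≤ dist u v / A := by gcongr

/-- The energy of one oriented edge, summed over dyadic discs. -/
theorem term_le {k : ℂ} {δ r : ℝ} (hδ : 0 < δ) (hr : δ < r) {J : ℕ} (hJ : r ≤ 2 ^ J * δ)
    {u v : ℂ} (huv : dist u k ≤ dist v k) :
    (cut k δ r u - cut k δ r v) ^ 2 ≤
      4 / Real.log (r / δ) ^ 2 * ∑ j ∈ Finset.range (J + 1),
        ((2 ^ j * δ) ^ 2)⁻¹ * (if dist u k ≤ 2 ^ j * δ then dist u v ^ 2 else 0) := by
  have hr0 : 0 < r := hδ.trans hr
  have hL : 0 < Real.log (r / δ) := Real.log_pos ((one_lt_div hδ).2 hr)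
  have hnn : ∀ j ∈ Finset.range (J + 1), (0 : ℝ) ≤ ((2 ^ j * δ) ^ 2)⁻¹ *
      (if dist u k ≤ 2 ^ j * δ then dist u v ^ 2 else 0) := by
    intro j _
    split_ifs <;> positivity
  rcases lt_or_ge r (dist u k) with hur | hur
  · rw [cut_eq_one hδ hr hur.le, cut_eq_one hδ hr (hur.le.trans huv), sub_self]
    rw [zero_pow two_ne_zero]
    exact mul_nonneg (by positivity) (Finset.sum_nonneg hnn)
  · -- the smallest dyadic disc containing `u`
    have hex : ∃ j, dist u k ≤ 2 ^ j * δ := ⟨J, hur.trans hJ⟩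
    classical
    set j := Nat.find hex with hj
    have hj1 : dist u k ≤ 2 ^ j * δ := Nat.find_spec hex
    have hjJ : j ≤ J := Nat.find_min' hex (hur.trans hJ)
    have hmax : 2 ^ j * δ ≤ 2 * max δ (dist u k) := by
      rcases Nat.eq_zero_or_pos j with h0 | h0
      · rw [h0]
        have := le_max_left δ (dist u k)
        linarith
      · have h1 : ¬ dist u k ≤ 2 ^ (j - 1) * δ := Nat.find_min hex (by omega)
        push Not at h1
        have h2 : (2 : ℝ) ^ j = 2 * 2 ^ (j - 1) := by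
          rw [← pow_succ']
          congr 1
          omega
        have := le_max_right δ (dist u k)
        rw [h2]
        linarith
    have hM : 0 < max δ (dist u k) := lt_max_of_lt_left hδ
    have h3 := abs_cut_sub_le hδ hr huv
    have h4 : (cut k δ r u - cut k δ r v) ^ 2 ≤
        (dist u v / (max δ (dist u k) * Real.log (r / δ))) ^ 2 := by
      rw [← sq_abs]
      exact pow_le_pow_left₀ (abs_nonneg _) h3 2
    refine h4.trans ?_
    have h5 : (dist u v / (max δ (dist u k) * Real.log (r / δ))) ^ 2 ≤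
        4 / Real.log (r / δ) ^ 2 * (((2 ^ j * δ) ^ 2)⁻¹ * dist u v ^ 2) := by
      have h6 : (max δ (dist u k))⁻¹ ^ 2 ≤ 4 * ((2 ^ j * δ) ^ 2)⁻¹ := by
        have h7 : (2 ^ j * δ) ^ 2 ≤ (2 * max δ (dist u k)) ^ 2 :=
          pow_le_pow_left₀ (by positivity) hmax 2
        have h8 : ((2 * max δ (dist u k)) ^ 2)⁻¹ ≤ ((2 ^ j * δ) ^ 2)⁻¹ :=
          inv_anti₀ (by positivity) h7
        calc (max δ (dist u k))⁻¹ ^ 2 = 4 * ((2 * max δ (dist u k)) ^ 2)⁻¹ := by
              field_simp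
              norm_num
          _ ≤ _ := by gcongr
      calc (dist u v / (max δ (dist u k) * Real.log (r / δ))) ^ 2
          = 1 / Real.log (r / δ) ^ 2 * ((max δ (dist u k))⁻¹ ^ 2 * dist u v ^ 2) := by
            field_simp
        _ ≤ 1 / Real.log (r / δ) ^ 2 * (4 * ((2 ^ j * δ) ^ 2)⁻¹ * dist u v ^ 2) := by gcongr
        _ = _ := by ring
    refine h5.trans ?_
    gcongr
    have h9 := Finset.single_le_sum hnn (Finset.mem_range.2 (Nat.lt_succ_of_le hjJ))
    rwa [if_pos hj1] at h9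

theorem sum_le_ed {X : Set ℂ} {k : ℂ} {R : ℝ} (G : Finset (ℂ × ℂ))
    (hG : ∀ e ∈ G, Adj X e.1 e.2 ∧ dist e.1 k ≤ R) :
    ∑ e ∈ G, ENNReal.ofReal (dist e.1 e.2 ^ 2) ≤ ed 2 X k R := by
  classical
  have h1 : ∑ e ∈ G.subtype (fun e : ℂ × ℂ => Adj X e.1 e.2 ∧ dist e.1 k ≤ R),
      ENNReal.ofReal (dist e.1.1 e.1.2 ^ 2) = ∑ e ∈ G, ENNReal.ofReal (dist e.1 e.2 ^ 2) := by
    rw [Finset.sum_subtype_eq_sum_filter (s := G)
      (f := fun e : ℂ × ℂ => ENNReal.ofReal (dist e.1 e.2 ^ 2)), Finset.filter_true_of_mem hG]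
  rw [← h1]
  exact ENNReal.sum_le_tsum _

theorem cut_energy_or {X : Set ℂ} {k : ℂ} {δ r : ℝ} (hδ : 0 < δ) (hr : δ < r) {J : ℕ}
    (hJ : r ≤ 2 ^ J * δ) (F : Finset (ℂ × ℂ))
    (hF : ∀ e ∈ F, Adj X e.1 e.2 ∧ dist e.1 k ≤ dist e.2 k) :
    ∑ e ∈ F, ENNReal.ofReal ((cut k δ r e.1 - cut k δ r e.2) ^ 2) ≤
      ENNReal.ofReal (4 / Real.log (r / δ) ^ 2) * ∑ j ∈ Finset.range (J + 1),
        ENNReal.ofReal (((2 ^ j * δ) ^ 2)⁻¹) * ed 2 X k (2 ^ j * δ) := by
  classical
  have hL : 0 < Real.log (r / δ) := Real.log_pos ((one_lt_div hδ).2 hr)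
  calc ∑ e ∈ F, ENNReal.ofReal ((cut k δ r e.1 - cut k δ r e.2) ^ 2)
      ≤ ∑ e ∈ F, ENNReal.ofReal (4 / Real.log (r / δ) ^ 2) * ∑ j ∈ Finset.range (J + 1),
          ENNReal.ofReal (((2 ^ j * δ) ^ 2)⁻¹) *
            ENNReal.ofReal (if dist e.1 k ≤ 2 ^ j * δ then dist e.1 e.2 ^ 2 else 0) := by
        refine Finset.sum_le_sum fun e he => ?_
        refine (ENNReal.ofReal_le_ofReal (term_le hδ hr hJ (hF e he).2)).trans (le_of_eq ?_)
        rw [ENNReal.ofReal_mul (by positivity), ENNReal.ofReal_sum_of_nonneg]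
        · congr 1
          refine Finset.sum_congr rfl fun j _ => ?_
          rw [ENNReal.ofReal_mul (by positivity)]
        · intro j _
          split_ifs <;> positivity
    _ = ENNReal.ofReal (4 / Real.log (r / δ) ^ 2) * ∑ j ∈ Finset.range (J + 1),
          ENNReal.ofReal (((2 ^ j * δ) ^ 2)⁻¹) * ∑ e ∈ F,
            ENNReal.ofReal (if dist e.1 k ≤ 2 ^ j * δ then dist e.1 e.2 ^ 2 else 0) := by
        rw [← Finset.mul_sum, Finset.sum_comm]
        simp only [Finset.mul_sum]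
    _ ≤ _ := by
        gcongr with j hj
        have h1 : ∀ e ∈ F, ENNReal.ofReal (if dist e.1 k ≤ 2 ^ j * δ then dist e.1 e.2 ^ 2 else 0) =
            if dist e.1 k ≤ 2 ^ j * δ then ENNReal.ofReal (dist e.1 e.2 ^ 2) else 0 := by
          intro e _
          split_ifs <;> simp
        rw [Finset.sum_congr rfl h1, ← Finset.sum_filter]
        refine sum_le_ed _ fun e he => ?_
        rw [Finset.mem_filter] at he
        exact ⟨(hF e he.1).1, he.2⟩

/-- The energy of the logarithmic cut-off. -/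
theorem cut_energy {X : Set ℂ} {k : ℂ} {δ r : ℝ} (hδ : 0 < δ) (hr : δ < r) {J : ℕ}
    (hJ : r ≤ 2 ^ J * δ) (F : Finset (ℂ × ℂ)) (hF : ∀ e ∈ F, Adj X e.1 e.2) :
    ∑ e ∈ F, ENNReal.ofReal ((cut k δ r e.1 - cut k δ r e.2) ^ 2) ≤
      2 * (ENNReal.ofReal (4 / Real.log (r / δ) ^ 2) * ∑ j ∈ Finset.range (J + 1),
        ENNReal.ofReal (((2 ^ j * δ) ^ 2)⁻¹) * ed 2 X k (2 ^ j * δ)) := by
  classical
  rw [← Finset.sum_filter_add_sum_filter_not F (fun e => dist e.1 k ≤ dist e.2 k), two_mul]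
  refine add_le_add ?_ ?_
  · refine cut_energy_or hδ hr hJ _ fun e he => ?_
    rw [Finset.mem_filter] at he
    exact ⟨hF e he.1, he.2⟩
  · have h1 : ∑ e ∈ F with ¬ dist e.1 k ≤ dist e.2 k,
        ENNReal.ofReal ((cut k δ r e.1 - cut k δ r e.2) ^ 2) =
        ∑ e ∈ (F.filter fun e => ¬ dist e.1 k ≤ dist e.2 k).map
          (Equiv.prodComm ℂ ℂ).toEmbedding,
        ENNReal.ofReal ((cut k δ r e.1 - cut k δ r e.2) ^ 2) := by
      rw [Finset.sum_map]
      refine Finset.sum_congr rfl fun e _ => ?_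
      simp only [Equiv.coe_toEmbedding, Equiv.prodComm_apply, Prod.fst_swap, Prod.snd_swap]
      congr 1
      ring
    rw [h1]
    refine cut_energy_or hδ hr hJ _ fun e he => ?_
    rw [Finset.mem_map] at he
    obtain ⟨e', he', rfl⟩ := he
    rw [Finset.mem_filter, not_le] at he'
    simp only [Equiv.coe_toEmbedding, Equiv.prodComm_apply, Prod.fst_swap, Prod.snd_swap]
    exact ⟨(hF e' he'.1).symm, he'.2.le⟩

variable {Ω : Type*} [MeasurableSpace Ω] {P : Measure Ω} {S : Ω → Set Pt} {lam : ℝ≥0}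

/-- The energy of the logarithmic cut-off is small with large probability. -/
theorem cut_prob [IsProbabilityMeasure P] (h : IsColouredPoisson P S lam) {a : ℝ}
    (ha : 0 < a) (hla : lam * a ^ 2 = 1) {η : ℝ} (hη : 0 < η) (k : ℂ) {δ r : ℝ} (hδ : a ≤ δ)
    (hr : 4 * δ ≤ r) :
    P {ω | ∃ F : Finset (ℂ × ℂ), (∀ e ∈ F, Adj (pts (S ω)) e.1 e.2) ∧
      ENNReal.ofReal (600 * CC 2 2 / (η * Real.log (r / δ))) <
        ∑ e ∈ F, ENNReal.ofReal ((cut k δ r e.1 - cut k δ r e.2) ^ 2)} ≤ ENNReal.ofReal η := by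
  have hδ0 : 0 < δ := ha.trans_le hδ
  have hr' : δ < r := by linarith
  have hC := CC_pos 2 2
  have hr4 : 4 ≤ r / δ := by rwa [le_div_iff₀ hδ0]
  have hL : 0 < Real.log (r / δ) := Real.log_pos (by linarith)
  have hl2 : 0.69 < Real.log 2 := by
    have := Real.log_two_gt_d9
    linarith
  set J : ℕ := ⌈Real.log (r / δ) / Real.log 2⌉₊ with hJ
  have hJ1 : Real.log (r / δ) / Real.log 2 ≤ J := Nat.le_ceil _
  have hJ2 : (J : ℝ) < Real.log (r / δ) / Real.log 2 + 1 := Nat.ceil_lt_add_one (by positivity)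
  have hrJ : r ≤ 2 ^ J * δ := by
    rw [← div_le_iff₀ hδ0]
    have h1 : Real.log (r / δ) ≤ Real.log (2 ^ J) := by
      rw [Real.log_pow]
      rwa [div_le_iff₀ (by linarith)] at hJ1
    exact (Real.log_le_log_iff (by positivity) (by positivity)).1 h1
  have hJb : ((J + 1 : ℕ) : ℝ) ≤ 3 * Real.log (r / δ) := by
    have h4 : Real.log 4 ≤ Real.log (r / δ) := Real.log_le_log (by norm_num) hr4
    have h5 : Real.log 4 = 2 * Real.log 2 := by
      rw [show (4 : ℝ) = 2 ^ 2 by norm_num, Real.log_pow]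
      norm_num
    have h6 : Real.log (r / δ) / Real.log 2 ≤ 3 / 2 * Real.log (r / δ) := by
      rw [div_le_iff₀ (by linarith)]
      nlinarith
    have h7 : 2 ≤ 3 / 2 * Real.log (r / δ) := by
      rw [h5] at h4
      linarith
    push_cast
    linarith
  have key := edge_energy h ha hla hη (Finset.range (J + 1)) (fun _ => k) (fun j => 2 ^ j * δ)
    (fun j => ((2 ^ j * δ) ^ 2)⁻¹) (by
      intro j _
      exact hδ.trans (le_mul_of_one_le_left hδ0.le (one_le_pow₀ (by norm_num))))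
    (by intro j _; positivity) (by
      refine Finset.sum_pos (fun j _ => by positivity) ⟨0, by simp⟩)
  have hsum : ∑ j ∈ Finset.range (J + 1), ((2 ^ j * δ) ^ 2)⁻¹ * (2 ^ j * δ) ^ 2 =
      ((J + 1 : ℕ) : ℝ) := by
    rw [Finset.sum_congr rfl fun j _ => inv_mul_cancel₀ (by positivity), Finset.sum_const,
      Finset.card_range, nsmul_eq_mul, mul_one]
  rw [hsum] at key
  refine (measure_mono ?_).trans key
  rintro ω ⟨F, hF, hlt⟩
  have h1 := cut_energy (k := k) hδ0 hr' hrJ F hF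
  have h2 := hlt.trans_le h1
  show ENNReal.ofReal _ < _
  by_contra hcon
  push Not at hcon
  have h3 : 2 * (ENNReal.ofReal (4 / Real.log (r / δ) ^ 2) * ∑ j ∈ Finset.range (J + 1),
        ENNReal.ofReal (((2 ^ j * δ) ^ 2)⁻¹) * ed 2 (pts (S ω)) k (2 ^ j * δ)) ≤
      ENNReal.ofReal (600 * CC 2 2 / (η * Real.log (r / δ))) := by
    calc _ ≤ 2 * (ENNReal.ofReal (4 / Real.log (r / δ) ^ 2) *
          ENNReal.ofReal (25 * CC 2 2 / η * ((J + 1 : ℕ) : ℝ))) := by gcongr
      _ = ENNReal.ofReal (2 * (4 / Real.log (r / δ) ^ 2 *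
            (25 * CC 2 2 / η * ((J + 1 : ℕ) : ℝ)))) := by
          rw [ENNReal.ofReal_mul (p := 2) (by norm_num),
            ENNReal.ofReal_mul (p := 4 / Real.log (r / δ) ^ 2) (by positivity)]
          norm_num
      _ ≤ _ := by
          refine ENNReal.ofReal_le_ofReal ?_
          calc 2 * (4 / Real.log (r / δ) ^ 2 * (25 * CC 2 2 / η * ((J + 1 : ℕ) : ℝ)))
              ≤ 2 * (4 / Real.log (r / δ) ^ 2 * (25 * CC 2 2 / η * (3 * Real.log (r / δ)))) := by
                gcongr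
            _ = 600 * CC 2 2 / (η * Real.log (r / δ)) := by
                field_simp
                norm_num
  exact absurd (h2.trans_le h3) (lt_irrefl _)

end Vale.Agent.P148.R2.H291
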