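import Vale.Agent.P148.R2.H291.Net

/-!
# Moments of local functionals of the Poisson process
-/

open MeasureTheory Set Metric Filter ProbabilityTheory P148
open scoped ENNReal NNReal Nat
open Vale.Agent.P148.R2.H990

namespace Vale.Agent.P148.R2.H291

variable {Ω : Type*} [MeasurableSpace Ω] {P : Measure Ω} {S : Ω → Set Pt} {lam : ℝ≥0}

/-- The event that level `k` is not stable; everything for `k = 0`. -/
def bd (S : Ω → Set Pt) (x : ℂ) (a : ℝ) (k : ℕ) : Set Ω :=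
  if k = 0 then univ else badD S x (k * a)

theorem measurableSet_bd (h : IsColouredPoisson P S lam) (x : ℂ) (a : ℝ) (k : ℕ) :
    MeasurableSet (bd S x a k) := by
  unfold bd
  split_ifs
  · exact MeasurableSet.univ
  · exact measurableSet_badD h _ _

theorem bd_le [IsProbabilityMeasure P] (h : IsColouredPoisson P S lam) (x : ℂ) {a : ℝ}
    (ha : 0 < a) (hla : lam * a ^ 2 = 1) (k : ℕ) :
    P (bd S x a k) ≤ ENNReal.ofReal (net.card * Real.exp (-(Real.pi / 1024 * k ^ 2))) := by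
  unfold bd
  split_ifs with hk
  · subst hk
    rw [measure_univ]
    have : (1 : ℝ) ≤ net.card := by
      exact_mod_cast net_nonempty.card_pos
    rw [ENNReal.one_le_ofReal]
    simpa using this
  · refine (badD_le h x (by positivity)).trans (le_of_eq ?_)
    congr 4
    linear_combination (Real.pi / 1024 * k ^ 2) * hla

/-- The majorant of local functionals. -/
noncomputable def maj (S : Ω → Set Pt) (x : ℂ) (a : ℝ) (p q : ℕ) (ω : Ω) : ℝ≥0∞ :=
  ∑' k : ℕ, ((k + 1 : ℕ) : ℝ≥0∞) ^ p *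
    ((bd S x a k).indicator (fun ω => (cnt S x (2 * ((k + 1 : ℕ) * a)) ω : ℝ≥0∞) ^ q) ω)

theorem measurable_maj (h : IsColouredPoisson P S lam) (x : ℂ) (a : ℝ) (p q : ℕ) :
    Measurable (maj S x a p q) := by
  refine Measurable.tsum fun k => Measurable.const_mul ?_ _
  refine Measurable.indicator ?_ (measurableSet_bd h x a k)
  exact ((measurable_of_countable (fun n : ℕ => (n : ℝ≥0∞))).comp (measurable_cnt h x _)).pow_const _

/-- The bound for one level. -/
noncomputable def bk (p q k : ℕ) : ℝ :=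
  (k + 1 : ℕ) ^ p * (Real.exp (-(Real.pi / 2048 * k ^ 2)) *
    ((2 * q)! * Real.exp 2 * (4 * Real.pi * (k + 1 : ℕ) ^ 2) ^ (2 * q) + net.card))

theorem bk_nonneg (p q k : ℕ) : 0 ≤ bk p q k := by
  unfold bk
  positivity

theorem summable_bk (p q : ℕ) : Summable (bk p q) := by
  set r : ℝ := Real.exp (-(Real.pi / 2048)) with hr
  have hr1 : ‖r‖ < 1 := by
    rw [hr, Real.norm_of_nonneg (Real.exp_nonneg _), Real.exp_lt_one_iff]
    have := Real.pi_pos
    linarith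
  set m := p + 2 * (2 * q) with hm
  set C : ℝ := (2 * q)! * Real.exp 2 * (4 * Real.pi) ^ (2 * q) + net.card with hC
  have h1 : Summable (fun k : ℕ => ((k + 1 : ℕ) : ℝ) ^ m * r ^ (k + 1)) :=
    (summable_nat_add_iff (f := fun n : ℕ => (n : ℝ) ^ m * r ^ n) 1).2
      (summable_pow_mul_geometric_of_norm_lt_one m hr1)
  have h2 := h1.mul_left (C * r⁻¹)
  refine h2.of_nonneg_of_le (bk_nonneg p q) fun k => ?_
  unfold bk
  have hk1 : (1 : ℝ) ≤ ((k + 1 : ℕ) : ℝ) := by exact_mod_cast Nat.succ_le_succ (Nat.zero_le k)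
  have e1 : Real.exp (-(Real.pi / 2048 * k ^ 2)) ≤ r ^ k := by
    rw [hr, ← Real.exp_nat_mul]
    refine Real.exp_le_exp.2 ?_
    have : (k : ℝ) ≤ k ^ 2 := by
      exact_mod_cast Nat.le_self_pow two_ne_zero k
    have h3 := Real.pi_pos
    nlinarith
  have e2 : (2 * q)! * Real.exp 2 * (4 * Real.pi * ((k + 1 : ℕ) : ℝ) ^ 2) ^ (2 * q) + net.card ≤
      C * ((k + 1 : ℕ) : ℝ) ^ (2 * (2 * q)) := by
    rw [hC, add_mul, mul_pow, ← pow_mul]
    have : (net.card : ℝ) ≤ net.card * ((k + 1 : ℕ) : ℝ) ^ (2 * (2 * q)) :=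
      le_mul_of_one_le_right (by positivity) (one_le_pow₀ hk1)
    have h4 : ((2 * q)! : ℝ) * Real.exp 2 * ((4 * Real.pi) ^ (2 * q) *
        ((k + 1 : ℕ) : ℝ) ^ (2 * (2 * q))) = (2 * q)! * Real.exp 2 * (4 * Real.pi) ^ (2 * q) *
        ((k + 1 : ℕ) : ℝ) ^ (2 * (2 * q)) := by ring
    rw [h4]
    gcongr
  have hr0 : 0 < r := Real.exp_pos _
  calc ((k + 1 : ℕ) : ℝ) ^ p * (Real.exp (-(Real.pi / 2048 * k ^ 2)) *
        ((2 * q)! * Real.exp 2 * (4 * Real.pi * ((k + 1 : ℕ) : ℝ) ^ 2) ^ (2 * q) + net.card))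
      ≤ ((k + 1 : ℕ) : ℝ) ^ p * (r ^ k * (C * ((k + 1 : ℕ) : ℝ) ^ (2 * (2 * q)))) := by
        gcongr
    _ = C * r⁻¹ * (((k + 1 : ℕ) : ℝ) ^ m * r ^ (k + 1)) := by
        rw [hm, pow_add, pow_succ r k]
        field_simp

/-- The constant. -/
noncomputable def CC (p q : ℕ) : ℝ := ∑' k, bk p q k

theorem CC_nonneg (p q : ℕ) : 0 ≤ CC p q := tsum_nonneg (bk_nonneg p q)

theorem lint_level [IsProbabilityMeasure P] (h : IsColouredPoisson P S lam) (x : ℂ) {a : ℝ}
    (ha : 0 < a) (hla : lam * a ^ 2 = 1) (q k : ℕ) :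
    ∫⁻ ω, (bd S x a k).indicator (fun ω => (cnt S x (2 * ((k + 1 : ℕ) * a)) ω : ℝ≥0∞) ^ q) ω ∂P ≤
      ENNReal.ofReal (Real.exp (-(Real.pi / 2048 * k ^ 2)) *
        ((2 * q)! * Real.exp 2 * (4 * Real.pi * (k + 1 : ℕ) ^ 2) ^ (2 * q) + net.card)) := by
  set s : ℝ := Real.exp (-(Real.pi / 2048 * k ^ 2)) with hs
  have hs0 : 0 < s := Real.exp_pos _
  set N : Ω → ℕ := cnt S x (2 * ((k + 1 : ℕ) * a)) with hN
  set B := bd S x a k with hB
  have hBm : MeasurableSet B := measurableSet_bd h x a k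
  have h1 : ∀ ω, B.indicator (fun ω => (N ω : ℝ≥0∞) ^ q) ω ≤
      ENNReal.ofReal s * (N ω : ℝ≥0∞) ^ (2 * q) +
        ENNReal.ofReal s⁻¹ * B.indicator (fun _ => (1 : ℝ≥0∞)) ω := by
    intro ω
    by_cases hω : ω ∈ B
    · rw [indicator_of_mem hω, indicator_of_mem hω, mul_one]
      have e1 : ∀ m : ℕ, (N ω : ℝ≥0∞) ^ m = ENNReal.ofReal ((N ω : ℝ) ^ m) := by
        intro m
        rw [ENNReal.ofReal_pow (by positivity), ENNReal.ofReal_natCast]
      rw [e1, e1, ← ENNReal.ofReal_mul hs0.le, ← ENNReal.ofReal_add (by positivity) (by positivity)]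
      refine ENNReal.ofReal_le_ofReal ?_
      set t := (N ω : ℝ) ^ q with ht
      have e2 : (N ω : ℝ) ^ (2 * q) = t ^ 2 := by rw [ht, ← pow_mul, mul_comm]
      rw [e2]
      have e3 : 0 ≤ (s * t - 1 / 2) ^ 2 + 3 / 4 := by positivity
      have e4 : s * t ^ 2 + s⁻¹ - t = s⁻¹ * ((s * t - 1 / 2) ^ 2 + 3 / 4) := by
        field_simp
        ring
      have : 0 ≤ s⁻¹ * ((s * t - 1 / 2) ^ 2 + 3 / 4) := by positivity
      linarith
    · rw [indicator_of_notMem hω]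
      exact zero_le
  have hNm : Measurable fun ω => (N ω : ℝ≥0∞) ^ (2 * q) :=
    ((measurable_of_countable (fun n : ℕ => (n : ℝ≥0∞))).comp
      (measurable_cnt h x _)).pow_const _
  have hr : lam * (Real.pi * (2 * ((k + 1 : ℕ) * a)) ^ 2) = 4 * Real.pi * (k + 1 : ℕ) ^ 2 := by
    linear_combination (4 * Real.pi * (k + 1 : ℕ) ^ 2) * hla
  have hk1 : (1 : ℝ) ≤ ((k + 1 : ℕ) : ℝ) := by exact_mod_cast Nat.succ_le_succ (Nat.zero_le k)
  have h2 : ∫⁻ ω, (N ω : ℝ≥0∞) ^ (2 * q) ∂P ≤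
      ENNReal.ofReal ((2 * q)! * Real.exp 2 * (4 * Real.pi * (k + 1 : ℕ) ^ 2) ^ (2 * q)) := by
    have := lint_cnt_pow h x (r := 2 * ((k + 1 : ℕ) * a)) (by positivity) (by
      rw [hr]
      have := Real.pi_gt_three
      nlinarith) (2 * q)
    rwa [hr] at this
  have h3 := bd_le h x ha hla k
  calc ∫⁻ ω, B.indicator (fun ω => (N ω : ℝ≥0∞) ^ q) ω ∂P
      ≤ ∫⁻ ω, (ENNReal.ofReal s * (N ω : ℝ≥0∞) ^ (2 * q) +
        ENNReal.ofReal s⁻¹ * B.indicator (fun _ => (1 : ℝ≥0∞)) ω) ∂P := lintegral_mono h1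
    _ = ENNReal.ofReal s * ∫⁻ ω, (N ω : ℝ≥0∞) ^ (2 * q) ∂P + ENNReal.ofReal s⁻¹ * P B := by
        have e6 : ∫⁻ ω, B.indicator (fun _ => (1 : ℝ≥0∞)) ω ∂P = P B := lintegral_indicator_one hBm
        rw [lintegral_add_left (hNm.const_mul _), lintegral_const_mul _ hNm,
          lintegral_const_mul _ (measurable_const.indicator hBm), e6]
    _ ≤ ENNReal.ofReal s * ENNReal.ofReal ((2 * q)! * Real.exp 2 *
          (4 * Real.pi * (k + 1 : ℕ) ^ 2) ^ (2 * q)) +
        ENNReal.ofReal s⁻¹ * ENNReal.ofReal (net.card * Real.exp (-(Real.pi / 1024 * k ^ 2))) := by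
        gcongr
    _ = _ := by
        rw [← ENNReal.ofReal_mul hs0.le, ← ENNReal.ofReal_mul (by positivity),
          ← ENNReal.ofReal_add (by positivity) (by positivity)]
        congr 1
        have e5 : s⁻¹ * (net.card * Real.exp (-(Real.pi / 1024 * k ^ 2))) = s * net.card := by
          have : Real.exp (-(Real.pi / 1024 * k ^ 2)) = s * s := by
            rw [hs, ← Real.exp_add]
            congr 1
            ring
          rw [this]
          field_simp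
        rw [e5]
        ring

theorem lint_maj [IsProbabilityMeasure P] (h : IsColouredPoisson P S lam) (x : ℂ) {a : ℝ}
    (ha : 0 < a) (hla : lam * a ^ 2 = 1) (p q : ℕ) :
    ∫⁻ ω, maj S x a p q ω ∂P ≤ ENNReal.ofReal (CC p q) := by
  unfold maj
  have hm : ∀ k : ℕ, Measurable fun ω => (bd S x a k).indicator
      (fun ω => (cnt S x (2 * ((k + 1 : ℕ) * a)) ω : ℝ≥0∞) ^ q) ω := fun k =>
    Measurable.indicator (((measurable_of_countable (fun n : ℕ => (n : ℝ≥0∞))).comp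
      (measurable_cnt h x _)).pow_const _) (measurableSet_bd h x a k)
  rw [lintegral_tsum fun k => ((hm k).const_mul _).aemeasurable]
  rw [CC, ENNReal.ofReal_tsum_of_nonneg (bk_nonneg p q) (summable_bk p q)]
  refine ENNReal.tsum_le_tsum fun k => ?_
  rw [lintegral_const_mul _ (hm k)]
  unfold bk
  rw [ENNReal.ofReal_mul (by positivity), ENNReal.ofReal_pow (by positivity),
    ENNReal.ofReal_natCast]
  gcongr
  exact lint_level h x ha hla q k

omit [MeasurableSpace Ω] in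
/-- The level of stabilisation and the majorant. -/
theorem exists_level (a : ℝ) (x : ℂ) (p q : ℕ) (ω : Ω)
    (hk : ∃ k : ℕ, 1 ≤ k ∧ StabD (pts (S ω)) x (k * a)) :
    ∃ k : ℕ, 1 ≤ k ∧ StabD (pts (S ω)) x (k * a) ∧
      (k : ℝ≥0∞) ^ p * (cnt S x (2 * (k * a)) ω : ℝ≥0∞) ^ q ≤ maj S x a p q ω := by
  classical
  obtain ⟨h1, h2⟩ := Nat.find_spec hk
  set k := Nat.find hk with hkk
  refine ⟨k, h1, h2, ?_⟩
  obtain ⟨j, hj⟩ : ∃ j, k = j + 1 := ⟨k - 1, by omega⟩
  have hmem : ω ∈ bd S x a j := by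
    unfold bd
    split_ifs with h0
    · exact mem_univ _
    · intro hst
      have := Nat.find_min hk (m := j) (by rw [← hkk]; omega)
      exact this ⟨by omega, hst⟩
  refine le_trans (le_of_eq ?_) (ENNReal.le_tsum j)
  rw [indicator_of_mem hmem, ← hj]

theorem ae_exists_level [IsProbabilityMeasure P] (h : IsColouredPoisson P S lam) {a : ℝ}
    (ha : 0 < a) (hla : lam * a ^ 2 = 1) (x : ℂ) :
    ∀ᵐ ω ∂P, ∃ k : ℕ, 1 ≤ k ∧ StabD (pts (S ω)) x (k * a) := by
  rw [ae_iff]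
  refine le_antisymm ?_ zero_le
  have h1 : ∀ k : ℕ, P {ω | ¬ ∃ k : ℕ, 1 ≤ k ∧ StabD (pts (S ω)) x (k * a)} ≤
      ENNReal.ofReal (net.card * Real.exp (-(Real.pi / 1024 * k ^ 2))) := by
    intro k
    refine le_trans (measure_mono ?_) (bd_le h x ha hla k)
    intro ω hω
    unfold bd
    split_ifs with h0
    · exact mem_univ _
    · intro hst
      exact hω ⟨k, by omega, hst⟩
  have h2 : Tendsto (fun k : ℕ => ENNReal.ofReal
      (net.card * Real.exp (-(Real.pi / 1024 * (k : ℝ) ^ 2)))) atTop (nhds 0) := by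
    have h3 : Tendsto (fun k : ℕ => Real.pi / 1024 * (k : ℝ) ^ 2) atTop atTop :=
      Tendsto.const_mul_atTop (by positivity)
        ((tendsto_pow_atTop two_ne_zero).comp tendsto_natCast_atTop_atTop)
    have h4 := (Real.tendsto_exp_neg_atTop_nhds_zero.comp h3).const_mul (net.card : ℝ)
    rw [mul_zero] at h4
    have h5 := ENNReal.tendsto_ofReal h4
    rwa [ENNReal.ofReal_zero] at h5
  exact ge_of_tendsto' h2 h1

end Vale.Agent.P148.R2.H291
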