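import Vale.Agent.P148.R2.H291.Conc

/-!
# Second moments and uniform integrability of the energies
-/

open MeasureTheory Set Metric Filter ProbabilityTheory P148
open scoped ENNReal NNReal Nat
open Vale.Agent.P148.R2.H990

namespace Vale.Agent.P148.R2.H291

variable {Ω : Type*} [MeasurableSpace Ω] {P : Measure Ω} {S : Ω → Set Pt} {lam : ℝ≥0}

/-- Cauchy–Schwarz for a finite sum in `ℝ≥0∞`. -/
theorem sq_sum_le {ι : Type*} (s : Finset ι) (f : ι → ℝ≥0∞) :
    (∑ i ∈ s, f i) ^ 2 ≤ s.card * (2 * ∑ i ∈ s, f i ^ 2) := by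
  rw [pow_two, Finset.sum_mul_sum]
  calc ∑ i ∈ s, ∑ j ∈ s, f i * f j ≤ ∑ i ∈ s, ∑ j ∈ s, (f i ^ 2 + f j ^ 2) :=
        Finset.sum_le_sum fun i _ => Finset.sum_le_sum fun j _ => mul_le_sq_add_sq _ _
    _ = s.card * (2 * ∑ i ∈ s, f i ^ 2) := by
        simp only [Finset.sum_add_distrib, Finset.sum_const, nsmul_eq_mul]
        rw [← Finset.mul_sum]
        ring

/-- The sum of the inverse squares. -/
noncomputable def MM : ℝ := ∑' k : ℕ, (((k + 1 : ℕ) : ℝ) ^ 2)⁻¹

theorem summable_inv_sq : Summable fun k : ℕ => (((k + 1 : ℕ) : ℝ) ^ 2)⁻¹ :=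
  (summable_nat_add_iff (f := fun n : ℕ => (((n : ℕ) : ℝ) ^ 2)⁻¹) 1).2
    (Real.summable_nat_pow_inv.2 one_lt_two)

theorem MM_nonneg : 0 ≤ MM := tsum_nonneg fun _ => by positivity

/-- A weighted Cauchy–Schwarz inequality for series. -/
theorem sq_tsum_le (f : ℕ → ℝ≥0∞) :
    (∑' k, f k) ^ 2 ≤
      ENNReal.ofReal (2 * MM) * ∑' k : ℕ, ((k + 1 : ℕ) : ℝ≥0∞) ^ 2 * f k ^ 2 := by
  set b : ℕ → ℝ≥0∞ := fun k => ((k + 1 : ℕ) : ℝ≥0∞) ^ 2 with hb
  have hb0 : ∀ k, b k ≠ 0 := fun k => by simp [hb]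
  have hbt : ∀ k, b k ≠ ⊤ := fun k => by simp [hb]
  have hM : ∑' k, (b k)⁻¹ = ENNReal.ofReal MM := by
    rw [MM, ENNReal.ofReal_tsum_of_nonneg (fun _ => by positivity) summable_inv_sq]
    refine tsum_congr fun k => ?_
    rw [ENNReal.ofReal_inv_of_pos (by positivity), ENNReal.ofReal_pow (by positivity),
      ENNReal.ofReal_natCast]
  have key : ∀ j k, f j * f k ≤ (b k)⁻¹ * (b j * f j ^ 2) + (b j)⁻¹ * (b k * f k ^ 2) := by
    intro j k
    have h1 := mul_le_sq_add_sq (b j * f j) (b k * f k)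
    calc f j * f k = (b j)⁻¹ * (b k)⁻¹ * ((b j * f j) * (b k * f k)) := by
          have e1 : (b j)⁻¹ * b j = 1 := ENNReal.inv_mul_cancel (hb0 j) (hbt j)
          have e2 : (b k)⁻¹ * b k = 1 := ENNReal.inv_mul_cancel (hb0 k) (hbt k)
          calc f j * f k = ((b j)⁻¹ * b j) * ((b k)⁻¹ * b k) * (f j * f k) := by
                rw [e1, e2, one_mul, one_mul]
            _ = _ := by ring
      _ ≤ (b j)⁻¹ * (b k)⁻¹ * ((b j * f j) ^ 2 + (b k * f k) ^ 2) := by gcongr
      _ = ((b j)⁻¹ * b j) * ((b k)⁻¹ * (b j * f j ^ 2)) +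
          ((b k)⁻¹ * b k) * ((b j)⁻¹ * (b k * f k ^ 2)) := by ring
      _ = _ := by
          rw [ENNReal.inv_mul_cancel (hb0 j) (hbt j), ENNReal.inv_mul_cancel (hb0 k) (hbt k),
            one_mul, one_mul]
  calc (∑' k, f k) ^ 2 = ∑' j, ∑' k, f j * f k := by
        rw [pow_two, ← ENNReal.tsum_mul_right]
        refine tsum_congr fun j => ?_
        rw [ENNReal.tsum_mul_left]
    _ ≤ ∑' j, ∑' k, ((b k)⁻¹ * (b j * f j ^ 2) + (b j)⁻¹ * (b k * f k ^ 2)) :=
        ENNReal.tsum_le_tsum fun j => ENNReal.tsum_le_tsum fun k => key j k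
    _ = (∑' k, (b k)⁻¹) * (∑' j, b j * f j ^ 2) + (∑' k, (b k)⁻¹) * (∑' j, b j * f j ^ 2) := by
        have e1 : ∀ j, ∑' k, ((b k)⁻¹ * (b j * f j ^ 2) + (b j)⁻¹ * (b k * f k ^ 2)) =
            (∑' k, (b k)⁻¹) * (b j * f j ^ 2) + (b j)⁻¹ * ∑' k, (b k * f k ^ 2) := by
          intro j
          rw [ENNReal.tsum_add, ENNReal.tsum_mul_right, ENNReal.tsum_mul_left]
        simp_rw [e1]
        rw [ENNReal.tsum_add, ENNReal.tsum_mul_left, ENNReal.tsum_mul_right]
    _ = _ := by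
        have e2 : ENNReal.ofReal (2 * MM) = 2 * ENNReal.ofReal MM := by
          rw [ENNReal.ofReal_mul (by norm_num)]
          norm_num
        rw [hM, ← two_mul, e2, mul_assoc]

/-- The constant of the second moment. -/
noncomputable def CM (p q : ℕ) : ℝ := 2 * MM * CC (2 * p + 2) (2 * q)

theorem CM_nonneg (p q : ℕ) : 0 ≤ CM p q :=
  mul_nonneg (mul_nonneg (by norm_num) MM_nonneg) (CC_nonneg _ _)

/-- The second moment of the majorant. -/
theorem lint_maj_sq [IsProbabilityMeasure P] (h : IsColouredPoisson P S lam) (x : ℂ) {a : ℝ}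
    (ha : 0 < a) (hla : lam * a ^ 2 = 1) (p q : ℕ) :
    ∫⁻ ω, maj S x a p q ω ^ 2 ∂P ≤ ENNReal.ofReal (CM p q) := by
  have h1 : ∀ ω, maj S x a p q ω ^ 2 ≤ ENNReal.ofReal (2 * MM) *
      ∑' k : ℕ, ((k + 1 : ℕ) : ℝ≥0∞) ^ (2 * p + 2) * lvl x a (2 * q) k (S ω) := by
    intro ω
    refine (sq_tsum_le _).trans (le_of_eq ?_)
    congr 1
    refine tsum_congr fun k => ?_
    rw [indicator_bd h x a q k, mul_pow, lvl_sq, ← pow_mul, ← mul_assoc, ← pow_add]
    congr 2
    ring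
  have hm : ∀ k, Measurable fun ω => lvl x a (2 * q) k (S ω) := fun k =>
    measurable_lvl_comp h x a (2 * q) k
  calc ∫⁻ ω, maj S x a p q ω ^ 2 ∂P
      ≤ ∫⁻ ω, ENNReal.ofReal (2 * MM) *
        ∑' k : ℕ, ((k + 1 : ℕ) : ℝ≥0∞) ^ (2 * p + 2) * lvl x a (2 * q) k (S ω) ∂P :=
        lintegral_mono h1
    _ = ENNReal.ofReal (2 * MM) * ∑' k : ℕ, ((k + 1 : ℕ) : ℝ≥0∞) ^ (2 * p + 2) *
          ∫⁻ ω, lvl x a (2 * q) k (S ω) ∂P := by
        rw [lintegral_const_mul _ (Measurable.tsum fun k => (hm k).const_mul _),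
          lintegral_tsum fun k => ((hm k).const_mul _).aemeasurable]
        congr 1
        refine tsum_congr fun k => ?_
        rw [lintegral_const_mul _ (hm k)]
    _ ≤ ENNReal.ofReal (2 * MM) * ∑' k : ℕ, ENNReal.ofReal (bk (2 * p + 2) (2 * q) k) := by
        gcongr with k
        rw [← bk_zero, ENNReal.ofReal_mul (by positivity), ENNReal.ofReal_pow (by positivity),
          ENNReal.ofReal_natCast]
        gcongr
        exact lint_lvl h x ha hla (2 * q) k
    _ = _ := by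
        rw [← ENNReal.ofReal_tsum_of_nonneg (bk_nonneg _ _) (summable_bk _ _),
          ← ENNReal.ofReal_mul (by have := MM_nonneg; positivity)]
        rfl

/-- The second moment of the sum of the majorants over a window. -/
theorem lint_win_sq [IsProbabilityMeasure P] (h : IsColouredPoisson P S lam) {a : ℝ}
    (ha : 0 < a) (hla : lam * a ^ 2 = 1) (p q : ℕ) (x : ℂ) {R N : ℝ}
    (hN : ((win a x R).card : ℝ) ≤ N) :
    ∫⁻ ω, (∑ m ∈ win a x R, maj S (gp a m) a p q ω) ^ 2 ∂P ≤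
      ENNReal.ofReal (2 * N ^ 2 * CM p q) := by
  have hN0 : 0 ≤ N := le_trans (Nat.cast_nonneg _) hN
  have hm : ∀ m, Measurable fun ω => maj S (gp a m) a p q ω ^ 2 := fun m =>
    (measurable_maj h (gp a m) a p q).pow_const 2
  have hC := CM_nonneg p q
  calc ∫⁻ ω, (∑ m ∈ win a x R, maj S (gp a m) a p q ω) ^ 2 ∂P
      ≤ ∫⁻ ω, (win a x R).card * (2 * ∑ m ∈ win a x R, maj S (gp a m) a p q ω ^ 2) ∂P :=
        lintegral_mono fun ω => sq_sum_le _ _
    _ = (win a x R).card * (2 * ∑ m ∈ win a x R, ∫⁻ ω, maj S (gp a m) a p q ω ^ 2 ∂P) := by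
        rw [lintegral_const_mul _ ((Finset.measurable_fun_sum _ fun m _ => hm m).const_mul _),
          lintegral_const_mul _ (Finset.measurable_fun_sum _ fun m _ => hm m),
          lintegral_finsetSum _ fun m _ => hm m]
    _ ≤ (win a x R).card * (2 * ∑ _m ∈ win a x R, ENNReal.ofReal (CM p q)) := by
        gcongr with m _
        exact lint_maj_sq h (gp a m) ha hla p q
    _ = ENNReal.ofReal ((win a x R).card * (2 * ((win a x R).card * CM p q))) := by
        rw [Finset.sum_const, nsmul_eq_mul, ENNReal.ofReal_mul (by positivity),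
          ENNReal.ofReal_mul (by norm_num), ENNReal.ofReal_mul (by positivity),
          ENNReal.ofReal_natCast]
        norm_num
    _ ≤ _ := by
        refine ENNReal.ofReal_le_ofReal ?_
        calc ((win a x R).card : ℝ) * (2 * ((win a x R).card * CM p q))
            ≤ N * (2 * (N * CM p q)) := by gcongr
          _ = _ := by ring

/-- Uniform integrability, abstract form. -/
theorem lint_restrict_le {X : Ω → ℝ≥0∞} (hX : Measurable X) {c t : ℝ} (ht : 0 < t)
    (h2 : ∫⁻ ω, X ω ^ 2 ∂P ≤ ENNReal.ofReal c) {A : Set Ω} (hA : MeasurableSet A) :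
    ∫⁻ ω in A, X ω ∂P ≤ ENNReal.ofReal (t * c) + ENNReal.ofReal t⁻¹ * P A := by
  have h1 : ∀ ω, A.indicator X ω ≤ ENNReal.ofReal t * X ω ^ 2 +
      ENNReal.ofReal t⁻¹ * A.indicator (fun _ => (1 : ℝ≥0∞)) ω := by
    intro ω
    by_cases hω : ω ∈ A
    · rw [indicator_of_mem hω, indicator_of_mem hω, mul_one]
      have e0 : ENNReal.ofReal t * ENNReal.ofReal t⁻¹ = 1 := by
        rw [← ENNReal.ofReal_mul ht.le, mul_inv_cancel₀ ht.ne', ENNReal.ofReal_one]
      have e1 := mul_le_sq_add_sq (ENNReal.ofReal t * X ω) 1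
      calc X ω = ENNReal.ofReal t⁻¹ * ((ENNReal.ofReal t * X ω) * 1) := by
            rw [mul_one, ← mul_assoc, mul_comm (ENNReal.ofReal t⁻¹), e0, one_mul]
        _ ≤ ENNReal.ofReal t⁻¹ * ((ENNReal.ofReal t * X ω) ^ 2 + 1 ^ 2) := by gcongr
        _ = (ENNReal.ofReal t * ENNReal.ofReal t⁻¹) * (ENNReal.ofReal t * X ω ^ 2) +
            ENNReal.ofReal t⁻¹ := by ring
        _ = _ := by rw [e0, one_mul]
    · rw [indicator_of_notMem hω]
      exact zero_le
  calc ∫⁻ ω in A, X ω ∂P = ∫⁻ ω, A.indicator X ω ∂P := (lintegral_indicator hA X).symm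
    _ ≤ ∫⁻ ω, (ENNReal.ofReal t * X ω ^ 2 +
        ENNReal.ofReal t⁻¹ * A.indicator (fun _ => (1 : ℝ≥0∞)) ω) ∂P := lintegral_mono h1
    _ = ENNReal.ofReal t * ∫⁻ ω, X ω ^ 2 ∂P + ENNReal.ofReal t⁻¹ * P A := by
        rw [lintegral_add_left ((hX.pow_const 2).const_mul _), lintegral_const_mul _
          (hX.pow_const 2), lintegral_const_mul _ (measurable_const.indicator hA),
          lintegral_indicator_const hA, one_mul]
    _ ≤ _ := by
        rw [ENNReal.ofReal_mul ht.le]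
        gcongr

/-- **Uniform integrability of the energy of the edges.** -/
theorem lint_edMaj_restrict [IsProbabilityMeasure P] (h : IsColouredPoisson P S lam) {a : ℝ}
    (ha : 0 < a) (hla : lam * a ^ 2 = 1) (x : ℂ) {r : ℝ} (hr : a ≤ r) {t : ℝ} (ht : 0 < t)
    {A : Set Ω} (hA : MeasurableSet A) :
    ∫⁻ ω in A, edMaj S a 2 x r ω ∂P ≤
      ENNReal.ofReal (r ^ 2 * (1250 * t * CM 2 2)) + ENNReal.ofReal (r ^ 2 * t⁻¹) * P A := by
  have hr0 : 0 < r := ha.trans_le hr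
  have hra : 1 ≤ r / a := by rwa [one_le_div ha]
  have hC := CM_nonneg 2 2
  have h0 : ((win a x (r + a)).card : ℝ) ≤ 25 * (r / a) ^ 2 := by
    have h1 := card_win_le ha x (R := r + a) (by linarith)
    have h2 : 2 * (r + a) / a + 1 = 2 * (r / a) + 3 := by
      field_simp
      ring
    rw [h2] at h1
    nlinarith
  have h1 := lint_win_sq h ha hla 2 2 x h0
  have hXm : Measurable fun ω => ∑ m ∈ win a x (r + a), maj S (gp a m) a 2 2 ω :=
    Finset.measurable_fun_sum _ fun m _ => measurable_maj h (gp a m) a 2 2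
  have h2 := lint_restrict_le (P := P) hXm (t := t / (r / a) ^ 2)
    (by positivity) h1 hA
  calc ∫⁻ ω in A, edMaj S a 2 x r ω ∂P
      = ENNReal.ofReal (a ^ 2) * ∫⁻ ω in A, ∑ m ∈ win a x (r + a), maj S (gp a m) a 2 2 ω ∂P := by
        unfold edMaj
        simp_rw [← Finset.mul_sum]
        rw [lintegral_const_mul _ hXm]
    _ ≤ ENNReal.ofReal (a ^ 2) * (ENNReal.ofReal (t / (r / a) ^ 2 *
          (2 * (25 * (r / a) ^ 2) ^ 2 * CM 2 2)) +
          ENNReal.ofReal (t / (r / a) ^ 2)⁻¹ * P A) := by gcongr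
    _ = _ := by
        rw [mul_add, ← ENNReal.ofReal_mul (by positivity),
          ← mul_assoc (ENNReal.ofReal (a ^ 2)) _ (P A),
          ← ENNReal.ofReal_mul (p := a ^ 2) (q := (t / (r / a) ^ 2)⁻¹) (by positivity)]
        congr 2
        · field_simp
          ring
        · congr 1
          field_simp

end Vale.Agent.P148.R2.H291
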