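import Vale.Agent.P148.R2.H291.Mom2
import Vale.Agent.P148.R2.H291.Whp
import Vale.Agent.P148.R2.H184.L8

/-!
# Moments of the energy of the local faces
-/

open MeasureTheory Set Metric Filter ProbabilityTheory Topology
open _root_.P148
open scoped ENNReal NNReal Nat
open Vale.Agent.P148.R2.H990
open Vale.Agent.P148.R2.H184 (Dt EQ Wt EQ_le ae_three)
open Vale.Agent.P148.R2.F (whp)

universe u

namespace Vale.Agent.P148.R2.H291

variable {Ω : Type*} [MeasurableSpace Ω] {P : Measure Ω} {S : Ω → Set Pt} {lam : ℝ≥0}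

/-- The measurable majorant of the energy of the local faces. -/
noncomputable def eqMaj (S : Ω → Set Pt) (κ a : ℝ) (x : ℂ) (r : ℝ) (ω : Ω) : ℝ≥0∞ :=
  27 * ENNReal.ofReal (κ ^ 2) * enMaj S a 2 x r ω

theorem measurable_eqMaj (h : IsColouredPoisson P S lam) (κ a : ℝ) (x : ℂ) (r : ℝ) :
    Measurable (eqMaj S κ a x r) := (measurable_enMaj h a 2 x r).const_mul _

/-- All points are stable almost surely. -/
theorem ae_stab [IsProbabilityMeasure P] (h : IsColouredPoisson P S lam) {a : ℝ}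
    (ha : 0 < a) (hla : lam * a ^ 2 = 1) :
    ∀ᵐ ω ∂P, ∀ z, ∃ s, 0 < s ∧ Stab (pts (S ω)) z s := by
  filter_upwards [ae_levels h ha hla] with ω hlev z
  obtain ⟨k, hk1, hk2⟩ := hlev (rd a z)
  have hk1' : (1 : ℝ) ≤ k := by exact_mod_cast hk1
  have hka : 0 < k * a := by positivity
  refine ⟨3 / 4 * (k * a), by positivity, hk2.stab hka ?_⟩
  exact (dist_gp_rd ha z).trans (le_mul_of_one_le_left ha.le hk1')

/-- The energy of the local faces is bounded by the majorant, for all sets and weights. -/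
theorem ae_EQ_le [IsProbabilityMeasure P] (h : IsColouredPoisson P S lam) {a : ℝ}
    (ha : 0 < a) (hla : lam * a ^ 2 = 1) :
    ∀ᵐ ω ∂P, ∀ (x : ℂ) (r : ℝ) (Q : Set ℂ) (τ : ℂ) (κ : ℝ) (Θ : Dt → ℂ), Q ⊆ closedBall x r →
      Wt τ κ Θ → EQ (pts (S ω)) Q Θ ≤ eqMaj S κ a x r ω := by
  filter_upwards [ae_three h, ae_stab h ha hla, ae_en_le h ha hla] with ω h3 hst hen
  intro x r Q τ κ Θ hQ hΘ
  refine (EQ_le h3 hst hQ hΘ).trans ?_
  unfold eqMaj
  gcongr
  exact hen 2 x r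

omit [MeasurableSpace Ω] in
theorem eqMaj_eq (S : Ω → Set Pt) (κ a : ℝ) (x : ℂ) (r : ℝ) (ω : Ω) :
    eqMaj S κ a x r ω = ENNReal.ofReal (27 * κ ^ 2 * a ^ 2) *
      ∑ m ∈ win a x (r + a), maj S (gp a m) a 2 3 ω := by
  unfold eqMaj enMaj
  rw [← Finset.mul_sum, ← mul_assoc, ENNReal.ofReal_mul (by positivity),
    ENNReal.ofReal_mul (by norm_num)]
  norm_num

theorem card_win_le'' {a : ℝ} (ha : 0 < a) (x : ℂ) {r : ℝ} (hr : a ≤ r) :
    ((win a x (r + a)).card : ℝ) ≤ 25 * (r / a) ^ 2 := card_win_le' ha x hr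

/-- First moment. -/
theorem lint_eqMaj [IsProbabilityMeasure P] (h : IsColouredPoisson P S lam) {a : ℝ}
    (ha : 0 < a) (hla : lam * a ^ 2 = 1) (κ : ℝ) (x : ℂ) {r : ℝ} (hr : a ≤ r) :
    ∫⁻ ω, eqMaj S κ a x r ω ∂P ≤ ENNReal.ofReal (675 * κ ^ 2 * CC 2 3 * r ^ 2) := by
  have hm : ∀ m, Measurable (maj S (gp a m) a 2 3) := fun m => measurable_maj h (gp a m) a 2 3
  have hC := CC_nonneg 2 3
  simp_rw [eqMaj_eq]
  rw [lintegral_const_mul _ (Finset.measurable_fun_sum _ fun m _ => hm m),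
    lintegral_finsetSum _ fun m _ => hm m]
  calc ENNReal.ofReal (27 * κ ^ 2 * a ^ 2) *
        ∑ m ∈ win a x (r + a), ∫⁻ ω, maj S (gp a m) a 2 3 ω ∂P
      ≤ ENNReal.ofReal (27 * κ ^ 2 * a ^ 2) *
        ∑ _m ∈ win a x (r + a), ENNReal.ofReal (CC 2 3) := by
        gcongr with m _
        exact lint_maj h (gp a m) ha hla 2 3
    _ = ENNReal.ofReal (27 * κ ^ 2 * a ^ 2 * ((win a x (r + a)).card * CC 2 3)) := by
        rw [Finset.sum_const, nsmul_eq_mul, ENNReal.ofReal_mul (p := 27 * κ ^ 2 * a ^ 2)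
          (by positivity), ENNReal.ofReal_mul (p := ((win a x (r + a)).card : ℝ)) (by positivity),
          ENNReal.ofReal_natCast]
    _ ≤ _ := by
        refine ENNReal.ofReal_le_ofReal ?_
        calc 27 * κ ^ 2 * a ^ 2 * ((win a x (r + a)).card * CC 2 3)
            ≤ 27 * κ ^ 2 * a ^ 2 * ((25 * (r / a) ^ 2) * CC 2 3) := by
              gcongr
              exact card_win_le'' ha x hr
          _ = _ := by
              field_simp
              ring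

/-- Second moment. -/
theorem lint_eqMaj_sq [IsProbabilityMeasure P] (h : IsColouredPoisson P S lam) {a : ℝ}
    (ha : 0 < a) (hla : lam * a ^ 2 = 1) (κ : ℝ) (x : ℂ) {r : ℝ} (hr : a ≤ r) :
    ∫⁻ ω, eqMaj S κ a x r ω ^ 2 ∂P ≤ ENNReal.ofReal (911250 * κ ^ 4 * CM 2 3 * r ^ 4) := by
  have hm : ∀ m, Measurable (maj S (gp a m) a 2 3) := fun m => measurable_maj h (gp a m) a 2 3
  have hC := CM_nonneg 2 3
  simp_rw [eqMaj_eq, mul_pow]
  rw [lintegral_const_mul _ ((Finset.measurable_fun_sum _ fun m _ => hm m).pow_const 2)]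
  calc ENNReal.ofReal (27 * κ ^ 2 * a ^ 2) ^ 2 *
        ∫⁻ ω, (∑ m ∈ win a x (r + a), maj S (gp a m) a 2 3 ω) ^ 2 ∂P
      ≤ ENNReal.ofReal (27 * κ ^ 2 * a ^ 2) ^ 2 *
        ENNReal.ofReal (2 * (25 * (r / a) ^ 2) ^ 2 * CM 2 3) := by
        gcongr
        exact lint_win_sq h ha hla 2 3 x (card_win_le'' ha x hr)
    _ = _ := by
        rw [← ENNReal.ofReal_pow (by positivity), ← ENNReal.ofReal_mul (by positivity)]
        congr 1
        field_simp
        ring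

/-- Uniform integrability: the energy on an event of small probability is small. -/
theorem lint_eqMaj_restrict [IsProbabilityMeasure P] (h : IsColouredPoisson P S lam) {a : ℝ}
    (ha : 0 < a) (hla : lam * a ^ 2 = 1) (κ : ℝ) (x : ℂ) {r : ℝ} (hr : a ≤ r) {t : ℝ}
    (ht : 0 < t) {A : Set Ω} (hA : MeasurableSet A) :
    ∫⁻ ω in A, eqMaj S κ a x r ω ∂P ≤
      ENNReal.ofReal (r ^ 2 * (911250 * t * κ ^ 4 * CM 2 3)) +
        ENNReal.ofReal (r ^ 2 * t⁻¹) * P A := by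
  have hr0 : 0 < r := ha.trans_le hr
  have hC := CM_nonneg 2 3
  refine (lint_restrict_le (P := P) (measurable_eqMaj h κ a x r) (t := t / r ^ 2)
    (by positivity) (lint_eqMaj_sq h ha hla κ x hr) hA).trans (le_of_eq ?_)
  have e1 : t / r ^ 2 * (911250 * κ ^ 4 * CM 2 3 * r ^ 4) =
      r ^ 2 * (911250 * t * κ ^ 4 * CM 2 3) := by
    field_simp
  have e2 : (t / r ^ 2)⁻¹ = r ^ 2 * t⁻¹ := by
    field_simp
  rw [e1, e2]

/-- Deviations: with probability tending to one the energy is at most an absolute constant times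
`κ ^ 2 * r ^ 2`. -/
theorem eqMaj_conc [IsProbabilityMeasure P] (h : IsColouredPoisson P S lam) {a : ℝ}
    (ha : 0 < a) (hla : lam * a ^ 2 = 1) (κ : ℝ) (x : ℂ) {r : ℝ} (hr : a ≤ r) :
    P {ω | ENNReal.ofReal (675 * κ ^ 2 * CD 2 3 * r ^ 2) < eqMaj S κ a x r ω} ≤
      ENNReal.ofReal (KK 3 / (25 * (r / a) ^ 2)) := by
  have hr0 : 0 < r := ha.trans_le hr
  have hN : 0 < 25 * (r / a) ^ 2 := by positivity
  refine le_trans (measure_mono ?_) (conc h ha hla 2 3 x hN (card_win_le'' ha x hr))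
  intro ω hω
  have h1 : ENNReal.ofReal (675 * κ ^ 2 * CD 2 3 * r ^ 2) < eqMaj S κ a x r ω := hω
  rw [eqMaj_eq] at h1
  have h3 : ENNReal.ofReal (675 * κ ^ 2 * CD 2 3 * r ^ 2) =
      ENNReal.ofReal (27 * κ ^ 2 * a ^ 2) * ENNReal.ofReal (25 * (r / a) ^ 2 * CD 2 3) := by
    rw [← ENNReal.ofReal_mul (by positivity)]
    congr 1
    field_simp
    ring
  rw [h3] at h1
  exact lt_of_mul_lt_mul_left' h1

/-- The energy of the local faces with high probability, absolute constant. -/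
theorem whp_EQ {τ : ℂ} {κ : ℝ} {Θ : Dt → ℂ} (hΘ : Wt τ κ Θ) (x : ℂ) {r : ℝ} (hr : 0 < r)
    {Q : Set ℂ} (hQ : Q ⊆ closedBall x r) :
    ∀ᶠ m in whp.{u}, EQ (pts m.2) Q Θ ≤ ENNReal.ofReal (675 * κ ^ 2 * CD 2 3 * r ^ 2) := by
  refine whp_of_le hr (tendsto_err (KK 3) hr) fun Ω _ P _ S ε hε hεr h => ?_
  refine le_trans (measure_mono_ae ?_) (eqMaj_conc h hε (lam_eps hε) κ x hεr.le)
  filter_upwards [ae_EQ_le h hε (lam_eps hε)] with ω hω hlt
  exact (not_le.1 hlt).trans_le (hω x r Q τ κ Θ hQ hΘ)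

/-! ### changes of measure -/

/-- First moments under a density bounded by `D`. -/
theorem lint_density {D : ℝ≥0∞} (hD : D ≠ ⊤) {ρ : Ω → ℝ≥0∞} (hρ : ∀ ω, ρ ω ≤ D)
    (f : Ω → ℝ≥0∞) : ∫⁻ ω, ρ ω * f ω ∂P ≤ D * ∫⁻ ω, f ω ∂P := by
  rw [← lintegral_const_mul' _ _ hD]
  exact lintegral_mono fun ω => mul_le_mul_left (hρ ω) _

end Vale.Agent.P148.R2.H291
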