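import Mathlib

/-!
# Moments of Poisson variables
-/

open MeasureTheory ProbabilityTheory Set
open scoped ENNReal NNReal Nat

namespace Vale.Agent.P148.R2.H291

/-- The exponential moments of a Poisson variable. -/
theorem lint_exp (r : ℝ≥0) (t : ℝ) :
    ∫⁻ n : ℕ, ENNReal.ofReal (Real.exp (t * n)) ∂(poissonMeasure r) =
      ENNReal.ofReal (Real.exp (r * (Real.exp t - 1))) := by
  rw [poissonMeasure, lintegral_sum_measure]
  simp only [lintegral_smul_measure, lintegral_dirac, smul_eq_mul]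
  have h1 : ∀ n : ℕ, ENNReal.ofReal (Real.exp (-r) * r ^ n / n !) * ENNReal.ofReal (Real.exp (t * n)) =
      ENNReal.ofReal (Real.exp (-r) * ((r * Real.exp t) ^ n / n !)) := by
    intro n
    rw [← ENNReal.ofReal_mul (by positivity)]
    congr 1
    rw [mul_comm t n, Real.exp_nat_mul]
    ring
  simp only [h1]
  have h2 : HasSum (fun n : ℕ => Real.exp (-r) * ((r * Real.exp t) ^ n / n !))
      (Real.exp (-r) * Real.exp (r * Real.exp t)) := by
    have := NormedSpace.expSeries_div_hasSum_exp (𝔸 := ℝ) ((r : ℝ) * Real.exp t)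
    rw [← Real.exp_eq_exp_ℝ] at this
    exact this.mul_left _
  rw [← ENNReal.ofReal_tsum_of_nonneg (fun n => by positivity) h2.summable, h2.tsum_eq,
    ← Real.exp_add]
  congr 2
  ring

theorem exp_inv_sub_le {μ : ℝ} (hμ : 1 ≤ μ) : μ * (Real.exp (1 / μ) - 1) ≤ 2 := by
  have h0 : 0 < μ := by linarith
  have h1 : |1 / μ| ≤ 1 := by
    rw [abs_of_nonneg (by positivity), div_le_one h0]
    exact hμ
  have h2 := Real.abs_exp_sub_one_le h1
  have h3 : Real.exp (1 / μ) - 1 ≤ 2 * (1 / μ) := by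
    have := (le_abs_self _).trans h2
    rwa [abs_of_nonneg (by positivity : (0 : ℝ) ≤ 1 / μ)] at this
  calc μ * (Real.exp (1 / μ) - 1) ≤ μ * (2 * (1 / μ)) := by gcongr
    _ = 2 := by field_simp

theorem pow_le_fact_exp {μ : ℝ} (hμ : 0 < μ) (m n : ℕ) :
    (n : ℝ) ^ m ≤ m ! * μ ^ m * Real.exp (1 / μ * n) := by
  have h1 : ((n : ℝ) / μ) ^ m / m ! ≤ Real.exp (n / μ) :=
    Real.pow_div_factorial_le_exp _ (by positivity) _
  have h2 : (n : ℝ) ^ m = m ! * μ ^ m * (((n : ℝ) / μ) ^ m / m !) := by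
    rw [div_pow]
    field_simp
  rw [h2]
  have h3 : (1 / μ * n : ℝ) = n / μ := by ring
  rw [h3]
  gcongr

/-- All moments of a Poisson variable with mean at least one are of the natural order. -/
theorem lint_pow (μ : ℝ≥0) (hμ : 1 ≤ μ) (m : ℕ) :
    ∫⁻ n : ℕ, (n : ℝ≥0∞) ^ m ∂(poissonMeasure μ) ≤
      ENNReal.ofReal (m ! * Real.exp 2 * (μ : ℝ) ^ m) := by
  have h0 : (0 : ℝ) < μ := lt_of_lt_of_le one_pos (by exact_mod_cast hμ)
  calc ∫⁻ n : ℕ, (n : ℝ≥0∞) ^ m ∂(poissonMeasure μ)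
      ≤ ∫⁻ n : ℕ, ENNReal.ofReal (m ! * (μ : ℝ) ^ m) *
          ENNReal.ofReal (Real.exp (1 / (μ : ℝ) * n)) ∂(poissonMeasure μ) := by
        refine lintegral_mono fun n => ?_
        rw [← ENNReal.ofReal_mul (by positivity)]
        have : (n : ℝ≥0∞) ^ m = ENNReal.ofReal ((n : ℝ) ^ m) := by
          rw [ENNReal.ofReal_pow (by positivity), ENNReal.ofReal_natCast]
        rw [this]
        exact ENNReal.ofReal_le_ofReal (pow_le_fact_exp h0 m n)
    _ = ENNReal.ofReal (m ! * (μ : ℝ) ^ m) *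
          ENNReal.ofReal (Real.exp ((μ : ℝ) * (Real.exp (1 / (μ : ℝ)) - 1))) := by
        rw [lintegral_const_mul _ (measurable_of_countable _), lint_exp]
    _ ≤ ENNReal.ofReal (m ! * Real.exp 2 * (μ : ℝ) ^ m) := by
        rw [← ENNReal.ofReal_mul (by positivity)]
        refine ENNReal.ofReal_le_ofReal ?_
        have := Real.exp_le_exp.2 (exp_inv_sub_le (μ := (μ : ℝ)) (by exact_mod_cast hμ))
        calc m ! * (μ : ℝ) ^ m * Real.exp ((μ : ℝ) * (Real.exp (1 / (μ : ℝ)) - 1))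
            ≤ m ! * (μ : ℝ) ^ m * Real.exp 2 := by gcongr
          _ = m ! * Real.exp 2 * (μ : ℝ) ^ m := by ring

end Vale.Agent.P148.R2.H291
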