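import Vale.Agent.P148.R2.H990.Vis

/-!
# Locality of Voronoi cells
-/

open Set Metric
open Vale.Agent.P148.R2.H990

namespace Vale.Agent.P148.R2.H291

/-- Every disc of radius `h / 8` centred within `4 * h` of `x` contains a point of `X`. -/
def Stab (X : Set ℂ) (x : ℂ) (h : ℝ) : Prop :=
  ∀ y ∈ closedBall x (4 * h), ∃ v ∈ X, dist y v ≤ h / 8

variable {X Y : Set ℂ} {x y z v : ℂ} {h : ℝ}

theorem self_mem_vcell (X : Set ℂ) (v : ℂ) : v ∈ vcell X v := by
  intro w _
  rw [dist_self]
  exact dist_nonneg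

theorem Stab.dist_le (hs : Stab X x h) (hy : y ∈ closedBall x (4 * h)) (hv : y ∈ vcell X v) :
    dist y v ≤ h / 8 := by
  obtain ⟨w, hw, h1⟩ := hs y hy
  exact (hv w hw).trans h1

/-- A point of the cell of `v` at distance `min (dist z v) r` from `v`. -/
theorem exists_mem_vcell (hz : z ∈ vcell X v) {r : ℝ} (hr : 0 ≤ r) (hrz : r ≤ dist z v) :
    ∃ z' ∈ vcell X v, dist z' v = r := by
  rcases eq_or_lt_of_le (dist_nonneg (x := z) (y := v)) with h0 | h0
  · refine ⟨v, self_mem_vcell X v, ?_⟩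
    rw [dist_self]
    linarith
  · refine ⟨(1 - r / dist z v) • v + (r / dist z v) • z,
      convex_vcell X v (self_mem_vcell X v) hz ?_ (by positivity) (by ring), ?_⟩
    · rw [sub_nonneg, div_le_one h0]
      exact hrz
    · have : (1 - r / dist z v) • v + (r / dist z v) • z - v = (r / dist z v) • (z - v) := by
        module
      rw [dist_eq_norm, this, norm_smul, Real.norm_of_nonneg (by positivity), ← dist_eq_norm]
      field_simp

/-- Cells which come within `h` of `x` are small. -/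
theorem Stab.vcell_subset (hs : Stab X x h) (hh : 0 < h)
    (hne : (vcell X v ∩ closedBall x h).Nonempty) : vcell X v ⊆ closedBall v (h / 8) := by
  obtain ⟨y, hy, hyx⟩ := hne
  rw [mem_closedBall] at hyx
  have h1 : dist y v ≤ h / 8 := hs.dist_le (by rw [mem_closedBall]; linarith) hy
  intro z hz
  rw [mem_closedBall]
  by_contra hlt
  push Not at hlt
  obtain ⟨z', hz', hd⟩ := exists_mem_vcell hz (r := min (dist z v) (h / 4))
    (le_min dist_nonneg (by positivity)) (min_le_left _ _)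
  have h2 : h / 8 < dist z' v := by
    rw [hd]
    exact lt_min hlt (by linarith)
  have h3 : dist z' v ≤ h / 4 := by
    rw [hd]
    exact min_le_right _ _
  have h4 : dist z' v ≤ h / 8 := by
    refine hs.dist_le ?_ hz'
    rw [mem_closedBall]
    calc dist z' x ≤ dist z' v + dist v y + dist y x := dist_triangle4 _ _ _ _
      _ ≤ h / 4 + h / 8 + h := by
        rw [dist_comm v y]
        gcongr
      _ ≤ 4 * h := by linarith
  linarith

theorem Stab.center_mem (hs : Stab X x h) (hh : 0 < h)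
    (hne : (vcell X v ∩ closedBall x h).Nonempty) : dist v x ≤ 9 / 8 * h := by
  obtain ⟨y, hy, hyx⟩ := hne
  rw [mem_closedBall] at hyx
  have h1 : dist y v ≤ h / 8 := hs.dist_le (by rw [mem_closedBall]; linarith) hy
  have := dist_triangle v y x
  rw [dist_comm v y] at this
  linarith

/-- Stabilisation passes to smaller balls inside. -/
theorem Stab.mono_center {x' : ℂ} {h' : ℝ} (hs : Stab X x h) (hd : dist x' x + 4 * h' ≤ 4 * h)
    (hX : ∀ y ∈ closedBall x' (4 * h'), ∀ v ∈ X, dist y v ≤ h / 8 → dist y v ≤ h' / 8) :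
    Stab X x' h' := by
  intro y hy
  have hy' := hy
  rw [mem_closedBall] at hy
  obtain ⟨v, hv, h1⟩ := hs y (by
    rw [mem_closedBall]
    have := dist_triangle y x' x
    linarith)
  exact ⟨v, hv, hX y hy' v hv h1⟩

/-- `Stab` depends only on the points within `5 * h`. -/
theorem Stab.congr (hs : Stab X x h) (hh : 0 < h)
    (hXY : X ∩ closedBall x (5 * h) ⊆ Y) : Stab Y x h := by
  intro y hy
  obtain ⟨v, hv, h1⟩ := hs y hy
  refine ⟨v, hXY ⟨hv, ?_⟩, h1⟩
  rw [mem_closedBall] at hy ⊢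
  have := dist_triangle v y x
  rw [dist_comm v y] at this
  linarith

/-- The cells which come within `h` of `x` depend only on the points within `2 * h`. -/
theorem Stab.vcell_eq (hsX : Stab X x h) (hh : 0 < h)
    (hX : X ∩ closedBall x (5 * h) = Y ∩ closedBall x (5 * h))
    (hne : (vcell X v ∩ closedBall x h).Nonempty) : vcell X v = vcell Y v := by
  have hsY : Stab Y x h := hsX.congr hh (by rw [hX]; exact inter_subset_left)
  have hc := hsX.center_mem hh hne
  have hsub := hsX.vcell_subset hh hne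
  -- first the inclusion
  have key : ∀ z ∈ vcell X v, z ∈ vcell Y v := by
    intro z hz w hw
    by_contra hlt
    push Not at hlt
    have h1 := hsub hz
    rw [mem_closedBall] at h1
    have h2 : w ∈ X := by
      have : w ∈ Y ∩ closedBall x (5 * h) := by
        refine ⟨hw, ?_⟩
        rw [mem_closedBall]
        have := dist_triangle4 w z v x
        rw [dist_comm w z] at this
        linarith
      rw [← hX] at this
      exact this.1
    exact absurd (hz w h2) (not_le.2 hlt)
  refine Subset.antisymm key ?_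
  obtain ⟨y, hy, hyx⟩ := hne
  have hneY : (vcell Y v ∩ closedBall x h).Nonempty := ⟨y, key y hy, hyx⟩
  have hsubY := hsY.vcell_subset hh hneY
  intro z hz w hw
  by_contra hlt
  push Not at hlt
  have h1 := hsubY hz
  rw [mem_closedBall] at h1
  have h2 : w ∈ Y := by
    have : w ∈ X ∩ closedBall x (5 * h) := by
      refine ⟨hw, ?_⟩
      rw [mem_closedBall]
      have := dist_triangle4 w z v x
      rw [dist_comm w z] at this
      linarith
    rw [hX] at this
    exact this.1
  exact absurd (hz w h2) (not_le.2 hlt)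

/-! ### Voronoi vertices -/

/-- `z` is a Voronoi vertex: it lies in three different cells. -/
def VV (X : Set ℂ) (z : ℂ) : Prop :=
  ∃ a b c, a ∈ X ∧ b ∈ X ∧ c ∈ X ∧ a ≠ b ∧ b ≠ c ∧ a ≠ c ∧
    z ∈ vcell X a ∧ z ∈ vcell X b ∧ z ∈ vcell X c

/-- Three different points have at most one circumcentre. -/
theorem circ_unique {a b c z z' : ℂ} (hab : a ≠ b) (hbc : b ≠ c) (hac : a ≠ c)
    (h1 : dist z a = dist z b) (h2 : dist z a = dist z c)
    (h3 : dist z' a = dist z' b) (h4 : dist z' a = dist z' c) : z = z' := by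
  by_contra hne
  have e1 : dist z a ^ 2 = dist z b ^ 2 := by rw [h1]
  have e2 : dist z a ^ 2 = dist z c ^ 2 := by rw [h2]
  have e3 : dist z' a ^ 2 = dist z' b ^ 2 := by rw [h3]
  have e4 : dist z' a ^ 2 = dist z' c ^ 2 := by rw [h4]
  rw [dist_sq, dist_sq] at e1 e2 e3 e4
  -- the differences are orthogonal to `z - z'`
  have f1 : (z.re - z'.re) * (a.re - b.re) + (z.im - z'.im) * (a.im - b.im) = 0 := by
    linarith
  have f2 : (z.re - z'.re) * (a.re - c.re) + (z.im - z'.im) * (a.im - c.im) = 0 := by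
    linarith
  have hz : z.re - z'.re ≠ 0 ∨ z.im - z'.im ≠ 0 := by
    by_contra hh
    push Not at hh
    exact hne (Complex.ext (by linarith [hh.1]) (by linarith [hh.2]))
  set p := z.re - z'.re with hp
  set q := z.im - z'.im with hq
  have hpq : 0 < p ^ 2 + q ^ 2 := by
    rcases hz with h | h
    · positivity
    · positivity
  -- parametrise: `a - b = s * (-q, p)`, `a - c = t * (-q, p)`
  obtain ⟨s, hs1, hs2⟩ : ∃ s : ℝ, b.re = a.re + s * q ∧ b.im = a.im - s * p := by
    refine ⟨((b.re - a.re) * q - (b.im - a.im) * p) / (p ^ 2 + q ^ 2), ?_, ?_⟩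
    · field_simp
      linear_combination (-p) * f1
    · field_simp
      linear_combination (-q) * f1
  obtain ⟨t, ht1, ht2⟩ : ∃ t : ℝ, c.re = a.re + t * q ∧ c.im = a.im - t * p := by
    refine ⟨((c.re - a.re) * q - (c.im - a.im) * p) / (p ^ 2 + q ^ 2), ?_, ?_⟩
    · field_simp
      linear_combination (-p) * f2
    · field_simp
      linear_combination (-q) * f2
  have hs0 : s ≠ 0 := by
    rintro rfl
    exact hab (Complex.ext (by simp [hs1]) (by simp [hs2]))
  have ht0 : t ≠ 0 := by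
    rintro rfl
    exact hac (Complex.ext (by simp [ht1]) (by simp [ht2]))
  have hst : s ≠ t := by
    rintro rfl
    exact hbc (Complex.ext (by rw [hs1, ht1]) (by rw [hs2, ht2]))
  have g1 : s * (s * (p ^ 2 + q ^ 2) - 2 * ((z.re - a.re) * q - (z.im - a.im) * p)) = 0 := by
    rw [hs1, hs2] at e1
    linear_combination -e1
  have g2 : t * (t * (p ^ 2 + q ^ 2) - 2 * ((z.re - a.re) * q - (z.im - a.im) * p)) = 0 := by
    rw [ht1, ht2] at e2
    linear_combination -e2
  have k1 := (mul_eq_zero.1 g1).resolve_left hs0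
  have k2 := (mul_eq_zero.1 g2).resolve_left ht0
  have : (s - t) * (p ^ 2 + q ^ 2) = 0 := by linear_combination k1 - k2
  rcases mul_eq_zero.1 this with h | h
  · exact hst (by linarith)
  · linarith

theorem dist_eq_of_mem {a b z : ℂ} (ha : a ∈ X) (hb : b ∈ X) (h1 : z ∈ vcell X a)
    (h2 : z ∈ vcell X b) : dist z a = dist z b :=
  le_antisymm (h1 b hb) (h2 a ha)

/-- The number of Voronoi vertices near `x`. -/
theorem card_vv_le {N : Set ℂ} (hN : N.Finite) (Z : Finset ℂ)
    (hZ : ∀ z ∈ Z, VV X z ∧ ∀ v ∈ X, z ∈ vcell X v → v ∈ N) : Z.card ≤ N.ncard ^ 3 := by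
  classical
  have hch : ∀ z ∈ Z, ∃ t : ℂ × ℂ × ℂ, (t.1 ∈ X ∧ t.2.1 ∈ X ∧ t.2.2 ∈ X) ∧
      (t.1 ≠ t.2.1 ∧ t.2.1 ≠ t.2.2 ∧ t.1 ≠ t.2.2) ∧
      z ∈ vcell X t.1 ∧ z ∈ vcell X t.2.1 ∧ z ∈ vcell X t.2.2 := by
    intro z hz
    obtain ⟨⟨a, b, c, ha, hb, hc, hab, hbc, hac, h1, h2, h3⟩, -⟩ := hZ z hz
    exact ⟨(a, b, c), ⟨ha, hb, hc⟩, ⟨hab, hbc, hac⟩, h1, h2, h3⟩
  choose! t h1 h2 h3 using hch
  have hmaps : ∀ z ∈ Z, t z ∈ hN.toFinset ×ˢ hN.toFinset ×ˢ hN.toFinset := by
    intro z hz
    simp only [Finset.mem_product, Finite.mem_toFinset]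
    exact ⟨(hZ z hz).2 _ (h1 z hz).1 (h3 z hz).1, (hZ z hz).2 _ (h1 z hz).2.1 (h3 z hz).2.1,
      (hZ z hz).2 _ (h1 z hz).2.2 (h3 z hz).2.2⟩
  have hinj : Set.InjOn t Z := by
    intro z hz z' hz' he
    have a1 := h1 z hz
    have a2 := h2 z hz
    have a3 := h3 z hz
    have b3 := h3 z' hz'
    rw [← he] at b3
    exact circ_unique a2.1 a2.2.1 a2.2.2 (dist_eq_of_mem a1.1 a1.2.1 a3.1 a3.2.1)
      (dist_eq_of_mem a1.1 a1.2.2 a3.1 a3.2.2) (dist_eq_of_mem a1.1 a1.2.1 b3.1 b3.2.1)
      (dist_eq_of_mem a1.1 a1.2.2 b3.1 b3.2.2)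
  have := Finset.card_le_card_of_injOn t hmaps hinj
  rw [Finset.card_product, Finset.card_product, ← Set.ncard_eq_toFinset_card N hN] at this
  calc Z.card ≤ _ := this
    _ = N.ncard ^ 3 := by ring

end Vale.Agent.P148.R2.H291
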