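import Vale.Agent.P148.Inv
import Vale.Agent.P148.R2.H291.Stab
import Vale.Agent.P148.R2.H291.Pois

/-!
# The stabilisation radius of a Poisson process
-/

open MeasureTheory Set Metric Filter ProbabilityTheory P148
open scoped ENNReal NNReal Nat
open Vale.Agent.P148.R2.H990

namespace Vale.Agent.P148.R2.H291

/-! ### a net -/

theorem exists_net : ∃ t : Finset ℂ, t.Nonempty ∧
    ∀ y ∈ closedBall (0 : ℂ) 4, ∃ j ∈ t, dist y j < 1 / 32 := by
  obtain ⟨t, -, hf, ht⟩ := (isCompact_closedBall (0 : ℂ) 4).finite_cover_balls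
    (show (0 : ℝ) < 1 / 32 by norm_num)
  refine ⟨hf.toFinset, ?_, fun y hy => ?_⟩
  · have := ht (mem_closedBall_self (by norm_num))
    simp only [mem_iUnion] at this
    obtain ⟨j, hj, -⟩ := this
    exact ⟨j, by simpa using hj⟩
  · have := ht hy
    simp only [mem_iUnion] at this
    obtain ⟨j, hj, h⟩ := this
    exact ⟨j, by simpa using hj, h⟩

/-- A finite net of the disc of radius `4`. -/
noncomputable def net : Finset ℂ := exists_net.choose

theorem net_nonempty : net.Nonempty := exists_net.choose_spec.1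

theorem net_spec {y : ℂ} (hy : y ∈ closedBall (0 : ℂ) 4) : ∃ j ∈ net, dist y j < 1 / 32 :=
  exists_net.choose_spec.2 y hy

/-- The discretised form of `Stab`. -/
def StabD (X : Set ℂ) (x : ℂ) (r : ℝ) : Prop :=
  ∀ j ∈ net, (X ∩ closedBall (x + r * j) (r / 32)).Nonempty

theorem StabD.exists {X : Set ℂ} {x : ℂ} {r : ℝ} (h : StabD X x r) (hr : 0 < r) {y : ℂ}
    (hy : y ∈ closedBall x (4 * r)) : ∃ v ∈ X, dist y v ≤ r / 16 := by
  have hr' : (r : ℂ) ≠ 0 := by exact_mod_cast hr.ne'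
  have h1 : (y - x) / r ∈ closedBall (0 : ℂ) 4 := by
    rw [mem_closedBall, dist_zero_right, norm_div, Complex.norm_real, Real.norm_of_nonneg hr.le,
      div_le_iff₀ hr, ← dist_eq_norm]
    exact hy
  obtain ⟨j, hj, h2⟩ := net_spec h1
  obtain ⟨v, hv, h3⟩ := h j hj
  rw [mem_closedBall] at h3
  refine ⟨v, hv, ?_⟩
  have h4 : dist y (x + r * j) ≤ r / 32 := by
    have e : y - (x + r * j) = r * ((y - x) / r - j) := by
      field_simp
      ring
    rw [dist_eq_norm, e, norm_mul, Complex.norm_real, Real.norm_of_nonneg hr.le, ← dist_eq_norm]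
    nlinarith
  have := dist_triangle y (x + r * j) v
  rw [dist_comm (x + r * j) v] at this
  linarith

/-- From the discretised form around `x` to the stabilisation at the points near `x`. -/
theorem StabD.stab {X : Set ℂ} {x z : ℂ} {r : ℝ} (h : StabD X x r) (hr : 0 < r)
    (hz : dist z x ≤ r) : Stab X z (3 / 4 * r) := by
  intro y hy
  rw [mem_closedBall] at hy
  obtain ⟨v, hv, h1⟩ := h.exists hr (y := y) (by
    rw [mem_closedBall]
    have := dist_triangle y z x
    linarith)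
  exact ⟨v, hv, by linarith⟩

theorem StabD.stab_self {X : Set ℂ} {x : ℂ} {r : ℝ} (h : StabD X x r) (hr : 0 < r) :
    Stab X x r := by
  intro y hy
  obtain ⟨v, hv, h1⟩ := h.exists hr hy
  exact ⟨v, hv, by linarith⟩

/-! ### the Poisson process -/

variable {Ω : Type*} [MeasurableSpace Ω] {P : Measure Ω} {S : Ω → Set Pt} {lam : ℝ≥0}

/-- The coloured points over a closed disc. -/
def dsk (x : ℂ) (r : ℝ) : Set Pt := closedBall x r ×ˢ univ

theorem measurableSet_dsk (x : ℂ) (r : ℝ) : MeasurableSet (dsk x r) :=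
  isClosed_closedBall.measurableSet.prod MeasurableSet.univ

theorem bdd_dsk (x : ℂ) (r : ℝ) : Bdd (dsk x r) := by
  refine ⟨‖x‖ + |r| + 1, prod_mono ?_ subset_rfl⟩
  intro y hy
  rw [mem_closedBall] at hy
  rw [mem_ball, dist_zero_right]
  have : ‖y‖ ≤ ‖y - x‖ + ‖x‖ := by
    simpa using norm_add_le (y - x) x
  rw [← dist_eq_norm] at this
  have := le_abs_self r
  linarith

theorem fair_univ : fair univ = 1 := by
  rw [fair, Measure.smul_apply, Measure.count_apply_finite univ finite_univ, smul_eq_mul]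
  simp [ENNReal.inv_mul_cancel]

theorem inten_dsk (lam : ℝ≥0) (x : ℂ) {r : ℝ} (hr : 0 ≤ r) :
    inten lam (dsk x r) = ENNReal.ofReal (lam * (Real.pi * r ^ 2)) := by
  rw [inten, dsk, Measure.smul_apply, Measure.prod_prod, fair_univ, mul_one,
    Complex.volume_closedBall, ENNReal.smul_def, smul_eq_mul]
  rw [ENNReal.ofReal_mul (by positivity), ENNReal.ofReal_coe_nnreal, mul_comm Real.pi,
    ENNReal.ofReal_mul (by positivity), ENNReal.ofReal_pow hr]
  congr 2
  rw [← NNReal.coe_real_pi, ENNReal.ofReal_coe_nnreal]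

theorem inten_dsk_toNNReal (lam : ℝ≥0) (x : ℂ) {r : ℝ} (hr : 0 ≤ r) :
    ((inten lam (dsk x r)).toNNReal : ℝ) = lam * (Real.pi * r ^ 2) := by
  rw [inten_dsk lam x hr, ENNReal.coe_toNNReal_eq_toReal, ENNReal.toReal_ofReal (by positivity)]

/-- The number of points of the process in a closed disc. -/
noncomputable def cnt (S : Ω → Set Pt) (x : ℂ) (r : ℝ) (ω : Ω) : ℕ := (S ω ∩ dsk x r).ncard

theorem measurable_cnt (h : IsColouredPoisson P S lam) (x : ℂ) (r : ℝ) :
    Measurable (cnt S x r) := h.meas _ (measurableSet_dsk x r) (bdd_dsk x r)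

theorem pts_inter (T : Set Pt) (x : ℂ) (r : ℝ) :
    pts T ∩ closedBall x r = Prod.fst '' (T ∩ dsk x r) := by
  ext v
  constructor
  · rintro ⟨⟨p, hp, rfl⟩, hv⟩
    exact ⟨p, ⟨hp, hv, mem_univ _⟩, rfl⟩
  · rintro ⟨p, ⟨hp, hv, -⟩, rfl⟩
    exact ⟨⟨p, hp, rfl⟩, hv⟩

theorem finite_pts (h : IsColouredPoisson P S lam) (ω : Ω) (x : ℂ) (r : ℝ) :
    (pts (S ω) ∩ closedBall x r).Finite := by
  rw [pts_inter]
  exact (h.finite_inter ω (bdd_dsk x r)).image _

theorem ncard_pts_le (h : IsColouredPoisson P S lam) (ω : Ω) (x : ℂ) (r : ℝ) :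
    (pts (S ω) ∩ closedBall x r).ncard ≤ cnt S x r ω := by
  rw [pts_inter]
  exact ncard_image_le (h.finite_inter ω (bdd_dsk x r))

theorem lint_cnt_pow (h : IsColouredPoisson P S lam) (x : ℂ) {r : ℝ} (hr : 0 ≤ r)
    (h1 : 1 ≤ lam * (Real.pi * r ^ 2)) (m : ℕ) :
    ∫⁻ ω, (cnt S x r ω : ℝ≥0∞) ^ m ∂P ≤
      ENNReal.ofReal (m ! * Real.exp 2 * (lam * (Real.pi * r ^ 2)) ^ m) := by
  have e1 : ∫⁻ ω, (cnt S x r ω : ℝ≥0∞) ^ m ∂P =
      ∫⁻ n : ℕ, (n : ℝ≥0∞) ^ m ∂(P.map (cnt S x r)) := by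
    rw [lintegral_map (measurable_of_countable _) (measurable_cnt h x r)]
  have e2 : P.map (cnt S x r) = poissonMeasure (inten lam (dsk x r)).toNNReal :=
    h.law _ (measurableSet_dsk x r) (bdd_dsk x r)
  rw [e1, e2]
  have h3 := inten_dsk_toNNReal lam x hr
  refine (lint_pow _ ?_ m).trans ?_
  · rw [← NNReal.coe_le_coe, h3]
    exact_mod_cast h1
  · rw [h3]

theorem void_dsk (h : IsColouredPoisson P S lam) (x : ℂ) {r : ℝ} (hr : 0 ≤ r) :
    P {ω | S ω ∩ dsk x r = ∅} = ENNReal.ofReal (Real.exp (-(lam * (Real.pi * r ^ 2)))) := by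
  rw [h.void_prob (measurableSet_dsk x r) (bdd_dsk x r), poissonMeasure_singleton,
    inten_dsk_toNNReal lam x hr]
  simp

/-- The event that `StabD` fails. -/
def badD (S : Ω → Set Pt) (x : ℂ) (r : ℝ) : Set Ω := {ω | ¬ StabD (pts (S ω)) x r}

omit [MeasurableSpace Ω] in
theorem badD_eq (S : Ω → Set Pt) (x : ℂ) (r : ℝ) :
    badD S x r = ⋃ j ∈ net, {ω | S ω ∩ dsk (x + r * j) (r / 32) = ∅} := by
  ext ω
  simp only [badD, StabD, mem_iUnion, mem_ofPred_eq, exists_prop, not_forall, pts_inter,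
    image_nonempty, not_nonempty_iff_eq_empty]

theorem measurableSet_badD (h : IsColouredPoisson P S lam) (x : ℂ) (r : ℝ) :
    MeasurableSet (badD S x r) := by
  rw [badD_eq]
  exact Finset.measurableSet_biUnion _ fun j _ =>
    h.measurableSet_void (measurableSet_dsk _ _) (bdd_dsk _ _)

theorem badD_le (h : IsColouredPoisson P S lam) (x : ℂ) {r : ℝ} (hr : 0 ≤ r) :
    P (badD S x r) ≤ ENNReal.ofReal (net.card * Real.exp (-(lam * (Real.pi / 1024 * r ^ 2)))) := by
  rw [badD_eq]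
  refine (measure_biUnion_finset_le _ _).trans ?_
  have h1 : ∀ j ∈ net, P {ω | S ω ∩ dsk (x + r * j) (r / 32) = ∅} =
      ENNReal.ofReal (Real.exp (-(lam * (Real.pi / 1024 * r ^ 2)))) := by
    intro j _
    rw [void_dsk h _ (by positivity)]
    congr 3
    ring
  rw [Finset.sum_congr rfl h1, Finset.sum_const, nsmul_eq_mul, ENNReal.ofReal_mul (by positivity),
    ENNReal.ofReal_natCast]

end Vale.Agent.P148.R2.H291
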