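import Vale.Agent.P148.R2.H291.Env
import Vale.Agent.P148.R2.H609.DB3

/-!
# The environment event of a net of boxes

`RingEnv Y I p r μ η ω`: a property of the set of points `Y` only, which holds with high probability
and which gives, for every world which agrees with `Y` near the boxes, the standing assumptions
`BoxOK`, the energy bound of the boxes and the arm factor `ω`; consequences: crossing counts and the
small footprint bound with absolute constants, quenched, for all worlds.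
-/

open MeasureTheory Set Metric Filter ProbabilityTheory Topology
open _root_.P148
open scoped ENNReal NNReal
open Vale.Agent.P148.R2.H258 Vale.Agent.P148.R2.H592
open Vale.Agent.P148.R2.H847 (qpr UArm)
open Vale.Agent.P148.R2.H203 (tot rs Sat)
open Vale.Agent.P148.R2.H609
open Vale.Agent.P148.R2.F (whp ArmStmt)

universe u

namespace Vale.Agent.P148.R2.H291

/-- The environment event of a net of boxes. -/
def RingEnv {κ : Type*} (Y : Set ℂ) (I : Finset κ) (p : κ → ℂ) (r μ η ω : ℝ) : Prop :=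
  ∀ X : Set ℂ, (∀ i ∈ I, Y ∩ closedBall (p i) (3 * r) = X ∩ closedBall (p i) (3 * r)) →
    (∀ i ∈ I, (∀ j : Fin 4, (X ∩ hpl (p i) r j ∩ hpl (p i) r (j + 1)).Nonempty) ∧
      (∀ x y, nbr X x y → x ∈ Sq (p i) r → dist x y ≤ μ) ∧
      ∀ (b : ZMod 3 → ℂ) (_ : HullTri X b) [Fintype (Fc X b × ZMod 3)],
        edE X b (p i) r ≤ 4 * C0 * r ^ 2) ∧
    ∀ N ⊆ X, N.Finite → ∀ i ∈ I, ∀ z ∈ Sq (p i) (r / 2),
      qpr N (fun W => UArm X W (closedBall z (η + μ)) (ball z (r / 4))ᶜ) ≤ ω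

/-- **The environment event holds with high probability.** -/
theorem exists_ringEnv (hArm : ArmStmt.{u}) {r ω : ℝ} (hr : 0 < r) (hω : 0 < ω) :
    ∃ η > 0, ∃ μ > 0, 4 * (η + μ) ≤ r ∧ ∀ {κ : Type} (I : Finset κ) (p : κ → ℂ),
      ∀ᶠ m in whp.{u}, RingEnv (pts m.2) I p r μ η ω := by
  classical
  obtain ⟨δ, hδ, harm⟩ := env_arm hArm (r := r / 4) (by positivity) hω
  set ν : ℝ := min (δ / 2) (r / 8) with hν
  have hν0 : 0 < ν := lt_min (by positivity) (by positivity)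
  have hν1 : ν ≤ δ / 2 := min_le_left _ _
  have hν2 : ν ≤ r / 8 := min_le_right _ _
  refine ⟨ν, hν0, ν, hν0, by linarith, ?_⟩
  intro κ I p
  obtain ⟨R, hR⟩ : ∃ R : ℝ, ∀ i ∈ I, ‖p i‖ + 3 * r ≤ R := by
    refine ⟨∑ i ∈ I, (‖p i‖ + 3 * r), fun i hi => ?_⟩
    exact Finset.single_le_sum (f := fun i => ‖p i‖ + 3 * r) (fun j _ => by positivity) hi
  filter_upwards [whp_envT R hν0 (I.image fun i => (p i, 2 * r)) (by
    intro k hk
    rw [Finset.mem_image] at hk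
    obtain ⟨i, -, rfl⟩ := hk
    show 0 < 2 * r
    positivity), harm R] with m h1 h2
  intro X hX
  have hst : ∀ i ∈ I, ∀ z ∈ closedBall (p i) (2 * r), Stab (pts m.2) z ν := by
    intro i hi z hz
    refine h1.stab z ?_
    rw [mem_closedBall] at hz ⊢
    have h3 := dist_triangle z (p i) 0
    rw [dist_zero_right (p i)] at h3
    have h4 := hR i hi
    linarith
  refine ⟨fun i hi => ⟨fun j => ?_, fun x y hxy hx => ?_, fun b hb _ => ?_⟩, ?_⟩
  · exact quad_of_env (hst i hi) hν0 (by linarith) (hX i hi) j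
  · have h3 : x ∈ closedBall (p i) (2 * r) := by
      rw [mem_closedBall]
      have := norm_le_of_sq hx
      linarith
    have := (adj_transfer (hst i hi) hν0 (by linarith) (hX i hi) h3 hxy).2
    linarith
  · refine edE_le_of_env hb (hst i hi) hν0 (by linarith) (hX i hi) C0_nonneg ?_
    exact h1.en (p i, 2 * r) (Finset.mem_image_of_mem _ hi)
  · intro N hN hNf i hi z hz
    have h5 := norm_le_of_sq hz
    have h3 : pts m.2 ∩ closedBall z (2 * (r / 4)) = X ∩ closedBall z (2 * (r / 4)) := by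
      refine inter_sub ?_ (hX i hi)
      refine closedBall_subset_closedBall' ?_
      linarith
    refine le_trans ?_ (h2 z ?_ X N h3 hNf hN)
    · refine Vale.Agent.P148.R2.H847.qpr_mono hNf fun W _ hW => ?_
      exact hW.mono (fun _ _ _ _ h => h) subset_rfl
        (closedBall_subset_closedBall (by linarith)) subset_rfl
    · rw [mem_closedBall]
      have h6 := dist_triangle z (p i) 0
      rw [dist_zero_right (p i)] at h6
      have h4 := hR i hi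
      linarith

section

variable {κ : Type*} {Y : Set ℂ} {I : Finset κ} {p : κ → ℂ} {r μ η ω : ℝ}
  {X : Set ℂ} {b : ZMod 3 → ℂ}
  (h : HullTri X b) {ι : Type*} [Inhabited ι]
  {O : ι → Set ℂ} (hd : Pairwise fun i j => Disjoint (O i) (O j)) (hc : ∀ j, ConnIn X (O j))
  (hne : ∀ j, (O j).Nonempty)

omit [Inhabited ι] in
theorem RingEnv.boxOK (hE : RingEnv Y I p r μ η ω) (hr : 0 < r) (hμ : 0 ≤ μ)
    (hηr : 4 * (η + μ) ≤ r) (hη : 0 ≤ η)
    (hX : ∀ i ∈ I, Y ∩ closedBall (p i) (3 * r) = X ∩ closedBall (p i) (3 * r)) {j₀ : ι}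
    {i : κ} (hi : i ∈ I) (hother : ∀ j ≠ j₀, O j ⊆ (Sq (p i) r)ᶜ)
    (hout : (O j₀ \ Sq (p i) r).Nonempty) : BoxOK X O j₀ (p i) r μ where
  rpos := hr
  mu_nonneg := hμ
  mu_le := by linarith
  quad := ((hE X hX).1 i hi).1
  other := hother
  out := hout
  mesh := ((hE X hX).1 i hi).2.1

include h in
theorem RingEnv.sum_edE (hE : RingEnv Y I p r μ η ω) (hr : 0 < r)
    (hX : ∀ i ∈ I, Y ∩ closedBall (p i) (3 * r) = X ∩ closedBall (p i) (3 * r))
    [Fintype (Fc X b × ZMod 3)] :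
    ∑ i ∈ I, (2 / r ^ 2 * edE X b (p i) r) ≤ 8 * C0 * I.card := by
  calc ∑ i ∈ I, (2 / r ^ 2 * edE X b (p i) r) ≤ ∑ _i ∈ I, 8 * C0 := by
        refine Finset.sum_le_sum fun i hi => ?_
        have h1 := ((hE X hX).1 i hi).2.2 b h
        calc 2 / r ^ 2 * edE X b (p i) r ≤ 2 / r ^ 2 * (4 * C0 * r ^ 2) := by gcongr
          _ = 8 * C0 := by field_simp; ring
    _ = 8 * C0 * I.card := by rw [Finset.sum_const, nsmul_eq_mul, mul_comm]

open Classical in
/-- **Crossing count**, quenched, for every world. -/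
theorem RingEnv.cnt (hE : RingEnv Y I p r μ η ω) (hr : 0 < r) (hμ : 0 ≤ μ)
    (hηr : 4 * (η + μ) ≤ r) (hη : 0 ≤ η)
    (hX : ∀ i ∈ I, Y ∩ closedBall (p i) (3 * r) = X ∩ closedBall (p i) (3 * r)) {j₀ : ι}
    (hother : ∀ i ∈ I, ∀ j ≠ j₀, O j ⊆ (Sq (p i) r)ᶜ)
    (hout : ∀ i ∈ I, (O j₀ \ Sq (p i) r).Nonempty)
    [Fintype (CV X O)] [Fintype (Fc X b × ZMod 3)]
    (E : (CV X O → Bool) → Finset (Fc X b × ZMod 3))
    (hEs : ∀ σ, ∀ d ∈ E σ, ∃ i ∈ I, d ∈ nearB X b O j₀ (p i) r ∧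
      Out (TC h hd hc hne) σ (Sum.inl j₀) (Far X O j₀ (Sq (p i) r)) d) :
    ∑ σ : CV X O → Bool, ((E σ).card : ℝ) ≤
      2 ^ Fintype.card (CV X O) * (8 * C0 * I.card) := by
  refine (cnt_net h hd hc hne I p (fun i hi => hE.boxOK hr hμ hηr hη hX hi (hother i hi)
    (hout i hi)) E hEs).trans ?_
  gcongr
  exact hE.sum_edE h hr hX

open Classical in
/-- **Small footprints carry no energy**, quenched, for every world. -/
theorem RingEnv.sf (hE : RingEnv Y I p r μ η ω) (hr : 0 < r) (hμ : 0 ≤ μ)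
    (hηr : 4 * (η + μ) ≤ r) (hη : 0 ≤ η) (hω : 0 ≤ ω)
    (hX : ∀ i ∈ I, Y ∩ closedBall (p i) (3 * r) = X ∩ closedBall (p i) (3 * r)) {j₀ : ι}
    (hother : ∀ i ∈ I, ∀ j ≠ j₀, O j ⊆ (Sq (p i) r)ᶜ)
    (hout : ∀ i ∈ I, (O j₀ \ Sq (p i) r).Nonempty)
    [Finite ι] [Fintype (CV X O)] [Fintype (Fc X b × ZMod 3)] (hXf : X.Finite)
    {ζ : ℂ} (hζ : ζ ^ 2 + ζ + 1 = 0) {Θ : Fc X b × ZMod 3 → ℂ}
    (hrot : ∀ d, Θ ((TC h hd hc hne).nxt d) = ζ ^ 2 * Θ d)
    (hg : ∀ d, ¬ (TC h hd hc hne).Good d → Θ d = 0)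
    (hΘ : ∀ e, Θ e ≠ 0 → ∀ z ∈ ({tail e, head e, vc e.1 e.2} : Set ℂ),
      (∀ i ∈ I, z ∉ Sq (p i) r) ∧ z ∉ O j₀)
    {F : (CV X O → Bool) → Fc X b × ZMod 3 → Prop} (hF : ∀ σ, Sat (TC h hd hc hne) σ (F σ))
    (hF' : ∀ σ e, (TC h hd hc hne).Mi σ e → F σ e → ∃ d, (TC h hd hc hne).Rel σ e d ∧
      tail d ∈ O j₀ ∧ (∃ i ∈ I, tail d ∈ Sq (p i) (r / 2)) ∧
      Small (TC h hd hc hne) σ (Sum.inl j₀) η d) :
    ∑ σ : CV X O → Bool, tot (TC h hd hc hne) σ (rs (F σ) Θ) ≤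
      2 ^ Fintype.card (CV X O) * (ω * (∑ e, ‖Θ e‖ ^ 2) * (8 * C0 * I.card)) := by
  refine (sf_net (ω := ω) h hd hc hne I p (fun i hi => hE.boxOK hr hμ hηr hη hX hi (hother i hi)
    (hout i hi)) hη hηr hζ hrot hg hΘ (fun i hi z hz => ?_) hF hF').trans ?_
  · exact (hE X hX).2 (Gs X O) (fun x hx => hx.1) (hXf.subset fun x hx => hx.1) i hi z hz
  · gcongr
    exact hE.sum_edE h hr hX

end

end Vale.Agent.P148.R2.H291
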