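import Vale.Agent.P148.R2.H291.Site
import Vale.Agent.P148.R2.H291.Ring
import Vale.Agent.P148.R2.H609.SFA2
import Vale.Agent.P148.R2.H566.Omega2

/-!
# The row SFA: small footprints, on an event of high probability

A net of boxes of half side `1/8` around the ring `{3/4 ≤ nsup ≤ 3/2}`.
-/

set_option linter.unusedSectionVars false

open MeasureTheory Set Metric Filter ProbabilityTheory Topology
open _root_.P148 _root_.P148.H729
open scoped ENNReal NNReal
open Vale.Agent.P148.R2.H184 Vale.Agent.P148.R2.H144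
open Vale.Agent.P148.R2.H609 (Sq BoxOK RingOK NF edE)
open Vale.Agent.P148.R2.H847 (qpr UArm)
open Vale.Agent.P148.R2.H203 (tot rs Sat)
open Vale.Agent.P148.R2.H995 (nsup)
open Vale.Agent.P148.R2.H592 (Three nbr tail head vc Fc HullTri XU Generic bfar)
open Vale.Agent.P148.R2.H566 (W0 Scene Ev Asq)
open Vale.Agent.P148.R2.F (whp ArmStmt)

universe u

namespace Vale.Agent.P148.R2.H291

/-- The centres of the boxes. -/
noncomputable def bc (m : ℤ × ℤ) : ℂ := ⟨m.1 / 16, m.2 / 16⟩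

/-- The indices of the boxes. -/
noncomputable def bI : Finset (ℤ × ℤ) :=
  (Finset.Icc (-24) 24 ×ˢ Finset.Icc (-24) 24).filter fun m => 12 ≤ max |m.1| |m.2|

theorem card_bI : bI.card ≤ 2401 := by
  refine (Finset.card_filter_le _ _).trans ?_
  rw [Finset.card_product]
  simp

theorem nsup_bc {m : ℤ × ℤ} (hm : m ∈ bI) : 3 / 4 ≤ nsup (bc m) ∧ nsup (bc m) ≤ 3 / 2 := by
  unfold bI at hm
  rw [Finset.mem_filter, Finset.mem_product, Finset.mem_Icc, Finset.mem_Icc] at hm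
  obtain ⟨⟨⟨h1, h2⟩, h3, h4⟩, h5⟩ := hm
  have e1 : |(bc m).re| = |(m.1 : ℝ)| / 16 := by
    show |(m.1 : ℝ) / 16| = _
    rw [abs_div]; norm_num
  have e2 : |(bc m).im| = |(m.2 : ℝ)| / 16 := by
    show |(m.2 : ℝ) / 16| = _
    rw [abs_div]; norm_num
  unfold nsup
  rw [e1, e2]
  constructor
  · rcases le_max_iff.1 h5 with h6 | h6
    · have h7 : (12 : ℝ) ≤ |(m.1 : ℝ)| := by exact_mod_cast h6
      exact le_max_of_le_left (by linarith)
    · have h7 : (12 : ℝ) ≤ |(m.2 : ℝ)| := by exact_mod_cast h6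
      exact le_max_of_le_right (by linarith)
  · have h6 : |(m.1 : ℝ)| ≤ 24 := by
      have : |m.1| ≤ 24 := abs_le.2 ⟨h1, h2⟩
      exact_mod_cast this
    have h7 : |(m.2 : ℝ)| ≤ 24 := by
      have : |m.2| ≤ 24 := abs_le.2 ⟨h3, h4⟩
      exact_mod_cast this
    exact max_le (by linarith) (by linarith)

theorem norm_bc {m : ℤ × ℤ} (hm : m ∈ bI) : ‖bc m‖ ≤ 3 := by
  have := norm_le_nsup (bc m)
  linarith [(nsup_bc hm).2]

/-- The half boxes cover the ring. -/
theorem exists_bc {x : ℂ} (h1 : 3 / 4 ≤ nsup x) (h2 : nsup x ≤ 3 / 2) :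
    ∃ m ∈ bI, x ∈ Sq (bc m) (1 / 16) := by
  have hr : ∀ y : ℝ, |y| ≤ 3 / 2 →
      |round (16 * y)| ≤ 24 ∧ |y - (round (16 * y) : ℝ) / 16| ≤ 1 / 32 := by
    intro y hy
    have h3 := abs_sub_round (16 * y)
    have h4 : |y - (round (16 * y) : ℝ) / 16| ≤ 1 / 32 := by
      have e : y - (round (16 * y) : ℝ) / 16 = (16 * y - round (16 * y)) / 16 := by ring
      rw [e, abs_div, abs_of_pos (show (0 : ℝ) < 16 by norm_num)]
      linarith
    refine ⟨?_, h4⟩
    have h5 : |(round (16 * y) : ℝ)| < 25 := by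
      rw [abs_le] at h3 hy
      rw [abs_lt]
      constructor <;> linarith [h3.1, h3.2, hy.1, hy.2]
    have h6 : |round (16 * y)| < 25 := by exact_mod_cast h5
    omega
  have hx1 : |x.re| ≤ 3 / 2 := (le_max_left _ _).trans h2
  have hx2 : |x.im| ≤ 3 / 2 := (le_max_right _ _).trans h2
  obtain ⟨a1, a2⟩ := hr x.re hx1
  obtain ⟨b1, b2⟩ := hr x.im hx2
  refine ⟨(round (16 * x.re), round (16 * x.im)), ?_, ?_, ?_⟩
  · unfold bI
    rw [Finset.mem_filter, Finset.mem_product, Finset.mem_Icc, Finset.mem_Icc]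
    refine ⟨⟨abs_le.1 a1, abs_le.1 b1⟩, ?_⟩
    have key : ∀ y : ℝ, 3 / 4 ≤ |y| → |y - (round (16 * y) : ℝ) / 16| ≤ 1 / 32 →
        12 ≤ |round (16 * y)| := by
      intro y hy1 hy2
      have h3 : (11 : ℝ) < |(round (16 * y) : ℝ)| := by
        have h4 : |y| ≤ |y - (round (16 * y) : ℝ) / 16| + |(round (16 * y) : ℝ) / 16| := by
          have := abs_add_le (y - (round (16 * y) : ℝ) / 16) ((round (16 * y) : ℝ) / 16)
          rwa [sub_add_cancel] at this
        rw [abs_div, abs_of_pos (show (0 : ℝ) < 16 by norm_num)] at h4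
        linarith
      have h4 : (11 : ℤ) < |round (16 * y)| := by exact_mod_cast h3
      omega
    rcases le_max_iff.1 h1 with h3 | h3
    · exact le_max_of_le_left (key _ h3 a2)
    · exact le_max_of_le_right (key _ h3 b2)
  · exact a2.trans (by norm_num)
  · exact b2.trans (by norm_num)

/-- The boxes are disjoint from the unit square. -/
theorem disj_bc {m : ℤ × ℤ} (hm : m ∈ bI) : Disjoint Asq (Sq (bc m) (1 / 8)) := by
  rw [Set.disjoint_left]
  intro z hz hz'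
  have h1 : ((-(1 / 2) : ℝ) < z.re ∧ z.re < -(1 / 2) + 1) ∧
    ((-(1 / 2) : ℝ) < z.im ∧ z.im < -(1 / 2) + 1) := hz
  obtain ⟨h2, h3⟩ := hz'
  have h4 := (nsup_bc hm).1
  have h5 : nsup (bc m) < 3 / 4 := by
    rw [abs_le] at h2 h3
    refine max_lt ?_ ?_
    · rw [abs_lt]; constructor <;> linarith [h2.1, h2.2, h1.1.1, h1.1.2]
    · rw [abs_lt]; constructor <;> linarith [h3.1, h3.2, h1.2.1, h1.2.2]
  linarith

/-- The total energy in a set. -/
theorem Qt_rs_le (w : W0) {T : Set Pt} {A : Set ℂ} (hXA : w.X ∩ A = pts T ∩ A)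
    (hA : ∀ x ∈ w.X, x ∈ A → x ∉ w.B) (Θ : Dt → ℂ) :
    w.Qt (rs (w.Lo A) (w.th Θ)) ≤ EQ (pts T) A Θ := by
  have e1 : EQ (pts T) A Θ = ENNReal.ofReal (∑ d, ‖rs (w.Lo A) (w.th Θ) d‖ ^ 2) := by
    rw [← EQ_congr hXA Θ, H203.EQ_eq w.hull w.π w.fib A (w.faith hA) Θ]
    rfl
  rw [e1]
  unfold W0.Qt
  refine ENNReal.ofReal_le_ofReal ?_
  have : 0 ≤ ∑ d : w.D, ‖rs (w.Lo A) (w.th Θ) d‖ ^ 2 := Finset.sum_nonneg fun _ _ => by positivity
  linarith

/-- **Row SFA, one world**, on an event of high probability. -/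
theorem exists_sfNF (hArm : ArmStmt.{u}) {τ : ℂ} {κ : ℝ} {Θ : Dt → ℂ} (hΘ : Wt τ κ Θ) {ε : ℝ}
    (hε : 0 < ε) : ∃ η > 0, ∃ G : Set Pt → Prop, Ev.{u} G ∧ ∀ T, G T → ∀ w : W0,
      w.X ∩ ball 0 4 = pts T ∩ ball 0 4 → (∀ x ∈ w.X, x ∈ Asq → x ∉ w.B) →
      (w.B \ ball 0 4).Nonempty →
      ∀ {M : ℕ} [NeZero M] (P : ZMod M → Set ℂ), RingOK w P η →
        (∀ j, ∀ x ∈ P j, 3 / 4 ≤ nsup x ∧ nsup x ≤ 3 / 2) →
        w.En (NF w P) (rs (w.Lo Asq) (w.th Θ)) ≤ ENNReal.ofReal ε := by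
  set C : ℝ := 4 * (8 * C0 * 2401) * CT κ 1 with hC
  have hC0 := C0_nonneg
  have hCT : 0 ≤ CT κ 1 := mul_nonneg (mul_nonneg (by positivity) (CD_nonneg 2 3)) (by positivity)
  have hC0' : 0 ≤ C := by positivity
  set ω : ℝ := ε / (C + 1) with hω
  have hω0 : 0 < ω := by positivity
  obtain ⟨η, hη, μ, hμ, hημ, hE⟩ := exists_ringEnv hArm (r := 1 / 8) (by norm_num) hω0
  refine ⟨η, hη, fun T => RingEnv (pts T) bI bc (1 / 8) μ η ω ∧
    EQ (pts T) (closedBall 0 1) Θ ≤ ENNReal.ofReal (CT κ 1), ?_, ?_⟩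
  · refine ev_of_whp ?_
    filter_upwards [hE bI bc, whp_EQ hΘ 0 (r := 1) one_pos (Q := closedBall 0 1) subset_rfl]
      with m h1 h2
    exact ⟨h1, h2⟩
  · rintro T ⟨h1, h2⟩ w hX hA hBn M _ P hR hP
    have hsub : ∀ i ∈ bI, closedBall (bc i) (3 * (1 / 8)) ⊆ ball 0 4 := by
      intro i hi z hz
      rw [mem_closedBall] at hz
      rw [mem_ball]
      have h3 := dist_triangle z (bc i) 0
      rw [dist_zero_right (bc i)] at h3
      linarith [norm_bc hi]
    have hXb : ∀ i ∈ bI, pts T ∩ closedBall (bc i) (3 * (1 / 8)) =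
        w.X ∩ closedBall (bc i) (3 * (1 / 8)) := fun i hi => inter_sub (hsub i hi) hX.symm
    have hbox : ∀ i ∈ bI, BoxOK w.X (fun _ : Unit => w.B) () (bc i) (1 / 8) μ := by
      intro i hi
      refine h1.boxOK (by norm_num) hμ.le hημ hη.le hXb hi
        (fun j hj => absurd (Subsingleton.elim j ()) hj) ?_
      obtain ⟨x, hx1, hx2⟩ := hBn
      refine ⟨x, hx1, fun hx3 => hx2 (hsub i hi ?_)⟩
      rw [mem_closedBall]
      have := norm_le_of_sq hx3
      linarith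
    have hfin : (H609.Gs w.X (fun _ : Unit => w.B)).Finite :=
      w.hull.fin.subset fun x hx => hx.1
    have h3 := H609.sfa_world (ω := ω) hR bI bc hbox (fun j x hx => by
        obtain ⟨m, hm, hx'⟩ := exists_bc (hP j x hx).1 (hP j x hx).2
        exact ⟨m, hm, by norm_num; exact hx'⟩) hη.le hημ
      (fun i hi z hz => (h1 w.X hXb).2 _ (fun x hx => hx.1) hfin i hi z hz)
      (A := Asq) (fun i hi => disj_bc hi) hA hΘ
    refine h3.trans ?_
    have hXA : w.X ∩ Asq = pts T ∩ Asq := by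
      refine (inter_sub ?_ hX.symm).symm
      exact H566.Asq_subset.trans ((closedBall_subset_ball (by norm_num)))
    have h4 : w.Qt (rs (w.Lo Asq) (w.th Θ)) ≤ ENNReal.ofReal (CT κ 1) := by
      refine (Qt_rs_le w hXA hA Θ).trans (le_trans ?_ h2)
      unfold EQ
      refine ENNReal.tsum_le_tsum fun d => ?_
      classical
      split_ifs with h1 h2 h2
      · exact le_rfl
      · exact absurd (h1.mono H566.Asq_subset) h2
      · exact zero_le
      · exact le_rfl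
    have h5 : ∑ i ∈ bI, (2 / (1 / 8 : ℝ) ^ 2 * edE w.X w.b (bc i) (1 / 8)) ≤ 8 * C0 * 2401 := by
      refine (h1.sum_edE w.hull (by norm_num) hXb).trans ?_
      have : (bI.card : ℝ) ≤ 2401 := by exact_mod_cast card_bI
      gcongr
    refine (mul_le_mul' (ENNReal.ofReal_le_ofReal (mul_le_mul_of_nonneg_left h5
      (by positivity))) h4).trans ?_
    rw [← ENNReal.ofReal_mul (by positivity)]
    apply ENNReal.ofReal_le_ofReal
    have e : 4 * ω * (8 * C0 * 2401) * CT κ 1 = C * ω := by rw [hC]; ring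
    rw [e, hω, mul_div_assoc', div_le_iff₀ (by positivity)]
    nlinarith

end Vale.Agent.P148.R2.H291
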