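import Vale.Agent.P148.R2.H291.SfW

/-!
# The row SFA for the classes which face no arc except perhaps their own
-/

set_option linter.unusedSectionVars false

namespace Vale.Agent.P148.R2.H609

open Function Vale.Agent.P148.R2.H258 Vale.Agent.P148.R2.H258.Tri
open Vale.Agent.P148.R2.H838 (OutD tour tour_pos tour_neg tour_out tour_iter_out face_tour foot)
open Vale.Agent.P148.R2.H871 (Contr)
open Vale.Agent.P148.R2.H400 (InjOff lift_walk Facing Start)

variable {V V1 D : Type*} {T : Tri V D} {T1 : Tri V1 D} {π : V → V1}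

/-- **Excursions which face no arc except perhaps their own.** -/
theorem nonfacing_own [Finite D] (hP : T.Planar) (hP1 : T1.Planar) (hC : Contr T T1 π) {O : V1}
    (hinj : InjOff π O) {M : ℕ} [NeZero M] {P : ZMod M → Set V} (hA : Arcs T P)
    (hPO : ∀ i, ∀ v ∈ P i, π v = O)
    (hfree : ∀ e f, OutD T1 O e → OutD T1 O f → H838.WalkOff T1 O (T1.tgt e) (T1.tgt f))
    (hring : ∀ e, OutD T1 O e → ∃ i, T.src e ∈ P i) {σ : V1 → Bool} {d : D}
    (hs : T1.src d = O) (hd : Start T1 σ d)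
    (hF : ∀ i, T.src d ∉ P i → ¬ Facing T1 {e | OutD T1 O e ∧ T.src e ∈ P i} σ d) {i₀ : ZMod M}
    (hi₀ : T.src d ∈ P i₀) {k : ℕ} (hk : T1.src ((T1.st σ)^[k] d) = O) :
    ∃ i, (i = i₀ ∨ i = i₀ + 1 ∨ i + 1 = i₀) ∧ T.src ((T1.st σ)^[k] d) ∈ P i := by
  classical
  subst hs
  obtain ⟨f, m, N, -, -, hmN, hN, hdist, -, hpot, -, hstr⟩ := foot hP1 hd.1 hd.2
  set O := T1.src d with hO
  have hdO : OutD T1 O d := ⟨rfl, fun hh => hd.1.1 (by rw [hh])⟩
  obtain ⟨j, hjm, hj⟩ := hstr k hk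
  have hoj : OutD T1 O ((tour T1 O)^[j] d) := tour_iter_out hdO j
  obtain ⟨i₁, hi₁⟩ := hring _ hoj
  rw [← hj]
  refine ⟨i₁, ?_, hi₁⟩
  by_contra hcon
  push Not at hcon
  obtain ⟨hc1, hc2, hc3⟩ := hcon
  have hc3' : i₁ ≠ i₀ - 1 := fun hh => hc3 (by rw [hh]; ring)
  -- residues
  have hM4 : 3 < M := by
    by_contra hM
    push Not at hM
    have hMp := NeZero.pos M
    interval_cases M
    · exact hc1 (Subsingleton.elim _ _)
    · have : ∀ a b : ZMod 2, b ≠ a → b ≠ a + 1 → b + 1 ≠ a → False := by decide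
      exact this _ _ hc1 hc2 hc3
    · have : ∀ a b : ZMod 3, b ≠ a → b ≠ a + 1 → b + 1 ≠ a → False := by decide
      exact this _ _ hc1 hc2 hc3
  -- a dart of the arc `i` outside the interval
  have hne1 : (1 : ZMod M) ≠ 0 := by
    have : Fact (1 < M) := ⟨by omega⟩
    exact one_ne_zero
  have hout : ∀ i, i ≠ i₀ → ∃ u, m ≤ u ∧ u < N ∧ T.src ((tour T1 O)^[u] d) ∈ P i := by
    intro i hii
    have h1 := hF i (fun hh => Set.disjoint_left.1 (hA.disj i i₀ hii) hh hi₀)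
    unfold Facing at h1
    push Not at h1
    obtain ⟨b, ⟨hb1, hb2⟩, hb3⟩ := h1
    obtain ⟨t, ht⟩ := H838.tour_orbit hP1 hdO hb1 (hfree _ _ hdO hb1)
    have hN0 : 0 < N := by omega
    have hper : IsPeriodicPt (tour T1 O) N d := hN
    have hu : (tour T1 O)^[t % N] d = b := by rw [hper.iterate_mod_apply]; exact ht
    have huN := Nat.mod_lt t hN0
    refine ⟨t % N, ?_, huN, by rw [hu]; exact hb2⟩
    by_contra hlt
    push Not at hlt
    have h2 := hb3 (t % N) hu.symm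
    have h3 : T1.pot σ d ((tour T1 O)^[t % N + 1] d) = 0 := by
      rw [hpot _ (by omega), if_pos (by omega)]
    exact hdist 0 (t % N + 1) (by omega) (by omega) (h2 h3).symm
  obtain ⟨u, hu1, hu2, hu3⟩ := hout (i₀ + 1) (fun hh => hne1 (by simpa using hh))
  obtain ⟨v, hv1, hv2, hv3⟩ := hout (i₀ - 1) (fun hh => hne1 (by simpa using hh))
  have hne : ∀ {s t : ℕ} {i i' : ZMod M}, T.src ((tour T1 O)^[s] d) ∈ P i →
      T.src ((tour T1 O)^[t] d) ∈ P i' → i ≠ i' → s ≠ t := by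
    intro s t i i' h1 h2 h3 h4
    rw [h4] at h1
    exact Set.disjoint_left.1 (hA.disj i i' h3) h1 h2
  have hju : j ≠ u := hne hi₁ hu3 hc2
  have hjv : j ≠ v := hne hi₁ hv3 hc3'
  have h0j : 0 ≠ j := hne (s := 0) (t := j) (i := i₀) (i' := i₁) hi₀ hi₁ (Ne.symm hc1)
  -- `i₁ = i₀ + r` with `2 ≤ r ≤ M - 2`
  obtain ⟨r, hr, hrM⟩ : ∃ r : ℕ, i₁ = i₀ + (r : ZMod M) ∧ r < M := by
    refine ⟨(i₁ - i₀).val, ?_, ZMod.val_lt _⟩
    rw [ZMod.natCast_zmod_val]; ring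
  have hr0 : r ≠ 0 := by rintro rfl; exact hc1 (by rw [hr]; simp)
  have hr1 : r ≠ 1 := by rintro rfl; exact hc2 (by rw [hr]; simp)
  have hcast : ∀ s t : ℕ, s < M → t < M → ((s : ZMod M) = (t : ZMod M)) → s = t := by
    intro s t h1 h2 h3
    have := congrArg ZMod.val h3
    rwa [ZMod.val_cast_of_lt h1, ZMod.val_cast_of_lt h2] at this
  have hM1 : ((M - 1 : ℕ) : ZMod M) = -1 := by
    rw [Nat.cast_sub (by omega)]; simp
  have hr2 : r ≠ M - 1 := by
    rintro rfl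
    apply hc3'
    rw [hr, hM1]; ring
  -- the two pairs of connected sets
  have hUa : Wc T (⋃ k ∈ Finset.range (1 + 1), P (i₀ + (k : ZMod M))) := hA.wc i₀ 1
  have hUb : Wc T (⋃ k ∈ Finset.range (M - 1 - r + 1), P (i₁ + (k : ZMod M))) :=
    hA.wc i₁ (M - 1 - r)
  have hUc : Wc T (⋃ k ∈ Finset.range (r - 1 + 1), P ((i₀ + 1) + (k : ZMod M))) :=
    hA.wc (i₀ + 1) (r - 1)
  have hUd : Wc T (⋃ k ∈ Finset.range (1 + 1), P ((i₀ - 1) + (k : ZMod M))) := hA.wc (i₀ - 1) 1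
  have hPO' : ∀ (i : ZMod M) (n : ℕ), ∀ v ∈ (⋃ k ∈ Finset.range n, P (i + (k : ZMod M))),
      π v = O := by
    intro i n v hv
    rw [Set.mem_iUnion₂] at hv
    obtain ⟨k, -, hk⟩ := hv
    exact hPO _ v hk
  rcases lt_or_gt_of_ne (hne hu3 hv3 (by
      intro hh
      have h2 : (2 : ZMod M) = 0 := by
        have := sub_eq_zero.2 hh
        rw [← this]; ring
      have h3 := hcast 2 0 (by omega) (by omega) (by simpa using h2)
      omega) : u ≠ v) with huv | huv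
  · -- order 0 (i₀), j (i₁), u (i₀+1), v (i₀-1)
    refine no_alt hP hC hinj hdO hdist (hPO' _ _) (hPO' _ _) ?_ hUa hUb (a := 0) (x := j) (b := u)
      (y := v) (by omega) (by omega) huv hv2 ?_ ?_ ?_ ?_
    · rw [Set.disjoint_left]
      intro z hz1 hz2
      rw [Set.mem_iUnion₂] at hz1 hz2
      obtain ⟨s, hs, hs'⟩ := hz1
      obtain ⟨t, ht, ht'⟩ := hz2
      rw [Finset.mem_range] at hs ht
      refine Set.disjoint_left.1 (hA.disj _ _ ?_) hs' ht'
      intro hh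
      rw [hr, add_assoc, add_right_inj] at hh
      have h3 := hcast s (r + t) (by omega) (by omega) (by push_cast; exact hh)
      omega
    · rw [Set.mem_iUnion₂]; exact ⟨0, by simp, by simpa using hi₀⟩
    · rw [Set.mem_iUnion₂]; exact ⟨1, by simp, by simpa using hu3⟩
    · rw [Set.mem_iUnion₂]; exact ⟨0, by simp, by simpa using hi₁⟩
    · rw [Set.mem_iUnion₂]
      refine ⟨M - 1 - r, by simp, ?_⟩
      have : i₁ + ((M - 1 - r : ℕ) : ZMod M) = i₀ - 1 := by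
        rw [Nat.cast_sub (by omega), hM1, hr]; ring
      rw [this]; exact hv3
  · -- order 0 (i₀), j (i₁), v (i₀-1), u (i₀+1)
    refine no_alt hP hC hinj hdO hdist (hPO' _ _) (hPO' _ _) ?_ hUd hUc (a := 0) (x := j) (b := v)
      (y := u) (by omega) (by omega) huv hu2 ?_ ?_ ?_ ?_
    · rw [Set.disjoint_left]
      intro z hz1 hz2
      rw [Set.mem_iUnion₂] at hz1 hz2
      obtain ⟨s, hs, hs'⟩ := hz1
      obtain ⟨t, ht, ht'⟩ := hz2
      rw [Finset.mem_range] at hs ht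
      refine Set.disjoint_left.1 (hA.disj _ _ ?_) hs' ht'
      intro hh
      have h4 : ((s : ℕ) : ZMod M) = ((t + 2 : ℕ) : ZMod M) := by
        push_cast
        have := congrArg (fun z => z - i₀ + 1) hh
        ring_nf at this ⊢
        exact this
      have h3 := hcast s (t + 2) (by omega) (by omega) h4
      omega
    · rw [Set.mem_iUnion₂]; exact ⟨1, by simp, by simpa using hi₀⟩
    · rw [Set.mem_iUnion₂]; exact ⟨0, by simp, by simpa using hv3⟩
    · rw [Set.mem_iUnion₂]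
      refine ⟨r - 1, by simp, ?_⟩
      have : (i₀ + 1) + ((r - 1 : ℕ) : ZMod M) = i₁ := by
        rw [Nat.cast_sub (by omega), hr]; push_cast; ring
      rw [this]; exact hi₁
    · rw [Set.mem_iUnion₂]; exact ⟨0, by simp, by simpa using hu3⟩

end Vale.Agent.P148.R2.H609

namespace Vale.Agent.P148.R2.H609

open Set Metric Function
open scoped ENNReal
open H592 H184 H203 Vale.Agent.P148.R2.H258
open Vale.Agent.P148.R2.H838 (OutD WalkOff)
open Vale.Agent.P148.R2.H400 (InjOff Facing Start)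
open Vale.Agent.P148.R2.H847 (qpr UArm)
open Vale.Agent.P148.R2.H566 (W0)
open Vale.Agent.P148.R2.H871 (contr_tri258 idmap_val src0)

variable {w : W0}

/-- **The footprint of a class which faces no arc except perhaps its own is small.** -/
theorem small_own {M : ℕ} [NeZero M] {P : ZMod M → Set ℂ} {η : ℝ} (hR : RingOK w P η)
    {σ : w.V → Bool} {d : w.D} (hs : w.T.src d = w.O) (hd : Start w.T σ d)
    (hF : ∀ i, tail d ∉ P i → ¬ Facing w.T (Bq w (P i)) σ d) :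
    (∃ i, tail d ∈ P i) ∧ Small w.T σ w.O η d := by
  classical
  have hdO : OutD w.T w.O d := ⟨hs, fun hh => hd.1.1 (by rw [hh, hs])⟩
  have hring : ∀ e, OutD w.T w.O e → ∃ i, tail e ∈ P i := by
    intro e he
    refine hR.ring (tail e) (head e) (w.hull.nbr_th e) ((pi_B (tail_mem e)).1 he.1) ?_
    intro hh
    apply he.2
    rw [tgt_w]
    exact (pi_B (head_mem e)).2 hh
  obtain ⟨i₀, hi₀⟩ := hring d hdO
  refine ⟨⟨i₀, hi₀⟩, ?_⟩
  have x₀ : w.X := ⟨tail d, tail_mem d⟩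
  have hpi : ∀ x ∈ w.X, w.π x = (fun x : w.X => w.π x.1) (idmap w.X x₀ x) := by
    intro x hx
    show w.π x = w.π (idmap w.X x₀ x).1
    rw [idmap_val hx]
  have hC := contr_tri258 w.hull (fib_id w.X x₀) w.fib (ρ := fun x : w.X => w.π x.1) hpi
  have hinj : InjOff (fun x : w.X => w.π x.1) w.O := by
    intro u v huv hu
    have hu' : u.1 ∉ w.B := fun hh => hu ((pi_B u.2).2 hh)
    have h1 : w.π u.1 = Sum.inr ⟨u.1, u.2, fun _ => hu'⟩ := cmap_of_free u.2 fun _ => hu'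
    have h2 : w.π v.1 = Sum.inr ⟨u.1, u.2, fun _ => hu'⟩ := by rw [← h1]; exact huv.symm
    exact Subtype.ext (eq_of_cmap h2).symm
  set T0 := w.hull.tri258 (idmap w.X x₀) (fib_id w.X x₀) with hT0
  set P' : ZMod M → Set w.X := fun i => {x | x.1 ∈ P i} with hP'
  have hsrc : ∀ q : w.D, (T0.src q).1 = tail q := fun q => src0 w.hull x₀ q
  have hidm : ∀ x : w.X, idmap w.X x₀ x.1 = x := fun x => Subtype.ext (idmap_val x.2)
  have hA : Arcs T0 P' := by
    refine ⟨?_, ?_, ?_⟩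
    · intro i j hij
      rw [Set.disjoint_left]
      intro x hx hx'
      exact Set.disjoint_left.1 (hR.disj i j hij) hx hx'
    · intro i x hx y hy
      obtain ⟨l, h1, h2⟩ := walk_of_path w.hull (fib_id w.X x₀) ((hR.conn i).2 x.1 hx y.1 hy)
      rw [hidm, hidm] at h1
      refine ⟨l, h1, fun e he => ⟨?_, ?_⟩⟩
      · show (T0.src e).1 ∈ P i
        rw [hsrc]; exact (h2 e he).1
      · show (T0.tgt e).1 ∈ P i
        have : (T0.tgt e).1 = head e := by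
          show (T0.src (T0.rev e)).1 = head e
          rw [hsrc]; exact w.hull.tail_rv e
        rw [this]; exact (h2 e he).2
    · intro i
      obtain ⟨x, hx, y, hy, hxy⟩ := hR.next i
      obtain ⟨q, hq1, hq2⟩ := w.hull.exists_dart hxy
      refine ⟨q, ?_, ?_⟩
      · show (T0.src q).1 ∈ P i
        rw [hsrc, hq1]; exact hx
      · show (T0.src (T0.rev q)).1 ∈ P (i + 1)
        rw [hsrc]
        have : tail (T0.rev q) = head q := w.hull.tail_rv q
        rw [this, hq2]; exact hy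
  have hPO : ∀ i, ∀ v ∈ P' i, (fun x : w.X => w.π x.1) v = w.O := fun i v hv =>
    (pi_B v.2).2 (hR.sub i hv)
  have hfree : ∀ e f, OutD w.T w.O e → OutD w.T w.O f →
      WalkOff w.T w.O (w.T.tgt e) (w.T.tgt f) := by
    intro e f he hf
    have he' : head e ∉ w.B := fun hh => he.2 (by rw [tgt_w]; exact (pi_B (head_mem e)).2 hh)
    have hf' : head f ∉ w.B := fun hh => hf.2 (by rw [tgt_w]; exact (pi_B (head_mem f)).2 hh)
    have h1 := hR.free _ _ ⟨head_mem e, he'⟩ ⟨head_mem f, hf'⟩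
    obtain ⟨l, h2, h3⟩ := walk_of_path w.hull w.fib (R := w.Bᶜ) h1
    rw [tgt_w, tgt_w]
    refine ⟨fun hh => he' ((pi_B (head_mem e)).1 hh), l, h2, ?_⟩
    intro g hg
    refine ⟨fun hh => (h3 g hg).1 ((pi_B (tail_mem g)).1 hh), fun hh => (h3 g hg).2 ?_⟩
    rw [tgt_w] at hh
    exact (pi_B (head_mem g)).1 hh
  have hbq : ∀ i, Bq w (P i) = {e | OutD w.T w.O e ∧ T0.src e ∈ P' i} := by
    intro i
    ext e
    constructor
    · rintro ⟨h1, h2⟩
      refine ⟨h1, ?_⟩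
      show (T0.src e).1 ∈ P i
      rw [hsrc]; exact h2
    · rintro ⟨h1, h2⟩
      refine ⟨h1, ?_⟩
      have h3 : (T0.src e).1 ∈ P i := h2
      rwa [hsrc] at h3
  intro k hk
  obtain ⟨i, hi, hi'⟩ := nonfacing_own (T := T0) (T1 := w.T) (w.hull.planar258 _ _) w.planar hC hinj hA
    hPO hfree (fun e he => by
      obtain ⟨i, hi⟩ := hring e he
      refine ⟨i, ?_⟩
      show (T0.src e).1 ∈ P i
      rw [hsrc]; exact hi) hs hd (fun i hi => by
      rw [← hbq]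
      refine hF i fun hh => hi ?_
      show (T0.src d).1 ∈ P i
      rw [hsrc]; exact hh) (i₀ := i₀) (by
      show (T0.src d).1 ∈ P i₀
      rw [hsrc]; exact hi₀) hk
  have hi2 : tail ((w.T.st σ)^[k] d) ∈ P i := by
    have h3 : (T0.src ((w.T.st σ)^[k] d)).1 ∈ P i := hi'
    rwa [hsrc] at h3
  rcases hi with rfl | rfl | rfl
  · rw [dist_comm]; exact hR.diam i _ hi₀ _ (Or.inl hi2)
  · rw [dist_comm]; exact hR.diam i₀ _ hi₀ _ (Or.inr hi2)
  · exact hR.diam i _ hi2 _ (Or.inr hi₀)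

/-- **SFA in one world**, general form. -/
theorem sfa_gen {M : ℕ} [NeZero M] {P : ZMod M → Set ℂ} {η : ℝ}
    {ι : Type*} (I : Finset ι) (p : ι → ℂ) {r μ ω : ℝ}
    (hB : ∀ i ∈ I, BoxOK w.X (fun _ : Unit => w.B) () (p i) r μ)
    (hcov : ∀ j, ∀ x ∈ P j, ∃ i ∈ I, x ∈ Sq (p i) (r / 2)) (hη : 0 ≤ η) (hηr : 4 * (η + μ) ≤ r)
    (hω : ∀ i ∈ I, ∀ z ∈ Sq (p i) (r / 2), qpr (Gs w.X (fun _ : Unit => w.B)) (fun W =>
      UArm w.X W (closedBall z (η + μ)) (ball z (r / 4))ᶜ) ≤ ω)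
    {A : Set ℂ} (hA : ∀ i ∈ I, Disjoint A (Sq (p i) r)) (hAB : ∀ x ∈ w.X, x ∈ A → x ∉ w.B)
    {τ : ℂ} {κ : ℝ} {Θ : Dt → ℂ} (hΘ : Wt τ κ Θ)
    {S : (w.V → Bool) → w.D → Prop} (hS : ∀ σ, Sat w.T σ (S σ))
    (hS' : ∀ σ e, S σ e → w.T.Mi σ e → ∃ d, w.T.Rel σ e d ∧ tail d ∈ w.B ∧ (∃ j, tail d ∈ P j) ∧
      Small w.T σ w.O η d) :
    w.En S (rs (w.Lo A) (w.th Θ)) ≤
      ENNReal.ofReal (4 * ω * ∑ i ∈ I, (2 / r ^ 2 * edE w.X w.b (p i) r)) *
        w.Qt (rs (w.Lo A) (w.th Θ)) := by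
  classical
  have hd : Pairwise fun i j : Unit => Disjoint ((fun _ : Unit => w.B) i) ((fun _ : Unit => w.B) j) :=
    fun i j hij => absurd (Subsingleton.elim i j) hij
  set Φ : w.D → ℂ := rs (w.Lo A) (w.th Θ) with hΦ
  have hLo : ∀ d : w.D, w.Lo A (w.T.nxt d) ↔ w.Lo A d := by
    intro d
    show LF w.X A (dt (d.1, d.2 + 1)) ↔ _
    rw [dt_next, LF_rt]
    rfl
  have hrot : ∀ d, Φ (w.T.nxt d) = τ ^ 2 * Φ d := by
    intro d
    simp only [hΦ, rs, hLo]
    split_ifs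
    · exact wt_rot w.hull w.π w.fib hΘ.rot d
    · simp
  have hg : ∀ d, ¬ w.T.Good d → Φ d = 0 := by
    intro d hd'
    simp only [hΦ, rs]
    split_ifs
    · exact wt_good w.hull w.π w.fib Θ d hd'
    · rfl
  have hsupp : ∀ e, Φ e ≠ 0 → ∀ z ∈ ({tail e, head e, vc e.1 e.2} : Set ℂ),
      (∀ i ∈ I, z ∉ Sq (p i) r) ∧ z ∉ w.B := by
    intro e he z hz
    have hL : LF w.X A (dt e) := by
      by_contra hcon
      apply he
      simp only [hΦ, rs]
      rw [if_neg]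
      exact hcon
    obtain ⟨b1, b2, b3⟩ := hL.mem
    obtain ⟨⟨a1, a2, a3⟩, -⟩ := hL
    have hz' : z ∈ w.X ∧ z ∈ A := by
      rcases hz with rfl | rfl | rfl
      · exact ⟨a1, b1⟩
      · exact ⟨a2, b2⟩
      · exact ⟨a3, b3⟩
    exact ⟨fun i hi hzi => Set.disjoint_left.1 (hA i hi) hz'.2 hzi, hAB z hz'.1 hz'.2⟩
  have key := sf_net (X := w.X) (b := w.b) w.hull (O := fun _ : Unit => w.B) hd (fun _ => w.conn)
    (fun _ => w.ne) (j₀ := ()) I p hB hη hηr hΘ.tau (Θ := Φ) hrot hg hsupp hω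
    (S := S) hS (by
      intro σ e he hSe
      obtain ⟨d, h1, h2, ⟨j, hj⟩, h5⟩ := hS' σ e hSe he
      exact ⟨d, h1, h2, hcov j _ hj, h5⟩)
  set C : ℝ := ∑ i ∈ I, (2 / r ^ 2 * edE w.X w.b (p i) r) with hCdef
  set E : ℝ := ∑ e, ‖Φ e‖ ^ 2 with hE
  have hC0 : 0 ≤ C := Finset.sum_nonneg fun i _ => by
    unfold edE
    positivity
  have hE0 : 0 ≤ E := Finset.sum_nonneg fun e _ => by positivity
  have hωC : 0 ≤ 4 * ω * C := by
    rcases I.eq_empty_or_nonempty with h0 | ⟨i, hi⟩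
    · have : C = 0 := by rw [hCdef, h0]; simp
      rw [this]; simp
    · have hp : p i ∈ Sq (p i) (r / 2) := by
        have := (hB i hi).rpos
        constructor <;> simp <;> linarith
      have : 0 ≤ ω := (H847.qpr_nonneg _ _).trans (hω i hi _ hp)
      positivity
  rw [← W0.sum_real, W0.Qt, ← hE, ← ENNReal.ofReal_mul hωC]
  apply ENNReal.ofReal_le_ofReal
  have hc : (0 : ℝ) < 2 ^ Fintype.card w.V := by positivity
  rw [div_le_iff₀ hc]
  refine le_trans (le_of_eq ?_) (key.trans (le_of_eq ?_))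
  · exact Finset.sum_congr (by ext; simp) fun _ _ => rfl
  · ring

end Vale.Agent.P148.R2.H609

open MeasureTheory Set Metric Filter ProbabilityTheory Topology
open _root_.P148 _root_.P148.H729
open scoped ENNReal NNReal
open Vale.Agent.P148.R2.H184 Vale.Agent.P148.R2.H144
open Vale.Agent.P148.R2.H609 (Sq BoxOK RingOK NF edE Bq Small)
open Vale.Agent.P148.R2.H847 (qpr UArm)
open Vale.Agent.P148.R2.H203 (tot rs Sat)
open Vale.Agent.P148.R2.H400 (Facing Start)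
open Vale.Agent.P148.R2.H995 (nsup)
open Vale.Agent.P148.R2.H592 (Three nbr tail head vc Fc HullTri XU Generic bfar)
open Vale.Agent.P148.R2.H566 (W0 Scene AScene Ev Asq)
open Vale.Agent.P148.R2.F (whp ArmStmt)

universe u

namespace Vale.Agent.P148.R2.H291

/-- **Row SFA, one world**, on an event of high probability, general form. -/
theorem exists_sfG (hArm : ArmStmt.{u}) {τ : ℂ} {κ : ℝ} {Θ : Dt → ℂ} (hΘ : Wt τ κ Θ) {ε : ℝ}
    (hε : 0 < ε) : ∃ η > 0, ∃ G : Set Pt → Prop, Ev.{u} G ∧ ∀ T, G T → ∀ w : W0,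
      w.X ∩ ball 0 4 = pts T ∩ ball 0 4 → (∀ x ∈ w.X, x ∈ Asq → x ∉ w.B) →
      (w.B \ ball 0 4).Nonempty →
      ∀ {M : ℕ} [NeZero M] (P : ZMod M → Set ℂ),
        (∀ j, ∀ x ∈ P j, 3 / 4 ≤ nsup x ∧ nsup x ≤ 3 / 2) →
        ∀ {S : (w.V → Bool) → w.D → Prop}, (∀ σ, Sat w.T σ (S σ)) →
          (∀ σ e, S σ e → w.T.Mi σ e → ∃ d, w.T.Rel σ e d ∧ tail d ∈ w.B ∧ (∃ j, tail d ∈ P j) ∧
            Small w.T σ w.O η d) →
        w.En S (rs (w.Lo Asq) (w.th Θ)) ≤ ENNReal.ofReal ε := by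
  set C : ℝ := 4 * (8 * C0 * 2401) * CT κ 1 with hC
  have hC0 := C0_nonneg
  have hCT : 0 ≤ CT κ 1 := mul_nonneg (mul_nonneg (by positivity) (CD_nonneg 2 3)) (by positivity)
  have hC0' : 0 ≤ C := by positivity
  set ω : ℝ := ε / (C + 1) with hω
  have hω0 : 0 < ω := by positivity
  obtain ⟨η, hη, μ, hμ, hημ, hE⟩ := exists_ringEnv hArm (r := 1 / 8) (by norm_num) hω0
  refine ⟨η, hη, fun T => RingEnv (pts T) bI bc (1 / 8) μ η ω ∧
    EQ (pts T) (closedBall 0 1) Θ ≤ ENNReal.ofReal (CT κ 1), ?_, ?_⟩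
  · refine ev_of_whp ?_
    filter_upwards [hE bI bc, whp_EQ hΘ 0 (r := 1) one_pos (Q := closedBall 0 1) subset_rfl]
      with m h1 h2
    exact ⟨h1, h2⟩
  · rintro T ⟨h1, h2⟩ w hX hA hBn M _ P hP S hS hS'
    have hsub : ∀ i ∈ bI, closedBall (bc i) (3 * (1 / 8)) ⊆ ball 0 4 := by
      intro i hi z hz
      rw [mem_closedBall] at hz
      rw [mem_ball]
      have h3 := dist_triangle z (bc i) 0
      rw [dist_zero_right (bc i)] at h3
      linarith [norm_bc hi]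
    have hXb : ∀ i ∈ bI, pts T ∩ closedBall (bc i) (3 * (1 / 8)) =
        w.X ∩ closedBall (bc i) (3 * (1 / 8)) := fun i hi => inter_sub (hsub i hi) hX.symm
    have hbox : ∀ i ∈ bI, BoxOK w.X (fun _ : Unit => w.B) () (bc i) (1 / 8) μ := by
      intro i hi
      refine h1.boxOK (by norm_num) hμ.le hημ hη.le hXb hi
        (fun j hj => absurd (Subsingleton.elim j ()) hj) ?_
      obtain ⟨x, hx1, hx2⟩ := hBn
      refine ⟨x, hx1, fun hx3 => hx2 (hsub i hi ?_)⟩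
      rw [mem_closedBall]
      have := norm_le_of_sq hx3
      linarith
    have hfin : (H609.Gs w.X (fun _ : Unit => w.B)).Finite :=
      w.hull.fin.subset fun x hx => hx.1
    have h3 := H609.sfa_gen (ω := ω) bI bc hbox (fun j x hx => by
        obtain ⟨m, hm, hx'⟩ := exists_bc (hP j x hx).1 (hP j x hx).2
        exact ⟨m, hm, by norm_num; exact hx'⟩) hη.le hημ
      (fun i hi z hz => (h1 w.X hXb).2 _ (fun x hx => hx.1) hfin i hi z hz)
      (A := Asq) (fun i hi => disj_bc hi) hA hΘ hS hS'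
    refine h3.trans ?_
    have hXA : w.X ∩ Asq = pts T ∩ Asq := by
      refine (inter_sub ?_ hX.symm).symm
      exact H566.Asq_subset.trans ((closedBall_subset_ball (by norm_num)))
    have h4 : w.Qt (rs (w.Lo Asq) (w.th Θ)) ≤ ENNReal.ofReal (CT κ 1) := by
      refine (Qt_rs_le w hXA hA Θ).trans (le_trans ?_ h2)
      unfold EQ
      refine ENNReal.tsum_le_tsum fun d => ?_
      classical
      split_ifs with h1 h2 h2
      · exact le_rfl
      · exact absurd (h1.mono H566.Asq_subset) h2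
      · exact zero_le
      · exact le_rfl
    have h5 : ∑ i ∈ bI, (2 / (1 / 8 : ℝ) ^ 2 * edE w.X w.b (bc i) (1 / 8)) ≤ 8 * C0 * 2401 := by
      refine (h1.sum_edE w.hull (by norm_num) hXb).trans ?_
      have : (bI.card : ℝ) ≤ 2401 := by exact_mod_cast card_bI
      gcongr
    refine (mul_le_mul' (ENNReal.ofReal_le_ofReal (mul_le_mul_of_nonneg_left h5
      (by positivity))) h4).trans ?_
    rw [← ENNReal.ofReal_mul (by positivity)]
    apply ENNReal.ofReal_le_ofReal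
    have e : 4 * ω * (8 * C0 * 2401) * CT κ 1 = C * ω := by rw [hC]; ring
    rw [e, hω, mul_div_assoc', div_le_iff₀ (by positivity)]
    nlinarith

/-- The classes of small footprint of the middle assembly. -/
theorem small_of_SmC {w : W0} {M : ℕ} [NeZero M] {P : ZMod M → Set ℂ} {η : ℝ}
    (hR : RingOK w P η) {κ' : Type*} {Arc : κ' → Set w.D}
    (hArc : ∀ j, ∃ k, Arc k = Bq w (P j)) {A : Set ℂ} {σ : w.V → Bool} {e : w.D}
    (he : w.SmC A Arc σ e) : ∃ d, w.T.Rel σ e d ∧ tail d ∈ w.B ∧ (∃ j, tail d ∈ P j) ∧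
      Small w.T σ w.O η d := by
  obtain ⟨-, d, h1, h2, h3, h4⟩ := he
  obtain ⟨⟨j, hj⟩, h5⟩ := H609.small_own hR h2 h3 (fun i hi hF => by
    apply h4
    obtain ⟨k, hk⟩ := hArc i
    refine ⟨k, by rw [hk]; exact hF, ?_⟩
    rw [hk]
    exact fun hh => hi hh.2)
  exact ⟨d, h1, hR.sub j hj, ⟨j, hj⟩, h5⟩

/-- The world `w` has a ring of arcs of diameter `η`. -/
structure RingW (w : W0) {κ' : Type*} (Arc : κ' → Set w.D) (T : Set Pt) (η : ℝ) : Prop where
  agree : w.X ∩ ball 0 4 = pts T ∩ ball 0 4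
  free : ∀ x ∈ w.X, x ∈ Asq → x ∉ w.B
  out : (w.B \ ball 0 4).Nonempty
  ring : ∃ (M : ℕ) (_ : NeZero M) (P : ZMod M → Set ℂ), RingOK w P η ∧
    (∀ j, ∀ x ∈ P j, 3 / 4 ≤ nsup x ∧ nsup x ≤ 3 / 2) ∧ ∀ j, ∃ k, Arc k = Bq w (P j)

/-- **Row SFA, one world**, for the classes of the middle assembly. -/
theorem exists_sf (hArm : ArmStmt.{u}) {τ : ℂ} {κ : ℝ} {Θ : Dt → ℂ} (hΘ : Wt τ κ Θ) {ε : ℝ}
    (hε : 0 < ε) : ∃ η > 0, ∃ G : Set Pt → Prop, Ev.{u} G ∧ ∀ T, G T → ∀ w : W0,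
      ∀ {κ' : Type} (Arc : κ' → Set w.D), RingW w Arc T η →
        w.En (w.SmC Asq Arc) (rs (w.Lo Asq) (w.th Θ)) ≤ ENNReal.ofReal ε := by
  obtain ⟨η, hη, G, hG, h⟩ := exists_sfG hArm hΘ hε
  refine ⟨η, hη, G, hG, fun T hT w κ' Arc hW => ?_⟩
  obtain ⟨M, _, P, h1, h2, h3⟩ := hW.ring
  exact h T hT w hW.agree hW.free hW.out P h2 (fun σ => H566.W0.smC_sat)
    (fun σ e he _ => small_of_SmC h1 h3 he)

/-- **Row SFA of the middle assembly** (`sf` of `H566.meu_of_rows2`). -/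
theorem sf_row (hArm : ArmStmt.{u}) {τ : ℂ} {κ₀ : ℝ} {Θ : Dt → ℂ} (hΘ : Wt τ κ₀ Θ)
    (κ : ℕ → Type) (sc : ∀ N : ℕ, ℕ → Set Pt → AScene (κ N))
    (hsum : ∀ N, ∀ᶠ M in atTop, Ev.{u} fun T => ∑ i, (sc N M T).p i = 1)
    (hring : ∀ η : ℝ, 0 < η → ∃ N, ∀ᶠ M in atTop, Ev.{u} fun T =>
      ∀ i, (sc N M T).p i ≠ 0 → RingW ((sc N M T).w i) ((sc N M T).Arc i) T η)
    {ε : ℝ} (hε : 0 < ε) : ∃ N, ∀ᶠ M in atTop, Ev.{u} fun T =>
      (sc N M T).mnA (sc N M T).scl Θ ≤ ENNReal.ofReal ε := by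
  obtain ⟨η, hη, G, hG, h⟩ := exists_sf hArm hΘ hε
  obtain ⟨N, hN⟩ := hring η hη
  refine ⟨N, ?_⟩
  filter_upwards [hN, hsum N] with M hM hs
  refine ((hG.and hM).and hs).mono ?_
  rintro T ⟨⟨h1, h2⟩, h3⟩
  calc (sc N M T).mnA (sc N M T).scl Θ
      ≤ ∑ i, (sc N M T).p i * ENNReal.ofReal ε := by
        refine Finset.sum_le_sum fun i _ => ?_
        by_cases hi : (sc N M T).p i = 0
        · rw [hi, zero_mul, zero_mul]
        · gcongr
          exact h T h1 _ _ (h2 i hi)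
    _ = ENNReal.ofReal ε := by rw [← Finset.sum_mul, h3, one_mul]

end Vale.Agent.P148.R2.H291
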