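import Vale.Agent.P148.R2.H172.Tilt

/-!
# Upper bounds for the mean of local functions under the tilted law
-/

namespace Vale.Agent.P148.R2.H291

open MeasureTheory ProbabilityTheory Set Function
open scoped ENNReal
open Vale.Agent.P148.R2.H172

variable {ι κ : Type*} [Fintype ι] [Fintype κ] [DecidableEq ι] [DecidableEq κ]
  {X : ι → Type*} {Y : κ → Type*} [∀ i, MeasurableSpace (X i)] [∀ j, MeasurableSpace (Y j)]
  {μ : ∀ i, Measure (X i)} [∀ i, IsProbabilityMeasure (μ i)]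
  {ν : ∀ j, Measure (Y j)} [∀ j, IsProbabilityMeasure (ν j)]

/-- The mean of a local function under the tilted law is at most the untilted mean times a constant
which depends only on the number of blocks it uses. -/
theorem tilt_le (t : Tilt (X := X) (Y := Y) μ ν) {A : Finset ι} {J : Finset κ}
    {f : (∀ i, X i) → (∀ j, Y j) → ℝ≥0∞} (hf : Loc A J f) (hnb : ∀ j ∈ J, t.nb j ⊆ A)
    {G E : ℝ≥0∞} (hG : G ≠ ⊤) (hE : E ≠ ⊤) (hγ : ∀ i ∈ A, ∀ x, t.γ i x ≤ G)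
    (hε : ∀ j ∈ J, ∀ x y, t.ε j x y ≤ E) :
    t.E f ≤ G ^ A.card * E ^ J.card * ∫⁻ x, ∫⁻ y, f x y ∂Measure.pi ν ∂Measure.pi μ := by
  rw [t.E_eq hf hnb]
  have hGA : G ^ A.card ≠ ⊤ := ENNReal.pow_ne_top hG
  have hEJ : E ^ J.card ≠ ⊤ := ENNReal.pow_ne_top hE
  calc ∫⁻ x, (∏ i ∈ A, t.γ i (x i)) *
        ∫⁻ y, (∏ j ∈ J, t.ε j x (y j)) * f x y ∂Measure.pi ν ∂Measure.pi μ
      ≤ ∫⁻ x, G ^ A.card * ∫⁻ y, E ^ J.card * f x y ∂Measure.pi ν ∂Measure.pi μ := by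
        refine lintegral_mono fun x => mul_le_mul' ?_ (lintegral_mono fun y => ?_)
        · exact Finset.prod_le_pow_card _ _ _ fun i hi => hγ i hi _
        · exact mul_le_mul' (Finset.prod_le_pow_card _ _ _ fun j hj => hε j hj _ _) le_rfl
    _ = G ^ A.card * E ^ J.card * ∫⁻ x, ∫⁻ y, f x y ∂Measure.pi ν ∂Measure.pi μ := by
        simp_rw [lintegral_const_mul' _ _ hEJ]
        rw [lintegral_const_mul' _ _ hGA, lintegral_const_mul' _ _ hEJ, mul_assoc]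

omit [DecidableEq ι] [DecidableEq κ] [∀ i, IsProbabilityMeasure (μ i)] in
/-- The untilted mean is a product mean. -/
theorem lintegral_prod_blocks {f : (∀ i, X i) → (∀ j, Y j) → ℝ≥0∞}
    (hf : Measurable fun p : (∀ i, X i) × (∀ j, Y j) => f p.1 p.2) :
    ∫⁻ x, ∫⁻ y, f x y ∂Measure.pi ν ∂Measure.pi μ =
      ∫⁻ p, f p.1 p.2 ∂((Measure.pi μ).prod (Measure.pi ν)) :=
  (lintegral_prod _ hf.aemeasurable).symm

end Vale.Agent.P148.R2.H291
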