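import Vale.Agent.P148.R2.H291.Env
import Vale.Agent.P148.R2.H291.MomEQ
import Vale.Agent.P148.R2.H565.Loc5
import Vale.Agent.P148.R2.H566.World

/-!
# The total energy of a world

On the environment event the faces of world 0 with a free corner are small local faces of the
configuration; the total energy of the world is bounded by an absolute constant.
-/

open MeasureTheory Set Metric Filter ProbabilityTheory Topology
open _root_.P148
open scoped ENNReal NNReal
open Vale.Agent.P148.R2.H990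
open Vale.Agent.P148.R2.H184
open Vale.Agent.P148.R2.H592 (nbr tail head Fc HullTri vc ConnIn)
open Vale.Agent.P148.R2.H566 (W0)
open Vale.Agent.P148.R2.F (whp)

universe u

namespace Vale.Agent.P148.R2.H291

/-- The faces with a corner at a stable point are local. -/
theorem lf_of_stab {Y X : Set ℂ} {b : ZMod 3 → ℂ} (h : HullTri X b) {s : ℝ} (hs : 0 < s)
    {q : Fc X b × ZMod 3} (hst : Stab Y (tail q) s)
    (hXY : Y ∩ closedBall (tail q) (5 * s) = X ∩ closedBall (tail q) (5 * s))
    (hb : ∀ j, tail q ≠ b j) : LF X (closedBall (tail q) (s / 4)) (dt q) := by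
  have h1 : LF X univ (dt q) := Vale.Agent.P148.R2.H565.LF_univ_dt h hb
  have hst' : Stab X (tail q) s := hst.congr hs (by rw [hXY]; exact inter_subset_left)
  have h2 := hst'.vcell_subset hs
    ⟨tail q, self_mem_vcell X _, mem_closedBall_self hs.le⟩ h1.mem_vcell.1
  rw [mem_closedBall] at h2
  refine ⟨h1.1, h1.2.1, ?_, h1.2.2.2⟩
  refine closedBall_subset_closedBall' ?_
  show dist (cc (dt q)) (tail q) + dist (cc (dt q)) (tail q) ≤ s / 4
  linarith

/-- The hypotheses of a world inside the disc of radius `R`, over the stable set `Y`. -/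
structure InEnv (w : W0) (Y : Set ℂ) (R s : ℝ) : Prop where
  hs : 0 < s
  stab : ∀ z ∈ closedBall (0 : ℂ) R, Stab Y z s
  agree : Y ∩ closedBall 0 (R + 5 * s) = w.X ∩ closedBall 0 (R + 5 * s)
  hull : ∀ j, w.b j ∈ w.B
  free : ∀ x ∈ w.X, x ∉ w.B → x ∈ closedBall (0 : ℂ) R

theorem InEnv.lf {w : W0} {Y : Set ℂ} {R s : ℝ} (h : InEnv w Y R s) {q : w.D}
    (hq : tail q ∉ w.B) : LF w.X (closedBall 0 (R + s)) (dt q) := by
  have hs := h.hs
  have hX : tail q ∈ w.X := (w.hull.nbr_th q).1
  have hR := h.free _ hX hq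
  have h1 := lf_of_stab w.hull hs (h.stab _ hR) (inter_sub (closedBall_subset_closedBall' (by
    rw [mem_closedBall] at hR; linarith)) h.agree)
    (fun j hj => hq (by rw [hj]; exact h.hull j))
  refine h1.mono (closedBall_subset_closedBall' ?_)
  rw [mem_closedBall] at hR
  linarith

/-- All good faces are local. -/
theorem InEnv.lf_good {w : W0} {Y : Set ℂ} {R s : ℝ} (h : InEnv w Y R s) {q : w.D}
    (hq : w.T.Good q) : LF w.X (closedBall 0 (R + s)) (dt q) := by
  by_cases h1 : tail q ∈ w.B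
  · by_cases h2 : head q ∈ w.B
    · exfalso
      apply hq.1
      have e1 : w.π (tail q) = Sum.inl () :=
        Vale.Agent.P148.R2.H592.cmap_of_mem
          (fun i j hij => absurd (Subsingleton.elim i j) hij) h1
      have e2 : w.π (head q) = Sum.inl () :=
        Vale.Agent.P148.R2.H592.cmap_of_mem
          (fun i j hij => absurd (Subsingleton.elim i j) hij) h2
      show w.π (tail q) = w.π (tail (w.hull.rv q))
      rw [w.hull.tail_rv, e1, e2]
    · have h3 := h.lf (q := ((q.1, q.2 + 1) : Fc w.X w.b × ZMod 3))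
        (by rw [HullTri.tail_next]; exact h2)
      rw [dt_next] at h3
      exact LF_rt.1 h3
  · exact h.lf h1

/-- **The total energy of a world.** -/
theorem InEnv.Qt_le {w : W0} {Y : Set ℂ} {R s : ℝ} (h : InEnv w Y R s) (Θ : Dt → ℂ) :
    w.Qt (w.th Θ) ≤ EQ Y (closedBall 0 (R + s)) Θ := by
  classical
  have hs := h.hs
  have hsub : closedBall (0 : ℂ) (R + s) ⊆ closedBall 0 (R + 5 * s) :=
    closedBall_subset_closedBall (by linarith)
  rw [EQ_congr (inter_sub hsub h.agree) Θ]
  unfold W0.Qt EQ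
  rw [tsum_dt (Q := closedBall 0 (R + s)) w.hull (F := fun d =>
    if LF w.X (closedBall 0 (R + s)) d then ENNReal.ofReal (‖Θ d‖ ^ 2) else 0) (fun d hd => by
      by_contra hcon
      exact hd (if_neg hcon))]
  have h1 : ∀ q : w.D, ENNReal.ofReal (‖w.th Θ q‖ ^ 2) ≤
      if LF w.X (closedBall 0 (R + s)) (dt q) then ENNReal.ofReal (‖Θ (dt q)‖ ^ 2) else 0 := by
    intro q
    unfold W0.th Vale.Agent.P148.R2.H203.wt
    split_ifs with h1 h2 h2
    · exact le_rfl
    · exact absurd (h.lf_good h1) h2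
    · simp
    · simp
  calc ENNReal.ofReal (1 / 4 * ∑ d : w.D, ‖w.th Θ d‖ ^ 2)
      ≤ ENNReal.ofReal (∑ d : w.D, ‖w.th Θ d‖ ^ 2) := by
        refine ENNReal.ofReal_le_ofReal ?_
        have : 0 ≤ ∑ d : w.D, ‖w.th Θ d‖ ^ 2 := Finset.sum_nonneg fun _ _ => by positivity
        linarith
    _ = ∑ d : w.D, ENNReal.ofReal (‖w.th Θ d‖ ^ 2) :=
        ENNReal.ofReal_sum_of_nonneg fun _ _ => by positivity
    _ ≤ _ := Finset.sum_le_sum fun q _ => h1 q

/-- The constant of the total energy. -/
noncomputable def CT (κ R : ℝ) : ℝ := 675 * κ ^ 2 * CD 2 3 * R ^ 2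

/-- **The total energy of every world is bounded by a constant, with high probability.** -/
theorem whp_Qt {τ : ℂ} {κ : ℝ} {Θ : Dt → ℂ} (hΘ : Wt τ κ Θ) {R : ℝ} (hR : 0 < R) :
    ∀ᶠ m in whp.{u}, ∀ (w : W0) (s : ℝ), s ≤ R → InEnv w (pts m.2) R s →
      w.Qt (w.th Θ) ≤ ENNReal.ofReal (CT κ (2 * R)) := by
  filter_upwards [whp_EQ hΘ 0 (r := 2 * R) (by positivity)
    (Q := closedBall 0 (2 * R)) subset_rfl] with m hm w s hsR hw
  refine (hw.Qt_le Θ).trans (le_trans ?_ hm)
  unfold EQ
  refine ENNReal.tsum_le_tsum fun d => ?_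
  classical
  split_ifs with h1 h2 h2
  · exact le_rfl
  · exact absurd (h1.mono (closedBall_subset_closedBall (by linarith))) h2
  · exact zero_le
  · exact le_rfl

end Vale.Agent.P148.R2.H291
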